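import Vale.Agent.P093.MathlibUsed
import Vale.Agent.P093.MeanDim

/-!
The homological order of a finite open cover, and the homological mean dimension.
-/

open Filter Topology Set
open scoped ENNReal

namespace Vale.Agent.P093

/-- ordered chains on the vertex set `V`: formal integral combinations of ordered simplices
(lists of vertices; a list of length `q + 1` is a `q`-simplex) -/
abbrev OChain (V : Type*) := List V →₀ ℤ

/-- boundary of an ordered simplex `[v₀,…,v_q]`, `q ≥ 1`: `∑_i (-1)^i [v₀,…,omit v_i,…,v_q]`;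
the boundary of a `0`-simplex is `0` -/
noncomputable def simplexBoundary {V : Type*} (s : List V) : OChain V :=
  if s.length ≤ 1 then 0
  else ∑ i ∈ Finset.range s.length, (-1 : ℤ) ^ i • Finsupp.single (s.eraseIdx i) 1

/-- linear extension of a function on ordered simplices to chains -/
noncomputable def extend {V : Type*} {M : Type*} [AddCommGroup M] (F : List V → M) (c : OChain V) :
    M := c.sum fun s n => n • F s

/-- `HomOrderLE 𝒲 d`: the cover `𝒲` has homological order at most `d`. There are a finite open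
cover `𝒢` of `X` and an integral chain map `Φ` from the ordered chains on `𝒢`-small tuples of
points of `X` (Alexander–Spanier / Vietoris chains) to the ordered chains on the nerve of `𝒲`
which is augmentation preserving, carried by `x ↦` (the simplex of all `W ∈ 𝒲` containing the
points of `x`), and vanishes in degrees larger than `d`.
(A refinement of `𝒲` of order `≤ d` induces such a `Φ`.) -/
def HomOrderLE {X : Type*} [TopologicalSpace X] (𝒲 : Set (Set X)) (d : ℕ) : Prop :=
  ∃ (𝒢 : Set (Set X)) (Φ : List X → OChain (Set X)), IsFinOpenCover 𝒢 ∧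
    ∀ x : List X, x ≠ [] → (∃ G ∈ 𝒢, ∀ y ∈ x, y ∈ G) →
      (∀ s ∈ (Φ x).support, s.length = x.length ∧ ∀ W ∈ s, W ∈ 𝒲 ∧ ∀ y ∈ x, y ∈ W) ∧
      extend simplexBoundary (Φ x) = extend Φ (simplexBoundary x) ∧
      (x.length = 1 → (Φ x).sum (fun _ n => n) = 1) ∧
      (d + 1 < x.length → Φ x = 0)

/-- the homological order of a cover -/
noncomputable def homOrder {X : Type*} [TopologicalSpace X] (𝒲 : Set (Set X)) : ℕ :=
  sInf {d | HomOrderLE 𝒲 d}

/-- the homological mean dimension `mdim_ℤ(X,h) = sup_𝒰 limsup_N D_ℤ(𝒰^{[0,N)})/N` -/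
noncomputable def homMeanDim {X : Type*} [TopologicalSpace X] (h : X ≃ₜ X) : ℝ≥0∞ :=
  ⨆ 𝒰 : {𝒰 : Set (Set X) // IsFinOpenCover 𝒰},
    limsup (fun N : ℕ => (homOrder (iterCover h 𝒰.1 N) : ℝ≥0∞) / N) atTop

end Vale.Agent.P093
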