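import Vale.Agent.P093.CrossedDef
import Vale.Agent.P093.Comparison
import Vale.Agent.P093.Hom.OrderDef

/-!
The growth rates of the order and of the homological order of the iterated covers, and the
condition that the mean dimension is detected by homology.
-/

open Filter
open scoped ENNReal

namespace Vale.Agent.P093

section

variable {X : Type*} [TopologicalSpace X]

/-- `δ(𝒰) = lim_N D(𝒰^{[0,N)})/N`; `meanDim h` is the supremum of these numbers. -/
noncomputable def coverRate (h : X ≃ₜ X) (𝒰 : Set (Set X)) : ℝ≥0∞ :=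
  limsup (fun N : ℕ => (coverDim (iterCover h 𝒰 N) : ℝ≥0∞) / N) atTop

/-- `δ_ℤ(𝒰) = limsup_N D_ℤ(𝒰^{[0,N)})/N`; `homMeanDim h` is the supremum of these numbers. -/
noncomputable def homRate (h : X ≃ₜ X) (𝒰 : Set (Set X)) : ℝ≥0∞ :=
  limsup (fun N : ℕ => (homOrder (iterCover h 𝒰 N) : ℝ≥0∞) / N) atTop

/-- The mean dimension is detected by homology: some covers `𝒰` have `δ(𝒰)` close to the mean
dimension and `δ_ℤ(𝒰)/δ(𝒰)` close to one. -/
def HomDetected (h : X ≃ₜ X) : Prop :=
  ∀ c < meanDim h, ∀ η : ℝ≥0∞, η < 1 → ∃ 𝒰 : Set (Set X), IsFinOpenCover 𝒰 ∧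
    c < coverRate h 𝒰 ∧ η * coverRate h 𝒰 ≤ homRate h 𝒰

end

end Vale.Agent.P093
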