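import Vale.Agent.P093.Hom.OrderDef

/-!
Nonzero Alexander-Spanier classes that are pulled back from the nerve of a cover.
-/

namespace Vale.Agent.P093

/-- Some integral `n`-cocycle `e` of the nerve of `𝒲` which vanishes on the simplices of the nerve
that have a common point in `B` pulls back to a nonzero class of `H^n(X, B; ℤ)`
(Alexander-Spanier cohomology); `v` is a choice of members of `𝒲` such that `y ↦ v y` is a
simplicial approximation on small tuples. -/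
def NerveClass {X : Type*} [TopologicalSpace X] (𝒲 : Set (Set X)) (B : Set X) (n : ℕ) : Prop :=
  ∃ (e : List (Set X) → ℤ) (v : X → Set X),
    (∃ 𝒢, IsFinOpenCover 𝒢 ∧ ∀ G ∈ 𝒢, ∀ y ∈ G, v y ∈ 𝒲 ∧ G ⊆ v y) ∧
    (∀ s : List (Set X), s.length = n + 2 → (∃ y, ∀ W ∈ s, W ∈ 𝒲 ∧ y ∈ W) →
      extend e (simplexBoundary s) = 0) ∧
    (∀ s : List (Set X), s.length = n + 1 → (∃ y ∈ B, ∀ W ∈ s, W ∈ 𝒲 ∧ y ∈ W) → e s = 0) ∧
    ∀ 𝒢, IsFinOpenCover 𝒢 → ∀ b : List X → ℤ, (∀ x, (∀ y ∈ x, y ∈ B) → b x = 0) →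
      ∃ x : List X, x.length = n + 1 ∧ (∃ G ∈ 𝒢, ∀ y ∈ x, y ∈ G) ∧
        e (x.map v) ≠ extend b (simplexBoundary x)

end Vale.Agent.P093
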