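import Mathlib

/-!
Cochain calculus on ordered tuples (lists). A cochain is a function `List Y → M`; the value on a
list of length `q + 1` is its component of degree `q`; the value on `[]` is irrelevant or zero.
-/

namespace Vale.Agent.P093.Hom

variable {Y Z W : Type*} {M N : Type*} [AddCommGroup M] [AddCommGroup N]

/-- coboundary of a function on ordered tuples: `dl F [y₀,…,y_q] = ∑ (-1)^i F (omit y_i)` -/
def dl : (List Y → M) → List Y → M
  | _, [] => 0
  | F, y :: l => F l - dl (fun l' => F (y :: l')) l

/-- cup product: `cup f G [y₀,…,y_q] = ∑_k f [y₀,…,y_k] • G [y_k,…,y_q]` -/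
def cup : (List Y → ℤ) → (List Y → M) → List Y → M
  | _, _, [] => 0
  | f, G, y :: l => f [y] • G (y :: l) + cup (fun l' => f (y :: l')) G l

/-- the sign operator `(-1)^deg` -/
def sg (F : List Y → M) (l : List Y) : M := (-1 : ℤ) ^ (l.length + 1) • F l

/-- prism between two vertex maps `a` and `b` -/
def pr (a b : Y → Z) : (List Z → M) → List Y → M
  | _, [] => 0
  | F, y :: l => F (a y :: b y :: l.map b) - pr a b (fun l' => F (a y :: l')) l

@[simp] theorem dl_nil (F : List Y → M) : dl F [] = 0 := rfl
theorem dl_cons (F : List Y → M) (y : Y) (l : List Y) :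
    dl F (y :: l) = F l - dl (fun l' => F (y :: l')) l := rfl
@[simp] theorem cup_nil (f : List Y → ℤ) (G : List Y → M) : cup f G [] = 0 := rfl
theorem cup_cons (f : List Y → ℤ) (G : List Y → M) (y : Y) (l : List Y) :
    cup f G (y :: l) = f [y] • G (y :: l) + cup (fun l' => f (y :: l')) G l := rfl
@[simp] theorem pr_nil (a b : Y → Z) (F : List Z → M) : pr a b F [] = 0 := rfl
theorem pr_cons (a b : Y → Z) (F : List Z → M) (y : Y) (l : List Y) :
    pr a b F (y :: l) = F (a y :: b y :: l.map b) - pr a b (fun l' => F (a y :: l')) l := rfl

theorem dl_singleton (F : List Y → M) (y : Y) : dl F [y] = F [] := by simp [dl_cons]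
theorem dl_pair (F : List Y → M) (y y' : Y) : dl F [y, y'] = F [y'] - F [y] := by
  simp [dl_cons]
theorem dl_triple (F : List Y → M) (y y' y'' : Y) :
    dl F [y, y', y''] = F [y', y''] - F [y, y''] + F [y, y'] := by
  simp [dl_cons]; abel

theorem dl_add (F G : List Y → M) (l : List Y) :
    dl (fun l => F l + G l) l = dl F l + dl G l := by
  induction l generalizing F G with
  | nil => simp
  | cons y l ih => simp only [dl_cons]; rw [ih]; abel

theorem dl_sub (F G : List Y → M) (l : List Y) :
    dl (fun l => F l - G l) l = dl F l - dl G l := by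
  induction l generalizing F G with
  | nil => simp
  | cons y l ih => simp only [dl_cons]; rw [ih]; abel

theorem dl_neg (F : List Y → M) (l : List Y) :
    dl (fun l => - F l) l = - dl F l := by
  induction l generalizing F with
  | nil => simp
  | cons y l ih => simp only [dl_cons]; rw [ih]; abel

theorem dl_zero (l : List Y) : dl (fun _ => (0 : M)) l = 0 := by
  induction l with
  | nil => rfl
  | cons y l ih => simp only [dl_cons]; rw [ih]; abel

theorem dl_zsmul (n : ℤ) (F : List Y → M) (l : List Y) :
    dl (fun l => n • F l) l = n • dl F l := by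
  induction l generalizing F with
  | nil => simp
  | cons y l ih => simp only [dl_cons]; rw [ih, smul_sub]

theorem dl_map (D : M →+ N) (F : List Y → M) (l : List Y) :
    dl (fun l => D (F l)) l = D (dl F l) := by
  induction l generalizing F with
  | nil => simp
  | cons y l ih => simp only [dl_cons]; rw [ih, map_sub]

theorem dl_sum {ι : Type*} (s : Finset ι) (F : ι → List Y → M) (l : List Y) :
    dl (fun l => ∑ i ∈ s, F i l) l = ∑ i ∈ s, dl (F i) l := by
  induction l generalizing F with
  | nil => simp
  | cons y l ih => simp only [dl_cons]; rw [ih, Finset.sum_sub_distrib]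

/-- the coboundary has square zero -/
theorem dl_dl (F : List Y → M) (l : List Y) : dl (dl F) l = 0 := by
  induction l generalizing F with
  | nil => rfl
  | cons y l ih =>
    have : (fun l' => dl F (y :: l')) = fun l' => F l' - dl (fun l'' => F (y :: l'')) l' := by
      funext l'; rw [dl_cons]
    rw [dl_cons, this, dl_sub, ih]
    abel

/-- naturality -/
theorem dl_comp (a : Y → Z) (F : List Z → M) (l : List Y) :
    dl (fun l => F (l.map a)) l = dl F (l.map a) := by
  induction l generalizing F with
  | nil => rfl
  | cons y l ih =>
    simp only [dl_cons, List.map_cons]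
    rw [ih (fun l' => F (a y :: l'))]

theorem cup_add_left (f f' : List Y → ℤ) (G : List Y → M) (l : List Y) :
    cup (fun l => f l + f' l) G l = cup f G l + cup f' G l := by
  induction l generalizing f f' with
  | nil => simp
  | cons y l ih => simp only [cup_cons]; rw [ih, add_smul]; abel

theorem cup_sub_left (f f' : List Y → ℤ) (G : List Y → M) (l : List Y) :
    cup (fun l => f l - f' l) G l = cup f G l - cup f' G l := by
  induction l generalizing f f' with
  | nil => simp
  | cons y l ih => simp only [cup_cons]; rw [ih, sub_smul]; abel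

theorem cup_neg_left (f : List Y → ℤ) (G : List Y → M) (l : List Y) :
    cup (fun l => - f l) G l = - cup f G l := by
  induction l generalizing f with
  | nil => simp
  | cons y l ih => simp only [cup_cons]; rw [ih, neg_smul]; abel

theorem cup_zsmul_left (n : ℤ) (f : List Y → ℤ) (G : List Y → M) (l : List Y) :
    cup (fun l => n * f l) G l = n • cup f G l := by
  induction l generalizing f with
  | nil => simp
  | cons y l ih => simp only [cup_cons]; rw [ih, smul_add, mul_smul]

theorem cup_sum_left {ι : Type*} (s : Finset ι) (f : ι → List Y → ℤ) (G : List Y → M)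
    (l : List Y) : cup (fun l => ∑ i ∈ s, f i l) G l = ∑ i ∈ s, cup (f i) G l := by
  induction l generalizing f with
  | nil => simp
  | cons y l ih => simp only [cup_cons]; rw [ih, Finset.sum_smul, Finset.sum_add_distrib]

theorem cup_zero_left (G : List Y → M) (l : List Y) : cup (fun _ => 0) G l = 0 := by
  induction l with
  | nil => simp
  | cons y l ih => simp only [cup_cons]; rw [ih]; simp

theorem cup_add_right (f : List Y → ℤ) (G G' : List Y → M) (l : List Y) :
    cup f (fun l => G l + G' l) l = cup f G l + cup f G' l := by
  induction l generalizing f with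
  | nil => simp
  | cons y l ih => simp only [cup_cons]; rw [ih, smul_add]; abel

theorem cup_sub_right (f : List Y → ℤ) (G G' : List Y → M) (l : List Y) :
    cup f (fun l => G l - G' l) l = cup f G l - cup f G' l := by
  induction l generalizing f with
  | nil => simp
  | cons y l ih => simp only [cup_cons]; rw [ih, smul_sub]; abel

theorem cup_neg_right (f : List Y → ℤ) (G : List Y → M) (l : List Y) :
    cup f (fun l => - G l) l = - cup f G l := by
  induction l generalizing f with
  | nil => simp
  | cons y l ih => simp only [cup_cons]; rw [ih, smul_neg]; abel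

theorem cup_zero_right (f : List Y → ℤ) (l : List Y) : cup f (fun _ => (0 : M)) l = 0 := by
  induction l generalizing f with
  | nil => simp
  | cons y l ih => simp only [cup_cons]; rw [ih]; simp

theorem cup_sum_right {ι : Type*} (s : Finset ι) (f : List Y → ℤ) (G : ι → List Y → M)
    (l : List Y) : cup f (fun l => ∑ i ∈ s, G i l) l = ∑ i ∈ s, cup f (G i) l := by
  induction l generalizing f with
  | nil => simp
  | cons y l ih => simp only [cup_cons]; rw [ih, Finset.smul_sum, Finset.sum_add_distrib]

theorem cup_zsmul_right (n : ℤ) (f : List Y → ℤ) (G : List Y → M) (l : List Y) :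
    cup f (fun l => n • G l) l = n • cup f G l := by
  induction l generalizing f with
  | nil => simp
  | cons y l ih => simp only [cup_cons]; rw [ih, smul_add, smul_comm]

theorem map_cup (D : M →+ N) (f : List Y → ℤ) (G : List Y → M) (l : List Y) :
    D (cup f G l) = cup f (fun l => D (G l)) l := by
  induction l generalizing f with
  | nil => simp
  | cons y l ih => simp only [cup_cons]; rw [map_add, map_zsmul, ih]

theorem cup_comp (a : Y → Z) (f : List Z → ℤ) (G : List Z → M) (l : List Y) :
    cup (fun l => f (l.map a)) (fun l => G (l.map a)) l = cup f G (l.map a) := by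
  induction l generalizing f with
  | nil => rfl
  | cons y l ih =>
    simp only [cup_cons, List.map_cons, List.map_nil]
    rw [ih (fun l' => f (a y :: l'))]

/-- associativity -/
theorem cup_assoc (f g : List Y → ℤ) (H : List Y → M) (l : List Y) :
    cup (cup f g) H l = cup f (cup g H) l := by
  induction l generalizing f g with
  | nil => rfl
  | cons y l ih =>
    have h1 : (fun l' => cup f g (y :: l')) =
        fun l' => f [y] * g (y :: l') + cup (fun l'' => f (y :: l'')) g l' := by
      funext l'; rw [cup_cons]; rfl
    have h2 : cup f g [y] = f [y] * g [y] := by simp [cup_cons]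
    rw [cup_cons, h1, cup_add_left, cup_zsmul_left, ih, h2, cup_cons, cup_cons, smul_add, mul_smul]
    abel

theorem sg_cons (F : List Y → M) (y : Y) (l : List Y) :
    sg F (y :: l) = - sg (fun l' => F (y :: l')) l := by
  simp only [sg, List.length_cons, pow_succ]
  simp

theorem sg_singleton (F : List Y → M) (y : Y) : sg F [y] = F [y] := by simp [sg]

/-- **Leibniz rule** -/
theorem dl_cup (f : List Y → ℤ) (G : List Y → M) (hG : G [] = 0) (l : List Y) :
    dl (cup f G) l = cup (dl f) G l + cup (sg f) (dl G) l - f [] • G l := by
  induction l generalizing f with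
  | nil => simp [hG]
  | cons y l ih =>
    have h1 : (fun l' => cup f G (y :: l')) =
        fun l' => f [y] • G (y :: l') + cup (fun l'' => f (y :: l'')) G l' := by
      funext l'; rw [cup_cons]
    have h2 : (fun l' => dl f (y :: l')) = fun l' => f l' - dl (fun l'' => f (y :: l'')) l' := by
      funext l'; rw [dl_cons]
    have h3 : (fun l' => sg f (y :: l')) = fun l' => - sg (fun l'' => f (y :: l'')) l' := by
      funext l'; rw [sg_cons]
    rw [dl_cons, h1, dl_add, dl_zsmul, ih, cup_cons, cup_cons, h2, h3, cup_sub_left, cup_neg_left,
      dl_singleton, sg_singleton, dl_cons, smul_sub]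
    abel

/-- Leibniz rule for functions vanishing at the empty list -/
theorem dl_cup' (f : List Y → ℤ) (G : List Y → M) (hf : f [] = 0) (hG : G [] = 0) (l : List Y) :
    dl (cup f G) l = cup (dl f) G l + cup (sg f) (dl G) l := by
  rw [dl_cup f G hG, hf]; simp

/-- **prism identity** -/
theorem pr_dl (a b : Y → Z) (F : List Z → M) (l : List Y) :
    pr a b (dl F) l = F (l.map b) - F (l.map a) - dl (pr a b F) l := by
  induction l generalizing F with
  | nil => simp
  | cons y l ih =>
    have h1 : (fun l' => pr a b F (y :: l')) =
        fun l' => F (a y :: b y :: l'.map b) - pr a b (fun l'' => F (a y :: l'')) l' := by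
      funext l'; rw [pr_cons]
    have h2 : (fun l' => dl F (a y :: l')) = fun l' => F l' - dl (fun l'' => F (a y :: l'')) l' := by
      funext l'; rw [dl_cons]
    have h4 : ∀ (F G : List Z → M) (l : List Y),
        pr a b (fun l => F l - G l) l = pr a b F l - pr a b G l := by
      intro F G l
      induction l generalizing F G with
      | nil => simp
      | cons y l ih => simp only [pr_cons]; rw [ih]; abel
    rw [pr_cons, h2, h4, ih, dl_cons (pr a b F) y l, h1, dl_sub, dl_cons F (a y),
      dl_cons (fun l' => F (a y :: l')) (b y), dl_comp b (fun l' => F (a y :: b y :: l'))]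
    simp only [List.map_cons]
    abel

theorem pr_add (a b : Y → Z) (F G : List Z → M) (l : List Y) :
    pr a b (fun l => F l + G l) l = pr a b F l + pr a b G l := by
  induction l generalizing F G with
  | nil => simp
  | cons y l ih => simp only [pr_cons]; rw [ih]; abel

theorem pr_sub (a b : Y → Z) (F G : List Z → M) (l : List Y) :
    pr a b (fun l => F l - G l) l = pr a b F l - pr a b G l := by
  induction l generalizing F G with
  | nil => simp
  | cons y l ih => simp only [pr_cons]; rw [ih]; abel

theorem pr_neg (a b : Y → Z) (F : List Z → M) (l : List Y) :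
    pr a b (fun l => - F l) l = - pr a b F l := by
  induction l generalizing F with
  | nil => simp
  | cons y l ih => simp only [pr_cons]; rw [ih]; abel

theorem pr_zero (a b : Y → Z) (l : List Y) : pr a b (fun _ => (0 : M)) l = 0 := by
  induction l with
  | nil => simp
  | cons y l ih => simp only [pr_cons]; rw [ih]; abel

theorem pr_zsmul (a b : Y → Z) (n : ℤ) (F : List Z → M) (l : List Y) :
    pr a b (fun l => n • F l) l = n • pr a b F l := by
  induction l generalizing F with
  | nil => simp
  | cons y l ih => simp only [pr_cons]; rw [ih, smul_sub]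

theorem pr_sum {ι : Type*} (a b : Y → Z) (s : Finset ι) (F : ι → List Z → M) (l : List Y) :
    pr a b (fun l => ∑ i ∈ s, F i l) l = ∑ i ∈ s, pr a b (F i) l := by
  induction l generalizing F with
  | nil => simp
  | cons y l ih => simp only [pr_cons]; rw [ih, Finset.sum_sub_distrib]

theorem map_pr (D : M →+ N) (a b : Y → Z) (F : List Z → M) (l : List Y) :
    D (pr a b F l) = pr a b (fun l => D (F l)) l := by
  induction l generalizing F with
  | nil => simp
  | cons y l ih => simp only [pr_cons]; rw [map_sub, ih]

/-- prism of a cup product -/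
theorem pr_cup (a b : Y → Z) (f : List Z → ℤ) (G : List Z → M) (l : List Y) :
    pr a b (cup f G) l = cup (pr a b f) (fun l' => G (l'.map b)) l +
      cup (sg fun l' => f (l'.map a)) (pr a b G) l := by
  induction l generalizing f with
  | nil => simp
  | cons y l ih =>
    have h1 : (fun l' => cup f G (a y :: l')) =
        fun l' => f [a y] • G (a y :: l') + cup (fun l'' => f (a y :: l'')) G l' := by
      funext l'; rw [cup_cons]
    have h2 : (fun l' => pr a b f (y :: l')) =
        fun l' => f (a y :: b y :: l'.map b) - pr a b (fun l'' => f (a y :: l'')) l' := by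
      funext l'; rw [pr_cons]
    have h3 : (fun l' => sg (fun l'' => f (l''.map a)) (y :: l')) =
        fun l' => - sg (fun l'' => f (a y :: l''.map a)) l' := by
      funext l'; rw [sg_cons]; rfl
    rw [pr_cons, h1, pr_add, pr_zsmul, ih, cup_cons (pr a b f) _ y l, h2,
      cup_cons (sg fun l' => f (l'.map a)) _ y l, h3, cup_sub_left, cup_neg_left,
      sg_singleton, pr_cons a b G, pr_cons a b f, cup_cons f G (a y), cup_cons _ G (b y),
      cup_comp b (fun l' => f (a y :: b y :: l')) G]
    simp only [List.map_cons, List.map_nil, pr_nil, sub_zero, smul_sub]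
    abel

/-- a class of tuples closed under passing to subtuples -/
def Hered (S : Set (List Y)) : Prop := ∀ l ∈ S, ∀ l', l'.Sublist l → l' ∈ S

theorem Hered.tail {S : Set (List Y)} (hS : Hered S) {y : Y} {l : List Y} (h : y :: l ∈ S) :
    l ∈ S := hS _ h _ (List.sublist_cons_self _ _)

theorem Hered.cons_set {S : Set (List Y)} (hS : Hered S) (y : Y) :
    Hered {l | y :: l ∈ S} := fun _ hl _ hl' => hS _ hl _ (hl'.cons_cons y)

theorem dl_congr {S : Set (List Y)} (hS : Hered S) {F G : List Y → M}
    (h : ∀ l ∈ S, F l = G l) {l : List Y} (hl : l ∈ S) : dl F l = dl G l := by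
  induction l generalizing F G S with
  | nil => rfl
  | cons y l ih =>
    rw [dl_cons, dl_cons, h l (hS.tail hl),
      ih (hS.cons_set y) (F := fun l' => F (y :: l')) (G := fun l' => G (y :: l'))
        (fun l' hl' => h _ hl') hl]

theorem cup_congr {S : Set (List Y)} (hS : Hered S) {f g : List Y → ℤ} {F G : List Y → M}
    (hf : ∀ l ∈ S, f l = g l) (h : ∀ l ∈ S, F l = G l) {l : List Y} (hl : l ∈ S) :
    cup f F l = cup g G l := by
  have key : ∀ (l : List Y), (∀ l', l'.IsSuffix l → F l' = G l') → ∀ (f g : List Y → ℤ),
      (∀ l', l'.IsPrefix l → l' ≠ [] → f l' = g l') → cup f F l = cup g G l := by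
    intro l
    induction l with
    | nil => intro _ _ _ _; rfl
    | cons y l ih =>
      intro h1 f g h2
      rw [cup_cons, cup_cons, h2 [y] (by simp) (by simp), h1 (y :: l) (List.suffix_refl _)]
      congr 1
      refine ih (fun l' hl' => h1 l' (hl'.trans (List.suffix_cons _ _))) _ _ fun l' hl' _ =>
        h2 _ ?_ (by simp)
      rwa [List.cons_prefix_cons, and_iff_right rfl]
  exact key l (fun l' hl' => h l' (hS _ hl _ hl'.sublist)) f g
    (fun l' hl' _ => hf l' (hS _ hl _ hl'.sublist))

end Vale.Agent.P093.Hom
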