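import Mathlib
import Vale.Agent.P093.Hom.Cochain

/-!
Products of cubes (blocks): definitions.

A cube in the product is a list of cells `z` (the vertex 0), `o` (the vertex 1), `e` (the edge).
-/

namespace Vale.Agent.P093.Hom

/-- the three cells of the interval -/
inductive Cell | z | o | e
  deriving DecidableEq

variable {Y : Type*} {M : Type*} [AddCommGroup M]

/-- dimension of a cube -/
def ecount : List Cell → ℕ
  | [] => 0
  | .z :: κ => ecount κ
  | .o :: κ => ecount κ
  | .e :: κ => ecount κ + 1

/-- the cochains attached to the cells of one coordinate `v` (with values `0`, `1`) -/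
def cz (v : Y → ℤ) : List Y → ℤ
  | [y] => 1 - v y
  | _ => 0

@[inherit_doc cz]
def co (v : Y → ℤ) : List Y → ℤ
  | [y] => v y
  | _ => 0

@[inherit_doc cz]
def ce (v : Y → ℤ) : List Y → ℤ
  | [y, y'] => v y' - v y
  | _ => 0

/-- the `0`-cochain with constant value `m` -/
def unit (m : M) : List Y → M
  | [_] => m
  | _ => 0

/-- top cochain `δv₁ ∪ … ∪ δv_g` -/
def tau : List (Y → ℤ) → List Y → ℤ
  | [] => unit 1
  | v :: vs => cup (ce v) (tau vs)

/-- value of a function on cubes on the boundary of a cube -/
def cb : (List Cell → M) → List Cell → M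
  | _, [] => 0
  | T, .z :: κ => cb (fun κ' => T (.z :: κ')) κ
  | T, .o :: κ => cb (fun κ' => T (.o :: κ')) κ
  | T, .e :: κ => T (.o :: κ) - T (.z :: κ) - cb (fun κ' => T (.e :: κ')) κ

/-- the product of the coordinate chain maps `vs`, with tail `S` -/
def cp : List (Y → ℤ) → (List Cell → List Y → M) → List Y → M
  | [], S, l => S [] l
  | v :: vs, S, l => cup (cz v) (cp vs fun κ => S (.z :: κ)) l +
      cup (co v) (cp vs fun κ => S (.o :: κ)) l + cup (ce v) (cp vs fun κ => S (.e :: κ)) l

/-- a block: coordinates `vs`, modified by the chain homotopy with values `h` times the top cell -/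
structure Blk (Y : Type*) where
  /-- the coordinates -/
  vs : List (Y → ℤ)
  /-- the modification -/
  h : List Y → ℤ

/-- the top cube -/
def top (n : ℕ) : List Cell := List.replicate n .e

/-- the chain map of a block, with tail `S` -/
def bp (B : Blk Y) (S : List Cell → List Y → M) (l : List Y) : M :=
  cp B.vs S l - cup B.h (fun l' => cb (fun κ => S κ l') (top B.vs.length)) l -
    cup (dl B.h) (S (top B.vs.length)) l

/-- the product of the chain maps of the blocks -/
def blkProd : List (Blk Y) → (List Cell → M) → List Y → M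
  | [], T => unit (T [])
  | B :: Bs, T => bp B fun κ => blkProd Bs fun κ' => T (κ ++ κ')

/-- well-formed blocks -/
def Blk.Good (B : Blk Y) : Prop := ∀ l, B.h l ≠ 0 → l.length = B.vs.length ∧ 2 ≤ l.length

/-- `κ` may occur in the unmodified chain of `l` -/
def Compat (vs : List (Y → ℤ)) (l : List Y) (κ : List Cell) : Prop :=
  List.Forall₂ (fun v c => (c = Cell.z → ∃ y ∈ l, v y ≠ 1) ∧ (c = Cell.o → ∃ y ∈ l, v y ≠ 0) ∧
    (c = Cell.e → ∃ y ∈ l, ∃ y' ∈ l, v y ≠ v y')) vs κ

/-- `κ` may occur in the chain of `l` for the block `B` -/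
def Blk.Allowed (B : Blk Y) (l : List Y) (κ : List Cell) : Prop :=
  κ.length = B.vs.length ∧ (Compat B.vs l κ ∨ ∃ l', l'.Sublist l ∧ B.h l' ≠ 0) ∧
    ((∀ l', l'.Sublist l → tau B.vs l' = dl B.h l') → κ ≠ top B.vs.length)

/-- `κ` may occur in the chain of `l` for the product of the blocks -/
def AllowedL : List (Blk Y) → List Y → List Cell → Prop
  | [], _, κ => κ = []
  | B :: Bs, l, κ => ∃ κ₁ κ₂, κ = κ₁ ++ κ₂ ∧ B.Allowed l κ₁ ∧ AllowedL Bs l κ₂

/-- evaluation of `F` on the triangulated cube `κ`, whose vertices are lists of booleans -/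
def ct : List Cell → (List (List Bool) → M) → M
  | [], F => F [[]]
  | .z :: κ, F => ct κ fun l => F (l.map (false :: ·))
  | .o :: κ, F => ct κ fun l => F (l.map (true :: ·))
  | .e :: κ, F => ct κ (pr (false :: ·) (true :: ·) F)

/-- `S` is a vertex of the cube `κ` -/
def VertexOf (S : List Bool) (κ : List Cell) : Prop :=
  List.Forall₂ (fun b c => (b = true → c ≠ Cell.z) ∧ (b = false → c ≠ Cell.o)) S κ

end Vale.Agent.P093.Hom
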