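import Mathlib
import Vale.Agent.P093.Hom.BlocksDef

/-!
Definitions for the group push: nested radii, the cochains `a_k = t + ω_k`.
-/

namespace Vale.Agent.P093.Hom

variable {Y : Type*}

/-- indicator function of `{f ≥ 0}` -/
noncomputable def Hv (f : Y → ℝ) (y : Y) : ℤ := by
  classical exact if 0 ≤ f y then 1 else 0

theorem Hv_pos {f : Y → ℝ} {y : Y} (h : 0 ≤ f y) : Hv f y = 1 := by
  unfold Hv; rw [if_pos h]

theorem Hv_neg {f : Y → ℝ} {y : Y} (h : f y < 0) : Hv f y = 0 := by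
  unfold Hv; rw [if_neg (not_le.2 h)]

/-- `f` varies by at most `η` on each tuple of the class `S` -/
def Vary (S : Set (List Y)) (f : Y → ℝ) (η : ℝ) : Prop :=
  ∀ l ∈ S, ∀ y ∈ l, ∀ y' ∈ l, |f y - f y'| ≤ η

/-- `ω = (1 - H(A)) ∪ δH(B) ∪ δH(C)` -/
noncomputable def om (A B C : Y → ℝ) : List Y → ℤ :=
  cup (cz (Hv A)) (cup (ce (Hv B)) (ce (Hv C)))

/-- `a = t + ω` -/
noncomputable def aco (t : List Y → ℤ) (A B C : Y → ℝ) (l : List Y) : ℤ := t l + om A B C l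

/-- `√(A² + B² + C²)` -/
noncomputable def rad (A B C : Y → ℝ) (y : Y) : ℝ := Real.sqrt (A y ^ 2 + B y ^ 2 + C y ^ 2)

/-- nested radial functions: `F₀ = f₀`, `F_{l+1} = |(F_l, f_{2l+1}, f_{2l+2})| - ρ_l` -/
noncomputable def nF (f : ℕ → Y → ℝ) (ρ : ℕ → ℝ) : ℕ → Y → ℝ
  | 0 => f 0
  | l + 1 => fun y => rad (nF f ρ l) (f (2 * l + 1)) (f (2 * l + 2)) y - ρ l

/-- the cochain `a_l` -/
noncomputable def aL (t : List Y → ℤ) (f : ℕ → Y → ℝ) (ρ : ℕ → ℝ) (l : ℕ) : List Y → ℤ :=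
  aco t (nF f ρ l) (f (2 * l + 1)) (f (2 * l + 2))

/-- `P_l = a_0 ∪ … ∪ a_{l-1}` -/
noncomputable def PL (t : List Y → ℤ) (f : ℕ → Y → ℝ) (ρ : ℕ → ℝ) : ℕ → List Y → ℤ
  | 0 => unit 1
  | l + 1 => cup (PL t f ρ l) (aL t f ρ l)

/-- the coordinates of a group of size `2κ + 1` -/
noncomputable def gvs (f : ℕ → Y → ℝ) (κ : ℕ) : List (Y → ℤ) :=
  (List.range (2 * κ + 1)).map fun k => Hv (f k)

end Vale.Agent.P093.Hom
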