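import Mathlib
import Vale.Agent.P093.Hom.GroupDef
import Vale.Agent.P093.Hom.BlocksDef

/-!
The blocks of the static theorem.
-/

namespace Vale.Agent.P093.Hom

variable {Y C : Type*} {m : ℕ}

/-- all coordinates: first those of the groups, then the single ones -/
def coords (κ : ℕ) (crd : Fin m → ℕ → C) (ss : List C) : List C :=
  (List.finRange m).flatMap (fun γ => (List.range (2 * κ + 1)).map (crd γ)) ++ ss

/-- the blocks -/
noncomputable def blks (κ : ℕ) (χ : C → Y → ℝ) (crd : Fin m → ℕ → C) (ss : List C)
    (h : Fin m → List Y → ℤ) : List (Blk Y) :=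
  (List.finRange m).map (fun γ => ⟨gvs (fun k y => χ (crd γ k) y - 1 / 2) κ, h γ⟩) ++
    ss.map fun c => ⟨[Hv fun y => χ c y - 1 / 2], fun _ => 0⟩

/-- the set of coordinates which are on at the vertex `S` -/
def onS (cs : List C) (S : List Bool) : Set C := {c | (c, true) ∈ cs.zip S}

end Vale.Agent.P093.Hom
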