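import Mathlib
import Vale.Agent.P093.Hom.AllowedDef

/-!
Cells which may occur (task HOM-G3a).

`al_R χ y c cell`: if `cell ≠ z` then `1/8 < χ c y`; if `cell ≠ o` then `χ c y < 7/8`. For every
allowed list of cells this holds at every position. The number of edges is counted block by block.
-/

namespace Vale.Agent.P093.Hom

variable {Y C : Type*} {m κ : ℕ}

/-- What a cell says about the value of its coordinate. -/
def al_R (χ : C → Y → ℝ) (y : Y) (c : C) (k : Cell) : Prop :=
  (k ≠ Cell.z → 1 / 8 < χ c y) ∧ (k ≠ Cell.o → χ c y < 7 / 8)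

theorem al_Hv_ne_one {f : Y → ℝ} {y : Y} (h : Hv f y ≠ 1) : f y < 0 := by
  by_contra h'
  exact h (Hv_pos (not_lt.1 h'))

theorem al_Hv_ne_zero {f : Y → ℝ} {y : Y} (h : Hv f y ≠ 0) : 0 ≤ f y := by
  by_contra h'
  exact h (Hv_neg (not_le.1 h'))

/-- one block -/
theorem al_block (χ : C → Y → ℝ) (cs : List C) (h : List Y → ℤ) (l : List Y)
    (hvar : ∀ c ∈ cs, ∀ y ∈ l, ∀ y' ∈ l, |χ c y - χ c y'| ≤ 1 / 8)
    (hh : ∀ l', l'.Sublist l → h l' ≠ 0 → l' ≠ [] ∧
      ∀ y ∈ l', ∀ c ∈ cs, |χ c y - 1 / 2| ≤ 1 / 8)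
    {B : Blk Y} (hB : B.vs = cs.map fun c => Hv fun y => χ c y - 1 / 2) (hBh : B.h = h)
    {κs : List Cell} (hκ : B.Allowed l κs) {y : Y} (hy : y ∈ l) :
    List.Forall₂ (al_R χ y) cs κs := by
  obtain ⟨hlen, hc, -⟩ := hκ
  rw [hB, List.length_map] at hlen
  rcases hc with hc | ⟨l', hl', hne⟩
  · rw [hB, Compat, List.forall₂_map_left_iff, List.forall₂_iff_zip] at hc
    rw [List.forall₂_iff_zip]
    refine ⟨hc.1, fun {c k} hck => ?_⟩
    obtain ⟨hz, ho, he⟩ := hc.2 hck
    have hcm := (List.of_mem_zip hck).1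
    have hv := hvar c hcm
    have lo : ∀ y' ∈ l, 0 ≤ χ c y' - 1 / 2 → 1 / 8 < χ c y := by
      intro y' hy' h1
      have h2 := abs_le.1 (hv y hy y' hy')
      linarith [h2.1]
    have hi : ∀ y' ∈ l, χ c y' - 1 / 2 < 0 → χ c y < 7 / 8 := by
      intro y' hy' h1
      have h2 := abs_le.1 (hv y hy y' hy')
      linarith [h2.2]
    have both : ∀ y₁ ∈ l, ∀ y₂ ∈ l, Hv (fun y => χ c y - 1 / 2) y₁ ≠
        Hv (fun y => χ c y - 1 / 2) y₂ → 1 / 8 < χ c y ∧ χ c y < 7 / 8 := by
      intro y₁ h₁ y₂ h₂ hn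
      by_cases a₁ : 0 ≤ χ c y₁ - 1 / 2
      · by_cases a₂ : 0 ≤ χ c y₂ - 1 / 2
        · rw [Hv_pos (f := fun y => χ c y - 1 / 2) a₁,
            Hv_pos (f := fun y => χ c y - 1 / 2) a₂] at hn
          exact absurd rfl hn
        · exact ⟨lo y₁ h₁ a₁, hi y₂ h₂ (not_le.1 a₂)⟩
      · by_cases a₂ : 0 ≤ χ c y₂ - 1 / 2
        · exact ⟨lo y₂ h₂ a₂, hi y₁ h₁ (not_le.1 a₁)⟩
        · rw [Hv_neg (f := fun y => χ c y - 1 / 2) (not_le.1 a₁),
            Hv_neg (f := fun y => χ c y - 1 / 2) (not_le.1 a₂)] at hn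
          exact absurd rfl hn
    cases k with
    | z =>
      obtain ⟨y', hy', h1⟩ := hz rfl
      exact ⟨fun h0 => absurd rfl h0, fun _ => hi y' hy' (al_Hv_ne_one h1)⟩
    | o =>
      obtain ⟨y', hy', h1⟩ := ho rfl
      exact ⟨fun _ => lo y' hy' (al_Hv_ne_zero h1), fun h0 => absurd rfl h0⟩
    | e =>
      obtain ⟨y₁, h₁, y₂, h₂, hn⟩ := he rfl
      exact ⟨fun _ => (both y₁ h₁ y₂ h₂ hn).1, fun _ => (both y₁ h₁ y₂ h₂ hn).2⟩
  · rw [List.forall₂_iff_zip]
    refine ⟨hlen.symm, fun {c k} hck => ?_⟩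
    have hcm := (List.of_mem_zip hck).1
    rw [hBh] at hne
    obtain ⟨h0, h1⟩ := hh l' hl' hne
    obtain ⟨y', hy'⟩ := List.exists_mem_of_ne_nil l' h0
    have h2 := abs_le.1 (h1 y' hy' c hcm)
    have h3 := abs_le.1 (hvar c hcm y hy y' (hl'.subset hy'))
    exact ⟨fun _ => by linarith [h2.1, h3.1], fun _ => by linarith [h2.2, h3.2]⟩

theorem al_split {Bs Bs' : List (Blk Y)} {l : List Y} {κs : List Cell}
    (h : AllowedL (Bs ++ Bs') l κs) :
    ∃ κ₁ κ₂, κs = κ₁ ++ κ₂ ∧ AllowedL Bs l κ₁ ∧ AllowedL Bs' l κ₂ := by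
  induction Bs generalizing κs with
  | nil => exact ⟨[], κs, rfl, rfl, h⟩
  | cons B Bs ih =>
    obtain ⟨κ₁, κ₂, rfl, h1, h2⟩ := h
    obtain ⟨κ₃, κ₄, rfl, h3, h4⟩ := ih h2
    exact ⟨κ₁ ++ κ₃, κ₄, (List.append_assoc _ _ _).symm, ⟨κ₁, κ₃, rfl, h1, h3⟩, h4⟩

theorem al_forall₂ {ι : Type*} {R : C → Cell → Prop} {l : List Y} (Bk : ι → Blk Y)
    (cr : ι → List C) (xs : List ι)
    (h : ∀ x ∈ xs, ∀ κ', (Bk x).Allowed l κ' → List.Forall₂ R (cr x) κ') {κs : List Cell}
    (hκ : AllowedL (xs.map Bk) l κs) : List.Forall₂ R (xs.flatMap cr) κs := by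
  induction xs generalizing κs with
  | nil =>
    have h0 : κs = [] := hκ
    subst h0
    exact List.Forall₂.nil
  | cons x xs ih =>
    obtain ⟨κ₁, κ₂, rfl, h1, h2⟩ := hκ
    rw [List.flatMap_cons]
    exact List.rel_append (h x List.mem_cons_self _ h1)
      (ih (fun x' hx' => h x' (List.mem_cons_of_mem _ hx')) h2)

theorem al_ecount_append (a b : List Cell) : ecount (a ++ b) = ecount a + ecount b := by
  induction a with
  | nil => exact (Nat.zero_add _).symm
  | cons c a ih =>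
    cases c with
    | z => exact ih
    | o => exact ih
    | e =>
      show ecount (a ++ b) + 1 = ecount a + 1 + ecount b
      rw [ih]
      omega

theorem al_sum {ι : Type*} {l : List Y} (Bk : ι → Blk Y) (f g : ι → ℕ) (xs : List ι)
    (h : ∀ x ∈ xs, ∀ κ', (Bk x).Allowed l κ' → ecount κ' + g x ≤ f x) {κs : List Cell}
    (hκ : AllowedL (xs.map Bk) l κs) : ecount κs + (xs.map g).sum ≤ (xs.map f).sum := by
  induction xs generalizing κs with
  | nil =>
    have h0 : κs = [] := hκ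
    subst h0
    exact le_rfl
  | cons x xs ih =>
    obtain ⟨κ₁, κ₂, rfl, h1, h2⟩ := hκ
    have h3 := h x List.mem_cons_self _ h1
    have h4 := ih (fun x' hx' => h x' (List.mem_cons_of_mem _ hx')) h2
    rw [al_ecount_append, List.map_cons, List.sum_cons, List.map_cons, List.sum_cons]
    omega

theorem al_ecount_le (a : List Cell) : ecount a ≤ a.length := by
  induction a with
  | nil => exact le_rfl
  | cons c a ih =>
    cases c with
    | z => exact ih.trans (Nat.le_succ _)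
    | o => exact ih.trans (Nat.le_succ _)
    | e => exact Nat.succ_le_succ ih

theorem al_ecount_top {a : List Cell} (h : a.length ≤ ecount a) : a = top a.length := by
  induction a with
  | nil => rfl
  | cons c a ih =>
    have h1 := al_ecount_le a
    cases c with
    | z =>
      have h2 : a.length + 1 ≤ ecount a := h
      omega
    | o =>
      have h2 : a.length + 1 ≤ ecount a := h
      omega
    | e =>
      have h2 : a.length + 1 ≤ ecount a + 1 := h
      have h3 := ih (by omega)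
      show Cell.e :: a = Cell.e :: top a.length
      rw [← h3]

theorem al_ecount_zero {a : List Cell} (h : ∀ k ∈ a, k = Cell.z) : ecount a = 0 := by
  induction a with
  | nil => rfl
  | cons c a ih =>
    have h1 := h c List.mem_cons_self
    subst h1
    exact ih fun k hk => h k (List.mem_cons_of_mem _ hk)

/-- every position -/
theorem al_all (χ : C → Y → ℝ) (crd : Fin m → ℕ → C) (ss : List C)
    (h : Fin m → List Y → ℤ) (l : List Y)
    (hvar : ∀ c ∈ coords κ crd ss, ∀ y ∈ l, ∀ y' ∈ l, |χ c y - χ c y'| ≤ 1 / 8)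
    (hh : ∀ γ l', l'.Sublist l → h γ l' ≠ 0 → l' ≠ [] ∧
      ∀ y ∈ l', ∀ k ≤ 2 * κ, |χ (crd γ k) y - 1 / 2| ≤ 1 / 8) {y : Y} (hy : y ∈ l) :
    (∀ γ κ', (⟨gvs (fun k y => χ (crd γ k) y - 1 / 2) κ, h γ⟩ : Blk Y).Allowed l κ' →
      List.Forall₂ (al_R χ y) ((List.range (2 * κ + 1)).map (crd γ)) κ') ∧
    ∀ c ∈ ss, ∀ κ', (⟨[Hv fun y => χ c y - 1 / 2], fun _ => 0⟩ : Blk Y).Allowed l κ' →
      List.Forall₂ (al_R χ y) [c] κ' := by
  refine ⟨fun γ κ' hκ' => ?_, fun c hc κ' hκ' => ?_⟩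
  · refine al_block χ _ (h γ) l (fun c hc => hvar c ?_) (fun l' hl' hne => ?_) ?_ rfl hκ' hy
    · exact List.mem_append_left _ (List.mem_flatMap.2 ⟨γ, List.mem_finRange _, hc⟩)
    · refine ⟨(hh γ l' hl' hne).1, fun y' hy' c hc => ?_⟩
      obtain ⟨k, hk, rfl⟩ := List.mem_map.1 hc
      exact (hh γ l' hl' hne).2 y' hy' k (by have := List.mem_range.1 hk; omega)
    · show gvs _ κ = _
      rw [gvs, List.map_map]
      rfl
  · refine al_block χ [c] (fun _ => 0) l (fun c' hc' => hvar c' ?_) (fun l' _ hne => ?_) rfl rfl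
      hκ' hy
    · rw [List.mem_singleton] at hc'
      subst hc'
      exact List.mem_append_right _ hc
    · exact absurd rfl hne

theorem al_coords (χ : C → Y → ℝ) (crd : Fin m → ℕ → C) (ss : List C)
    (h : Fin m → List Y → ℤ) (l : List Y)
    (hvar : ∀ c ∈ coords κ crd ss, ∀ y ∈ l, ∀ y' ∈ l, |χ c y - χ c y'| ≤ 1 / 8)
    (hh : ∀ γ l', l'.Sublist l → h γ l' ≠ 0 → l' ≠ [] ∧
      ∀ y ∈ l', ∀ k ≤ 2 * κ, |χ (crd γ k) y - 1 / 2| ≤ 1 / 8)
    {κs : List Cell} (hκ : AllowedL (blks κ χ crd ss h) l κs) {y : Y} (hy : y ∈ l) :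
    List.Forall₂ (al_R χ y) (coords κ crd ss) κs := by
  obtain ⟨h1, h2⟩ := al_all χ crd ss h l hvar hh hy
  obtain ⟨κ₁, κ₂, rfl, h3, h4⟩ := al_split hκ
  refine List.rel_append (al_forall₂ _ _ _ (fun γ _ => h1 γ) h3) ?_
  have h5 := al_forall₂ _ (fun c => [c]) ss h2 h4
  rwa [List.flatMap_singleton'] at h5

theorem allowed_vertex (χ : C → Y → ℝ) (crd : Fin m → ℕ → C) (ss : List C)
    (h : Fin m → List Y → ℤ) (l : List Y)
    (hvar : ∀ c ∈ coords κ crd ss, ∀ y ∈ l, ∀ y' ∈ l, |χ c y - χ c y'| ≤ 1 / 8)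
    (hh : ∀ γ l', l'.Sublist l → h γ l' ≠ 0 → l' ≠ [] ∧
      ∀ y ∈ l', ∀ k ≤ 2 * κ, |χ (crd γ k) y - 1 / 2| ≤ 1 / 8)
    {κs : List Cell} (hκ : AllowedL (blks κ χ crd ss h) l κs) {S : List Bool}
    (hS : VertexOf S κs) {y : Y} (hy : y ∈ l) :
    (∀ c ∈ onS (coords κ crd ss) S, c ∈ coords κ crd ss ∧ 1 / 8 < χ c y) ∧
      ∀ c ∈ coords κ crd ss, 7 / 8 < χ c y → c ∈ onS (coords κ crd ss) S := by
  have h1 := al_coords χ crd ss h l hvar hh hκ hy
  generalize coords κ crd ss = cs at h1 ⊢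
  clear hκ hvar hh
  induction h1 generalizing S with
  | nil => exact ⟨fun c hc => absurd hc (by simp [onS]), fun c hc => absurd hc (by simp)⟩
  | cons hR hF ih =>
    rename_i c k cs κs
    cases hS with
    | cons hb hS' =>
      rename_i b S
      obtain ⟨i1, i2⟩ := ih hS'
      refine ⟨fun c' hc' => ?_, fun c' hc' h7 => ?_⟩
      · rcases List.mem_cons.1 hc' with h2 | h2
        · obtain ⟨rfl, hbt⟩ := Prod.ext_iff.1 h2
          exact ⟨List.mem_cons_self, hR.1 (hb.1 hbt.symm)⟩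
        · exact ⟨List.mem_cons_of_mem _ (i1 c' h2).1, (i1 c' h2).2⟩
      · rcases List.mem_cons.1 hc' with rfl | h2
        · refine List.mem_cons.2 (Or.inl ?_)
          have hko : k = Cell.o := by
            by_contra hko
            exact absurd (hR.2 hko) (not_lt.2 h7.le)
          cases b with
          | false => exact absurd hko (hb.2 rfl)
          | true => rfl
        · exact List.mem_cons_of_mem _ (i2 c' h2 h7)

open scoped Classical in
theorem allowed_count (χ : C → Y → ℝ) (crd : Fin m → ℕ → C) (ss : List C)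
    (h : Fin m → List Y → ℤ) (l : List Y)
    (hvar : ∀ c ∈ coords κ crd ss, ∀ y ∈ l, ∀ y' ∈ l, |χ c y - χ c y'| ≤ 1 / 8)
    (hh : ∀ γ l', l'.Sublist l → h γ l' ≠ 0 → l' ≠ [] ∧
      ∀ y ∈ l', ∀ k ≤ 2 * κ, |χ (crd γ k) y - 1 / 2| ≤ 1 / 8)
    {κs : List Cell} (hκ : AllowedL (blks κ χ crd ss h) l κs) {y : Y} (hy : y ∈ l)
    (P : Fin m → Prop) (hP : ∀ γ, ¬ P γ → ∀ k ≤ 2 * κ, χ (crd γ k) y ≤ 1 / 8)
    (good : Finset (Fin m)) (hgP : ∀ γ ∈ good, P γ)
    (hg : ∀ γ ∈ good, ∀ l', l'.Sublist l →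
      tau (gvs (fun k y => χ (crd γ k) y - 1 / 2) κ) l' = dl (h γ) l') :
    ecount κs + good.card ≤ (2 * κ + 1) * (Finset.univ.filter P).card +
      (ss.filter fun c => 1 / 8 < χ c y ∧ χ c y < 7 / 8).length := by
  obtain ⟨h1, h2⟩ := al_all χ crd ss h l hvar hh hy
  obtain ⟨κ₁, κ₂, rfl, h3, h4⟩ := al_split hκ
  have e1 := al_sum _ (fun γ => (2 * κ + 1) * if P γ then 1 else 0)
    (fun γ => if γ ∈ good then 1 else 0) (List.finRange m) (fun γ _ κ' hκ' => ?_) h3
  · have e2 := al_sum _ (fun c => if 1 / 8 < χ c y ∧ χ c y < 7 / 8 then 1 else 0)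
      (fun _ => 0) ss (fun c hc κ' hκ' => ?_) h4
    · have e3 : (good.card : ℕ) = ((List.finRange m).map fun γ => if γ ∈ good then 1 else 0).sum := by
        rw [← Fin.sum_univ_def, Finset.sum_boole]
        simp
      have e4 : (2 * κ + 1) * (Finset.univ.filter P).card =
          ((List.finRange m).map fun γ => (2 * κ + 1) * if P γ then 1 else 0).sum := by
        rw [← Fin.sum_univ_def, ← Finset.mul_sum, Finset.sum_boole]
        simp
      have e5 : (ss.filter fun c => 1 / 8 < χ c y ∧ χ c y < 7 / 8).length =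
          (ss.map fun c => if 1 / 8 < χ c y ∧ χ c y < 7 / 8 then 1 else 0).sum := by
        clear e2 h4 h2 hκ hvar
        induction ss with
        | nil => rfl
        | cons c ss ih =>
          rw [List.map_cons, List.sum_cons, ← ih, List.filter_cons]
          by_cases hc : 1 / 8 < χ c y ∧ χ c y < 7 / 8
          · rw [if_pos hc, if_pos (by simpa using hc), List.length_cons, Nat.add_comm]
          · rw [if_neg hc, if_neg (by simpa using hc), Nat.zero_add]
      rw [e3, e4, e5, al_ecount_append]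
      omega
    · have hF := h2 c hc κ' hκ'
      cases hF with
      | cons hR hF' =>
        cases hF'
        rename_i k
        by_cases hk : k = Cell.e
        · subst hk
          rw [if_pos ⟨hR.1 (by decide), hR.2 (by decide)⟩]
          exact le_rfl
        · have h0 : ecount [k] = 0 := by
            cases k with
            | z => rfl
            | o => rfl
            | e => exact absurd rfl hk
          rw [h0]
          exact Nat.zero_le _
  · have hF := h1 γ κ' hκ'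
    have hlen : κ'.length = 2 * κ + 1 := by
      have := hF.length_eq
      rw [List.length_map, List.length_range] at this
      exact this.symm
    have hle := al_ecount_le κ'
    by_cases hPγ : P γ
    · rw [if_pos hPγ]
      by_cases hγ : γ ∈ good
      · rw [if_pos hγ]
        have hne := hκ'.2.2 (hg γ hγ)
        have hvl : (gvs (fun k y => χ (crd γ k) y - 1 / 2) κ).length = κ'.length := by
          rw [gvs, List.length_map, List.length_range, hlen]
        have : ¬ κ'.length ≤ ecount κ' := by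
          intro h0
          apply hne
          show κ' = top (gvs (fun k y => χ (crd γ k) y - 1 / 2) κ).length
          rw [hvl]
          exact al_ecount_top h0
        omega
      · rw [if_neg hγ]
        omega
    · have hγ : γ ∉ good := fun h0 => hPγ (hgP γ h0)
      rw [if_neg hPγ, if_neg hγ]
      have : ecount κ' = 0 := by
        refine al_ecount_zero fun k hk => ?_
        by_contra hkz
        obtain ⟨i, hi, rfl⟩ := List.getElem_of_mem hk
        have hi' : i < ((List.range (2 * κ + 1)).map (crd γ)).length := by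
          rw [hF.length_eq]; exact hi
        have h5 := (List.forall₂_iff_get.1 hF).2 i hi' hi
        have h6 := h5.1 hkz
        have h7 : i < 2 * κ + 1 := by omega
        have h8 := hP γ hPγ i (by omega)
        simp only [List.get_eq_getElem, List.getElem_map, List.getElem_range] at h6
        linarith
      omega

end Vale.Agent.P093.Hom
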