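import Mathlib
import Vale.Agent.P093.Hom.GroupDef

/-!
TASK HOM-C: rounding phases to integral cochains.

Proofs.
* `round_cochain`: on `[y₀,y₁,y₂] ∈ S` with vertices in `E`, `|n - δα - th| ≤ 1/16` on the three
  edges (`n` = rounded values), `δδα = 0`, `|δth - T| ≤ 1/16`, so the integers `δn`, `T` differ by at
  most `4/16 < 1`. For tuples of other lengths both sides vanish.
* `arg_close`: `ph θ = exp(2πiθ)`. With `x = (arg z₁ - arg z₀)/(2π) + θ`: `ph x = (1+w)/|1+w|` with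
  `|w| ≤ 1/100`, so `|ph x - 1| ≤ 1/40`; and `|ph x - 1| = 2 |sin (π x)| ≥ 4 |x - round x|`
  (`Real.mul_le_sin` or similar).
* `arg_jump`: put `x = (arg z' - arg z)/(2π) ∈ (-1, 1)`; as in `arg_close` it is within `1/32` of an
  integer, i.e. of `-1, 0, 1`. If `0 ≤ A`: `arg z ∈ [-π/2, π/2]`, so `|arg z' - arg z| ≤ 3π/2` and the
  integer is `0`. If `A < 0` and `B, B'` have the same `H`: both arguments in `[0,π]` or both in
  `(-π,0)`, integer `0`. If `A < 0 ≤ B`, `B' < 0`: `arg z ∈ (π/2, π]`, `arg z' < 0`, so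
  `x < -1/4`, integer `-1`. If `A < 0`, `B < 0 ≤ B'`: integer `1`.
* `hopf_round`: write `az = arg (A + iB)`, `α = alH C v0 v1`, `th' = thH A B C th`; apply
  `round_cochain` with `T = aco t A B C`. On `E`: `|v1|² (rad + C) = |v0|² (rad - C)` (from (h1) or (h2)), so
  `|v0|² ≥ ε²/2` if `0 ≤ C`, `|v1|² ≥ ε²/2` if `C ≤ 0`.
  Edges: same sign of `C` at both ends: `arg_close` for `v0` (resp. `v1`).
  `C y₀ ≥ 0 > C y₁`: `0 ≤ C y₀ ≤ η`, `v1 y₀ = v0 y₀ (A + iB)/(rad + C)` at `y₀`, hence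
  `arg v0 y₀ + az y₀ ≡ arg v1 y₀` mod `2π`, and `|v1 y₀| ≥ ε/2`; `arg_close` for `v1`.
  `C y₀ < 0 ≤ C y₁`: `v0 y₀ = v1 y₀ (A - iB)/(rad - C)`, `arg v1 y₀ - az y₀ ≡ arg v0 y₀`; for `v0`.
  Triples: `δth' - δth = (az y₁ - az y₀)/(2π) * (Hv C y₂ - Hv C y₁)`; if `Hv C y₂ ≠ Hv C y₁` then
  `|C| ≤ 2η` at all three vertices, `|A + iB| ≥ rad - 2η ≥ r₀/2`, the change of `A + iB` is
  at most `2η ≤ r₀/200`, so `arg_jump` gives
  `(az y₁ - az y₀)/(2π) ≈ (1 - Hv A y₀) (Hv B y₁ - Hv B y₀)` up to `1/32`.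
-/

namespace Vale.Agent.P093.Hom

variable {Y : Type*}

/-- `exp(2πiθ)` -/
noncomputable def ph (θ : ℝ) : ℂ := Complex.exp (2 * Real.pi * θ * Complex.I)

open scoped Classical in
/-- rounded differences -/
noncomputable def rn (E : Set Y) (α : Y → ℝ) (th : Y → Y → ℝ) : List Y → ℤ
  | [y₀, y₁] => if y₀ ∈ E ∧ y₁ ∈ E then round (α y₁ - α y₀ + th y₀ y₁) else 0
  | _ => 0

theorem ra_dl_len (F : List Y → ℤ) (k : ℕ) (hF : ∀ l, l.length ≠ k → F l = 0) (l : List Y)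
    (hl : l.length ≠ k + 1) : dl F l = 0 := by
  induction l generalizing F k with
  | nil => rfl
  | cons y l ih =>
    rw [List.length_cons] at hl
    rw [dl_cons, hF l (by omega)]
    cases k with
    | zero =>
      have h1 : (fun l' => F (y :: l')) = fun _ => 0 := by
        funext l'
        exact hF _ (by rw [List.length_cons]; omega)
      rw [h1, dl_zero, sub_zero]
    | succ k =>
      rw [ih (fun l' => F (y :: l')) k (fun l' hl' => hF _ (by rw [List.length_cons]; omega))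
        (by omega), sub_zero]

theorem ra_rn_len (E : Set Y) (α : Y → ℝ) (th : Y → Y → ℝ) (l : List Y) (hl : l.length ≠ 2) :
    rn E α th l = 0 := by
  match l with
  | [] => rfl
  | [_] => rfl
  | [_, _] => exact absurd rfl hl
  | _ :: _ :: _ :: _ => rfl

theorem round_cochain {S : Set (List Y)} (hS : Hered S) (E : Set Y) (α : Y → ℝ)
    (th : Y → Y → ℝ) (T : List Y → ℤ) (hT : ∀ l, T l ≠ 0 → l.length = 3)
    (h1 : ∀ y₀ y₁, [y₀, y₁] ∈ S → y₀ ∈ E → y₁ ∈ E →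
      |α y₁ - α y₀ + th y₀ y₁ - round (α y₁ - α y₀ + th y₀ y₁)| ≤ 1 / 16)
    (h2 : ∀ y₀ y₁ y₂, [y₀, y₁, y₂] ∈ S → y₀ ∈ E → y₁ ∈ E → y₂ ∈ E →
      |th y₁ y₂ - th y₀ y₂ + th y₀ y₁ - T [y₀, y₁, y₂]| ≤ 1 / 16) :
    ∀ l ∈ S, (∀ y ∈ l, y ∈ E) → dl (rn E α th) l = T l := by
  intro l hl hE
  by_cases h3 : l.length = 3
  · obtain ⟨y₀, y₁, y₂, rfl⟩ := List.length_eq_three.1 h3
    have e0 : y₀ ∈ E := hE _ (by simp)
    have e1 : y₁ ∈ E := hE _ (by simp)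
    have e2 : y₂ ∈ E := hE _ (by simp)
    have s12 : [y₁, y₂] ∈ S := hS _ hl _ (List.sublist_cons_self _ _)
    have s02 : [y₀, y₂] ∈ S := hS _ hl _ ((List.sublist_cons_self _ _).cons_cons _)
    have s01 : [y₀, y₁] ∈ S :=
      hS _ hl _ (((List.sublist_cons_self _ _).cons_cons _).cons_cons _)
    have a12 := h1 _ _ s12 e1 e2
    have a02 := h1 _ _ s02 e0 e2
    have a01 := h1 _ _ s01 e0 e1
    have a := h2 _ _ _ hl e0 e1 e2
    rw [dl_triple]
    have r12 : rn E α th [y₁, y₂] = round (α y₂ - α y₁ + th y₁ y₂) := if_pos ⟨e1, e2⟩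
    have r02 : rn E α th [y₀, y₂] = round (α y₂ - α y₀ + th y₀ y₂) := if_pos ⟨e0, e2⟩
    have r01 : rn E α th [y₀, y₁] = round (α y₁ - α y₀ + th y₀ y₁) := if_pos ⟨e0, e1⟩
    rw [r12, r02, r01]
    generalize round (α y₂ - α y₁ + th y₁ y₂) = n12 at a12 ⊢
    generalize round (α y₂ - α y₀ + th y₀ y₂) = n02 at a02 ⊢
    generalize round (α y₁ - α y₀ + th y₀ y₁) = n01 at a01 ⊢
    generalize T [y₀, y₁, y₂] = N at a ⊢
    rw [abs_le] at a12 a02 a01 a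
    have u1 : ((n12 - n02 + n01 : ℤ) : ℝ) < ((N + 1 : ℤ) : ℝ) := by
      push_cast
      linarith [a12.1, a12.2, a02.1, a02.2, a01.1, a01.2, a.1, a.2]
    have u2 : ((N : ℤ) : ℝ) < ((n12 - n02 + n01 + 1 : ℤ) : ℝ) := by
      push_cast
      linarith [a12.1, a12.2, a02.1, a02.2, a01.1, a01.2, a.1, a.2]
    have u3 := Int.cast_lt.1 u1
    have u4 := Int.cast_lt.1 u2
    omega
  · rw [ra_dl_len (rn E α th) 2 (ra_rn_len E α th) l h3]
    by_contra h4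
    exact h3 (hT l fun h => h4 h.symm)

theorem ra_aux {r0 r1 t : ℝ} (h0 : 0 < r0) (h1 : 0 ≤ r1)
    (hc : r0 * (99 / 100) ≤ r1 * Real.cos t) (hs : |r1 * Real.sin t| ≤ r0 / 100) :
    |t / (2 * Real.pi) - round (t / (2 * Real.pi))| ≤ 1 / 32 := by
  have hpi := Real.pi_pos
  obtain ⟨n, hn⟩ : ∃ n, n = round (t / (2 * Real.pi)) := ⟨_, rfl⟩
  obtain ⟨y, hy⟩ : ∃ y, y = t / (2 * Real.pi) - n := ⟨_, rfl⟩
  have hy2 : |y| ≤ 1 / 2 := by
    rw [hy, hn]
    exact abs_sub_round _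
  rw [← hn, ← hy]
  have ht : 2 * Real.pi * y = t - n * (2 * Real.pi) := by
    rw [hy]
    field_simp
  have hcos : Real.cos (2 * Real.pi * y) = Real.cos t := by
    rw [ht, Real.cos_sub_int_mul_two_pi]
  have hsin : Real.sin (2 * Real.pi * y) = Real.sin t := by
    rw [ht, Real.sin_sub_int_mul_two_pi]
  have hc0 : 0 < Real.cos t := by
    by_contra hneg
    have : r1 * Real.cos t ≤ 0 := mul_nonpos_of_nonneg_of_nonpos h1 (not_lt.1 hneg)
    linarith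
  have hr : r0 * (99 / 100) ≤ r1 := by
    have : r1 * Real.cos t ≤ r1 * 1 := mul_le_mul_of_nonneg_left (Real.cos_le_one t) h1
    linarith
  have hs1 : |Real.sin t| ≤ 1 / 99 := by
    rw [abs_mul, abs_of_nonneg h1] at hs
    by_contra hneg
    have h5 := not_le.1 hneg
    have h6 : r0 * (99 / 100) * |Real.sin t| ≤ r1 * |Real.sin t| :=
      mul_le_mul_of_nonneg_right hr (abs_nonneg _)
    have h7 : r0 * (99 / 100) * (1 / 99) < r0 * (99 / 100) * |Real.sin t| :=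
      mul_lt_mul_of_pos_left h5 (by positivity)
    linarith
  have hcos' : Real.cos (2 * Real.pi * |y|) = Real.cos t := by
    have h6 : |2 * Real.pi * y| = 2 * Real.pi * |y| := by
      rw [abs_mul, abs_of_pos (show (0 : ℝ) < 2 * Real.pi by positivity)]
    rw [← h6, Real.cos_abs, hcos]
  have hsin' : Real.sin (2 * Real.pi * |y|) ≤ |Real.sin t| := by
    rw [← hsin]
    rcases abs_cases y with h | h
    · rw [h.1]
      exact le_abs_self _
    · rw [h.1, mul_neg, Real.sin_neg]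
      exact neg_le_abs _
  have hy0 := abs_nonneg y
  have hy4 : |y| ≤ 1 / 4 := by
    by_contra hneg
    have h5 := not_le.1 hneg
    have h6 := Real.cos_nonpos_of_pi_div_two_le_of_le (x := 2 * Real.pi * |y|) (by nlinarith)
      (by nlinarith)
    linarith
  have h7 := Real.mul_le_sin (x := 2 * Real.pi * |y|) (by positivity) (by nlinarith)
  have h8 : 2 / Real.pi * (2 * Real.pi * |y|) = 4 * |y| := by
    field_simp
    ring
  rw [h8] at h7
  linarith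

theorem arg_close {z₀ z₁ : ℂ} {θ : ℝ} (h0 : z₀ ≠ 0) (h : ‖z₁ * ph θ - z₀‖ ≤ ‖z₀‖ / 100) :
    |(z₁.arg - z₀.arg) / (2 * Real.pi) + θ -
      round ((z₁.arg - z₀.arg) / (2 * Real.pi) + θ)| ≤ 1 / 32 := by
  have hpi := Real.pi_pos
  obtain ⟨t, ht⟩ : ∃ t, t = z₁.arg - z₀.arg + 2 * Real.pi * θ := ⟨_, rfl⟩
  have e1 : (z₁.arg - z₀.arg) / (2 * Real.pi) + θ = t / (2 * Real.pi) := by
    rw [ht]
    field_simp
  rw [e1]
  have e2 : (z₁ * ph θ - z₀) * Complex.exp (-(z₀.arg * Complex.I)) =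
      (‖z₁‖ : ℂ) * Complex.exp (t * Complex.I) - ‖z₀‖ := by
    rw [sub_mul]
    congr 1
    · nth_rewrite 1 [← Complex.norm_mul_exp_arg_mul_I z₁]
      rw [ph, mul_assoc, mul_assoc, ← Complex.exp_add, ← Complex.exp_add, ht]
      congr 2
      push_cast
      ring
    · nth_rewrite 1 [← Complex.norm_mul_exp_arg_mul_I z₀]
      rw [mul_assoc, ← Complex.exp_add, add_neg_cancel, Complex.exp_zero, mul_one]
  have e3 : ‖Complex.exp (-(z₀.arg * Complex.I))‖ = 1 := by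
    have : -((z₀.arg : ℂ) * Complex.I) = ((-z₀.arg : ℝ) : ℂ) * Complex.I := by
      push_cast
      ring
    rw [this, Complex.norm_exp_ofReal_mul_I]
  have e4 : ‖(‖z₁‖ : ℂ) * Complex.exp (t * Complex.I) - ‖z₀‖‖ ≤ ‖z₀‖ / 100 := by
    rw [← e2, norm_mul, e3, mul_one]
    exact h
  have e5 : ((‖z₁‖ : ℂ) * Complex.exp (t * Complex.I) - ‖z₀‖).re =
      ‖z₁‖ * Real.cos t - ‖z₀‖ := by
    rw [Complex.sub_re, Complex.re_ofReal_mul, Complex.exp_ofReal_mul_I_re, Complex.ofReal_re]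
  have e6 : ((‖z₁‖ : ℂ) * Complex.exp (t * Complex.I) - ‖z₀‖).im = ‖z₁‖ * Real.sin t := by
    rw [Complex.sub_im, Complex.im_ofReal_mul, Complex.exp_ofReal_mul_I_im, Complex.ofReal_im,
      sub_zero]
  have e7 := (Complex.abs_re_le_norm _).trans e4
  have e8 := (Complex.abs_im_le_norm _).trans e4
  rw [e5] at e7
  rw [e6] at e8
  refine ra_aux (norm_pos_iff.2 h0) (norm_nonneg z₁) ?_ e8
  have := (abs_le.1 e7).1
  linarith

theorem ra_ph_zero : ph 0 = 1 := by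
  rw [ph, Complex.ofReal_zero, mul_zero, zero_mul, Complex.exp_zero]

theorem ra_round {x : ℝ} (N : ℤ) (h : |x - round x| ≤ 1 / 32) (h' : |x - N| ≤ 3 / 4) :
    |x - N| ≤ 1 / 32 := by
  have h1 : round x = N := by
    generalize round x = n at h ⊢
    rw [abs_le] at h h'
    have u1 : ((n : ℤ) : ℝ) < ((N + 1 : ℤ) : ℝ) := by
      push_cast
      linarith
    have u2 : ((N : ℤ) : ℝ) < ((n + 1 : ℤ) : ℝ) := by
      push_cast
      linarith
    have u3 := Int.cast_lt.1 u1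
    have u4 := Int.cast_lt.1 u2
    omega
  rw [h1] at h
  exact h

theorem ra_div {a c d : ℝ} (N : ℝ) (h1 : c ≤ a) (h2 : a ≤ d)
    (h3 : (N - 3 / 4) * (2 * Real.pi) ≤ c) (h4 : d ≤ (N + 3 / 4) * (2 * Real.pi)) :
    |a / (2 * Real.pi) - N| ≤ 3 / 4 := by
  have hpi : 0 < 2 * Real.pi := by positivity
  rw [abs_le]
  constructor
  · have : N - 3 / 4 ≤ a / (2 * Real.pi) := by
      rw [le_div_iff₀ hpi]
      linarith
    linarith
  · have : a / (2 * Real.pi) ≤ N + 3 / 4 := by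
      rw [div_le_iff₀ hpi]
      linarith
    linarith

theorem arg_jump {A B A' B' : ℝ} (h0 : (⟨A, B⟩ : ℂ) ≠ 0)
    (h : ‖(⟨A', B'⟩ : ℂ) - ⟨A, B⟩‖ ≤ ‖(⟨A, B⟩ : ℂ)‖ / 100) :
    |((⟨A', B'⟩ : ℂ).arg - (⟨A, B⟩ : ℂ).arg) / (2 * Real.pi) -
      (1 - (if 0 ≤ A then 1 else 0)) * ((if 0 ≤ B' then 1 else 0) - (if 0 ≤ B then 1 else 0))|
      ≤ 1 / 32 := by
  have hpi := Real.pi_pos
  have h1 := arg_close (z₀ := ⟨A, B⟩) (z₁ := ⟨A', B'⟩) (θ := 0) h0 (by
    rw [ra_ph_zero, mul_one]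
    exact h)
  rw [add_zero] at h1
  have hr : ∀ (a b : ℝ), (⟨a, b⟩ : ℂ).re = a := fun _ _ => rfl
  have hi : ∀ (a b : ℝ), (⟨a, b⟩ : ℂ).im = b := fun _ _ => rfl
  obtain ⟨s, hs⟩ : ∃ s, s = (⟨A, B⟩ : ℂ).arg := ⟨_, rfl⟩
  obtain ⟨s', hs'⟩ : ∃ s', s' = (⟨A', B'⟩ : ℂ).arg := ⟨_, rfl⟩
  have b1 : -Real.pi < s := hs ▸ Complex.neg_pi_lt_arg _
  have b2 : s ≤ Real.pi := hs ▸ Complex.arg_le_pi _
  have b1' : -Real.pi < s' := hs' ▸ Complex.neg_pi_lt_arg _
  have b2' : s' ≤ Real.pi := hs' ▸ Complex.arg_le_pi _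
  have c1 : |s| ≤ Real.pi / 2 ↔ 0 ≤ A := by
    rw [hs]
    exact Complex.abs_arg_le_pi_div_two_iff
  have c2 : 0 ≤ s ↔ 0 ≤ B := by
    rw [hs]
    exact Complex.arg_nonneg_iff
  have c2' : 0 ≤ s' ↔ 0 ≤ B' := by
    rw [hs']
    exact Complex.arg_nonneg_iff
  rw [← hs, ← hs'] at h1 ⊢
  by_cases hA : 0 ≤ A
  · rw [if_pos hA, sub_self, zero_mul]
    have h2 := abs_le.1 (c1.2 hA)
    have h3 := ra_round (x := (s' - s) / (2 * Real.pi)) 0 h1 (by
      rw [Int.cast_zero]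
      exact ra_div (c := -Real.pi - Real.pi / 2) (d := Real.pi + Real.pi / 2) 0
        (by linarith) (by linarith) (by linarith) (by linarith))
    rwa [Int.cast_zero] at h3
  · rw [if_neg hA, sub_zero, one_mul]
    have h2 : ¬ |s| ≤ Real.pi / 2 := fun h' => hA (c1.1 h')
    by_cases hB : 0 ≤ B
    · have h4 : 0 ≤ s := c2.2 hB
      rw [abs_of_nonneg h4] at h2
      rw [if_pos hB]
      by_cases hB' : 0 ≤ B'
      · have h5 := c2'.2 hB'
        rw [if_pos hB', sub_self]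
        have h3 := ra_round (x := (s' - s) / (2 * Real.pi)) 0 h1 (by
          rw [Int.cast_zero]
          exact ra_div (c := -Real.pi) (d := Real.pi) 0
            (by linarith) (by linarith) (by linarith) (by linarith))
        rwa [Int.cast_zero] at h3
      · have h5 : s' < 0 := not_le.1 fun h' => hB' (c2'.1 h')
        rw [if_neg hB', zero_sub]
        have h3 := ra_round (x := (s' - s) / (2 * Real.pi)) (-1) h1 (by
          rw [Int.cast_neg, Int.cast_one]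
          exact ra_div (c := -2 * Real.pi) (d := -(Real.pi / 2)) (-1)
            (by linarith) (by linarith [not_le.1 h2]) (by linarith) (by linarith))
        rwa [Int.cast_neg, Int.cast_one] at h3
    · have h4 : s < 0 := not_le.1 fun h' => hB (c2.1 h')
      rw [abs_of_neg h4] at h2
      rw [if_neg hB, sub_zero]
      by_cases hB' : 0 ≤ B'
      · have h5 := c2'.2 hB'
        rw [if_pos hB']
        have h3 := ra_round (x := (s' - s) / (2 * Real.pi)) 1 h1 (by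
          rw [Int.cast_one]
          exact ra_div (c := Real.pi / 2) (d := 2 * Real.pi) 1
            (by linarith [not_le.1 h2]) (by linarith) (by linarith) (by linarith))
        rwa [Int.cast_one] at h3
      · have h5 : s' < 0 := not_le.1 fun h' => hB' (c2'.1 h')
        rw [if_neg hB']
        have h3 := ra_round (x := (s' - s) / (2 * Real.pi)) 0 h1 (by
          rw [Int.cast_zero]
          exact ra_div (c := -Real.pi) (d := Real.pi) 0
            (by linarith) (by linarith) (by linarith) (by linarith))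
        rwa [Int.cast_zero] at h3

/-- the phase of a section of the Hopf line bundle -/
noncomputable def alH (C : Y → ℝ) (v0 v1 : Y → ℂ) (y : Y) : ℝ := by
  classical exact if 0 ≤ C y then (v0 y).arg / (2 * Real.pi) else (v1 y).arg / (2 * Real.pi)

/-- the corrected phase cochain -/
noncomputable def thH (A B C : Y → ℝ) (th : Y → Y → ℝ) (y₀ y₁ : Y) : ℝ :=
  th y₀ y₁ + (⟨A y₀, B y₀⟩ : ℂ).arg / (2 * Real.pi) * (Hv C y₁ - Hv C y₀ : ℤ)

/-! ### the cochain `ω` on triples -/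

theorem cup_cz_cons (v : Y → ℤ) (G : List Y → ℤ) (y : Y) (l : List Y) :
    cup (cz v) G (y :: l) = (1 - v y) * G (y :: l) := by
  have key : ∀ (l : List Y) (f : List Y → ℤ), (∀ l', l' ≠ [] → f l' = 0) → cup f G l = 0 := by
    intro l
    induction l with
    | nil => intro f _; rfl
    | cons y l ih =>
      intro f hf
      rw [cup_cons, hf [y] (by simp), ih _ fun l' _ => hf _ (by simp)]
      simp
  rw [cup_cons, key l (fun l' => cz v (y :: l'))]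
  · simp [cz]
  · intro l' hl'
    cases l' with
    | nil => exact absurd rfl hl'
    | cons y' l' => rfl

theorem cup_ce_nil' (v : Y → ℤ) (G : List Y → ℤ) (y : Y) : cup (ce v) G [y] = 0 := by
  simp [cup_cons, ce]

theorem cup_ce_cons (v : Y → ℤ) (G : List Y → ℤ) (y y' : Y) (l : List Y) :
    cup (ce v) G (y :: y' :: l) = (v y' - v y) * G (y' :: l) := by
  have key : ∀ (l : List Y) (f : List Y → ℤ), (∀ l', l' ≠ [] → f l' = 0) → cup f G l = 0 := by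
    intro l
    induction l with
    | nil => intro f _; rfl
    | cons y l ih =>
      intro f hf
      rw [cup_cons, hf [y] (by simp), ih _ fun l' _ => hf _ (by simp)]
      simp
  rw [cup_cons, cup_cons, key l (fun l' => ce v (y :: y' :: l'))]
  · simp [ce]
  · intro l' hl'
    cases l' with
    | nil => exact absurd rfl hl'
    | cons y' l' => rfl

theorem om_triple (A B C : Y → ℝ) (y₀ y₁ y₂ : Y) :
    om A B C [y₀, y₁, y₂] =
      (1 - Hv A y₀) * ((Hv B y₁ - Hv B y₀) * (Hv C y₂ - Hv C y₁)) := by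
  rw [om, cup_cz_cons, cup_ce_cons]
  rfl

theorem om_support (A B C : Y → ℝ) (l : List Y) (h : om A B C l ≠ 0) : l.length = 3 := by
  rcases l with _ | ⟨y₀, _ | ⟨y₁, _ | ⟨y₂, _ | ⟨y₃, l⟩⟩⟩⟩
  · exact absurd rfl h
  · rw [om, cup_cz_cons, cup_ce_nil'] at h; simp at h
  · rw [om, cup_cz_cons, cup_ce_cons] at h
    simp [ce] at h
  · rfl
  · rw [om, cup_cz_cons, cup_ce_cons] at h
    simp [ce] at h

/-! ### phases -/

theorem frac_shift (x : ℝ) (k : ℤ) : |x + k - round (x + k)| = |x - round x| := by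
  rw [round_add_intCast]; push_cast; congr 1; ring

theorem arg_rel {r : ℝ} (hr : 0 < r) {u z v : ℂ} (hz : z ≠ 0) (hv : v ≠ 0)
    (h : (r : ℂ) * u = z * v) : ∃ k : ℤ, z.arg + v.arg = u.arg + 2 * Real.pi * k := by
  have h1 : u.arg = (z * v).arg := by rw [← h, Complex.arg_real_mul u hr]
  have h2 := Complex.arg_mul_coe_angle hz hv
  rw [← h1, ← Real.Angle.coe_add] at h2
  obtain ⟨k, hk⟩ := Real.Angle.angle_eq_iff_two_pi_dvd_sub.1 h2.symm
  exact ⟨k, by linarith⟩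

theorem rad_sq (A B C : Y → ℝ) (y : Y) :
    ‖(⟨A y, B y⟩ : ℂ)‖ ^ 2 + C y ^ 2 = rad A B C y ^ 2 := by
  rw [rad, Real.sq_sqrt (by positivity), Complex.sq_norm, Complex.normSq_mk]; ring

theorem norm_le_rad (A B C : Y → ℝ) (y : Y) : ‖(⟨A y, B y⟩ : ℂ)‖ ≤ rad A B C y := by
  have h := rad_sq A B C y
  have h0 : 0 ≤ rad A B C y := Real.sqrt_nonneg _
  by_contra hc
  push Not at hc
  nlinarith [sq_nonneg (C y)]

theorem rad_sub_le (A B C : Y → ℝ) (y : Y) : rad A B C y - |C y| ≤ ‖(⟨A y, B y⟩ : ℂ)‖ := by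
  have h := rad_sq A B C y
  have h0 : 0 ≤ rad A B C y := Real.sqrt_nonneg _
  have h1 := norm_nonneg (⟨A y, B y⟩ : ℂ)
  have h2 : |C y| ^ 2 = C y ^ 2 := sq_abs _
  have h3 : 0 ≤ |C y| := abs_nonneg _
  by_contra hc
  push Not at hc
  nlinarith

theorem norm_conj_mk (a b : ℝ) : ‖(⟨a, -b⟩ : ℂ)‖ = ‖(⟨a, b⟩ : ℂ)‖ := by
  have : (⟨a, -b⟩ : ℂ) = (starRingEnd ℂ) ⟨a, b⟩ := rfl
  rw [this, RCLike.norm_conj]

/-- the size of `v0` (and of `v1` near the equator) in the upper hemisphere -/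
theorem upper_bounds {r c ε : ℝ} {u0 u1 z : ℂ} (hr : 0 < r) (hε : 0 < ε) (hc : 0 ≤ c)
    (hz : ‖z‖ ≤ r) (hv : ε ^ 2 ≤ ‖u0‖ ^ 2 + ‖u1‖ ^ 2) (h : ((r + c : ℝ) : ℂ) * u1 = z * u0) :
    ε / 2 ≤ ‖u0‖ ∧ (c ≤ r / 1000 → r - c ≤ ‖z‖ → ε / 2 ≤ ‖u1‖ ∧ z ≠ 0) := by
  have hn : (r + c) * ‖u1‖ = ‖z‖ * ‖u0‖ := by
    have := congrArg norm h
    rwa [norm_mul, norm_mul, Complex.norm_real, Real.norm_of_nonneg (by linarith)] at this
  have h0 := norm_nonneg u0
  have h1 := norm_nonneg u1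
  have h2 : ‖u1‖ ≤ ‖u0‖ := by
    have h3 : (r + c) * ‖u1‖ ≤ (r + c) * ‖u0‖ := by
      rw [hn]
      exact mul_le_mul_of_nonneg_right (by linarith) h0
    exact le_of_mul_le_mul_left h3 (by linarith)
  have h4 : ε ^ 2 ≤ 2 * ‖u0‖ ^ 2 := by nlinarith
  have h5 : 7 / 10 * ε ≤ ‖u0‖ := by
    by_contra hcon
    push Not at hcon
    nlinarith
  refine ⟨by linarith, fun hc1 hz1 => ?_⟩
  have hz0 : 999 / 1000 * r ≤ ‖z‖ := by linarith
  constructor
  · by_contra hcon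
    push Not at hcon
    have h6 : (r + c) * ‖u1‖ ≤ (1001 / 1000 * r) * (ε / 2) := by
      apply mul_le_mul (by linarith) hcon.le h1 (by linarith)
    have h7 : (999 / 1000 * r) * (7 / 10 * ε) ≤ ‖z‖ * ‖u0‖ :=
      mul_le_mul hz0 h5 (by linarith) (norm_nonneg _)
    have h8 : 0 < r * ε := mul_pos hr hε
    nlinarith
  · rintro rfl
    rw [norm_zero] at hz0
    linarith

theorem close_of {u u' w : ℂ} {ε η : ℝ} (hε : 0 < ε) (hη2 : η ≤ ε / 1000) (h : ε / 2 ≤ ‖u‖)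
    (hq : ‖u' * w - u‖ ≤ η) : u ≠ 0 ∧ ‖u' * w - u‖ ≤ ‖u‖ / 100 := by
  refine ⟨?_, by linarith⟩
  rintro rfl
  rw [norm_zero] at h
  linarith

theorem Hv_cases (f : Y → ℝ) (y : Y) : (0 ≤ f y ∧ Hv f y = 1) ∨ (f y < 0 ∧ Hv f y = 0) := by
  rcases le_or_gt 0 (f y) with h | h
  · exact Or.inl ⟨h, Hv_pos h⟩
  · exact Or.inr ⟨h, Hv_neg h⟩

theorem Hv_cast (f : Y → ℝ) (y : Y) : ((Hv f y : ℤ) : ℝ) = if 0 ≤ f y then 1 else 0 := by
  rcases Hv_cases f y with ⟨h, h'⟩ | ⟨h, h'⟩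
  · rw [h', if_pos h]; norm_num
  · rw [h', if_neg (not_le.2 h)]; norm_num

theorem alH_pos {C : Y → ℝ} {v0 v1 : Y → ℂ} {y : Y} (h : 0 ≤ C y) :
    alH C v0 v1 y = (v0 y).arg / (2 * Real.pi) := by
  unfold alH; rw [if_pos h]

theorem alH_neg {C : Y → ℝ} {v0 v1 : Y → ℂ} {y : Y} (h : C y < 0) :
    alH C v0 v1 y = (v1 y).arg / (2 * Real.pi) := by
  unfold alH; rw [if_neg (not_le.2 h)]

theorem hopf_round {S : Set (List Y)} (hS : Hered S) {A B C : Y → ℝ} {v0 v1 : Y → ℂ}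
    {th : Y → Y → ℝ} {t : List Y → ℤ} {E : Set Y} {r₀ ε η : ℝ} (hr₀ : 0 < r₀) (hε : 0 < ε)
    (hη : 0 ≤ η) (hη1 : η ≤ r₀ / 1000) (hη2 : η ≤ ε / 1000)
    (hA : Vary S A η) (hB : Vary S B η) (hC : Vary S C η)
    (hr : ∀ y ∈ E, r₀ ≤ rad A B C y) (hv : ∀ y ∈ E, ε ^ 2 ≤ ‖v0 y‖ ^ 2 + ‖v1 y‖ ^ 2)
    (h1 : ∀ y ∈ E, ((rad A B C y + C y : ℝ) : ℂ) * v1 y = ⟨A y, B y⟩ * v0 y)
    (h2 : ∀ y ∈ E, ((rad A B C y - C y : ℝ) : ℂ) * v0 y = ⟨A y, - B y⟩ * v1 y)
    (hq0 : ∀ y₀ y₁, [y₀, y₁] ∈ S → ‖v0 y₁ * ph (th y₀ y₁) - v0 y₀‖ ≤ η)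
    (hq1 : ∀ y₀ y₁, [y₀, y₁] ∈ S → ‖v1 y₁ * ph (th y₀ y₁) - v1 y₀‖ ≤ η)
    (ht0 : ∀ l, t l ≠ 0 → l.length = 3)
    (ht : ∀ y₀ y₁ y₂, [y₀, y₁, y₂] ∈ S →
      |th y₁ y₂ - th y₀ y₂ + th y₀ y₁ - t [y₀, y₁, y₂]| ≤ 1 / 32) :
    ∀ l ∈ S, (∀ y ∈ l, y ∈ E) →
      dl (rn E (alH C v0 v1) (thH A B C th)) l = aco t A B C l := by
  have hpi : 0 < 2 * Real.pi := by positivity
  have up : ∀ y ∈ E, 0 ≤ C y →
      ε / 2 ≤ ‖v0 y‖ ∧ (C y ≤ η → ε / 2 ≤ ‖v1 y‖ ∧ (⟨A y, B y⟩ : ℂ) ≠ 0) := by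
    intro y hy hc
    have h := upper_bounds (r := rad A B C y) (c := C y) (lt_of_lt_of_le hr₀ (hr y hy)) hε hc
      (norm_le_rad A B C y) (hv y hy) (h1 y hy)
    refine ⟨h.1, fun hcη => h.2 ?_ ?_⟩
    · linarith [hr y hy]
    · have := rad_sub_le A B C y
      rwa [abs_of_nonneg hc] at this
  have down : ∀ y ∈ E, C y ≤ 0 →
      ε / 2 ≤ ‖v1 y‖ ∧ (-η ≤ C y → ε / 2 ≤ ‖v0 y‖ ∧ (⟨A y, B y⟩ : ℂ) ≠ 0) := by
    intro y hy hc
    have h := upper_bounds (r := rad A B C y) (c := - C y) (u0 := v1 y) (u1 := v0 y)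
      (z := ⟨A y, - B y⟩) (lt_of_lt_of_le hr₀ (hr y hy)) hε (by linarith)
      (by rw [norm_conj_mk]; exact norm_le_rad A B C y) (by linarith [hv y hy])
      (by rw [← sub_eq_add_neg]; exact h2 y hy)
    refine ⟨h.1, fun hcη => ?_⟩
    have h' := h.2 (by linarith [hr y hy]) (by
      have := rad_sub_le A B C y
      rw [abs_of_nonpos hc] at this
      rwa [norm_conj_mk])
    refine ⟨h'.1, fun h0 => h'.2 ?_⟩
    rw [← norm_eq_zero, norm_conj_mk, h0, norm_zero]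
  have hedge : ∀ y₀ y₁, [y₀, y₁] ∈ S → y₀ ∈ E → y₁ ∈ E →
      |alH C v0 v1 y₁ - alH C v0 v1 y₀ + thH A B C th y₀ y₁ -
        round (alH C v0 v1 y₁ - alH C v0 v1 y₀ + thH A B C th y₀ y₁)| ≤ 1 / 16 := by
    intro y₀ y₁ hS01 he0 he1
    have hCC := hC _ hS01 y₀ (by simp) y₁ (by simp)
    rw [abs_le] at hCC
    refine le_trans ?_ (by norm_num : (1 : ℝ) / 32 ≤ 1 / 16)
    rcases Hv_cases C y₀ with ⟨c0, hc0⟩ | ⟨c0, hc0⟩ <;>
      rcases Hv_cases C y₁ with ⟨c1, hc1⟩ | ⟨c1, hc1⟩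
    · obtain ⟨hne, hcl⟩ := close_of hε hη2 (up y₀ he0 c0).1 (hq0 y₀ y₁ hS01)
      have hx : alH C v0 v1 y₁ - alH C v0 v1 y₀ + thH A B C th y₀ y₁ =
          ((v0 y₁).arg - (v0 y₀).arg) / (2 * Real.pi) + th y₀ y₁ := by
        rw [alH_pos c0, alH_pos c1, thH, hc0, hc1]; push_cast; ring
      rw [hx]
      exact arg_close hne hcl
    · have hup := up y₀ he0 c0
      obtain ⟨hv1, hz⟩ := hup.2 (by linarith)
      obtain ⟨hne, hcl⟩ := close_of hε hη2 hv1 (hq1 y₀ y₁ hS01)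
      have hv0 : v0 y₀ ≠ 0 := by
        intro h; rw [h, norm_zero] at hup; linarith [hup.1]
      obtain ⟨k, hk⟩ := arg_rel (by linarith [hr y₀ he0] : 0 < rad A B C y₀ + C y₀) hz hv0
        (h1 y₀ he0)
      have hx : alH C v0 v1 y₁ - alH C v0 v1 y₀ + thH A B C th y₀ y₁ =
          ((v1 y₁).arg - (v1 y₀).arg) / (2 * Real.pi) + th y₀ y₁ + ((-k : ℤ) : ℝ) := by
        rw [alH_pos c0, alH_neg c1, thH, hc0, hc1]
        have : (v0 y₀).arg = (v1 y₀).arg + 2 * Real.pi * k - (⟨A y₀, B y₀⟩ : ℂ).arg := by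
          linarith
        rw [this]; push_cast; field_simp; ring
      rw [hx, frac_shift]
      exact arg_close hne hcl
    · have hdn := down y₀ he0 c0.le
      obtain ⟨hv0, hz⟩ := hdn.2 (by linarith)
      obtain ⟨hne, hcl⟩ := close_of hε hη2 hv0 (hq0 y₀ y₁ hS01)
      obtain ⟨k, hk⟩ := arg_rel (by linarith [hr y₀ he0] : 0 < rad A B C y₀ + C y₀) hz hne
        (h1 y₀ he0)
      have hx : alH C v0 v1 y₁ - alH C v0 v1 y₀ + thH A B C th y₀ y₁ =
          ((v0 y₁).arg - (v0 y₀).arg) / (2 * Real.pi) + th y₀ y₁ + ((k : ℤ) : ℝ) := by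
        rw [alH_neg c0, alH_pos c1, thH, hc0, hc1]
        have : (v1 y₀).arg = (⟨A y₀, B y₀⟩ : ℂ).arg + (v0 y₀).arg - 2 * Real.pi * k := by
          linarith
        rw [this]; push_cast; field_simp; ring
      rw [hx, frac_shift]
      exact arg_close hne hcl
    · obtain ⟨hne, hcl⟩ := close_of hε hη2 (down y₀ he0 c0.le).1 (hq1 y₀ y₁ hS01)
      have hx : alH C v0 v1 y₁ - alH C v0 v1 y₀ + thH A B C th y₀ y₁ =
          ((v1 y₁).arg - (v1 y₀).arg) / (2 * Real.pi) + th y₀ y₁ := by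
        rw [alH_neg c0, alH_neg c1, thH, hc0, hc1]; push_cast; ring
      rw [hx]
      exact arg_close hne hcl
  refine round_cochain hS E _ _ (aco t A B C) ?_ hedge ?_
  · intro l hl
    by_cases h : t l = 0
    · exact om_support A B C l fun h0 => hl (by rw [aco, h, h0, add_zero])
    · exact ht0 l h
  · intro y₀ y₁ y₂ hl he0 he1 he2
    have htt := ht y₀ y₁ y₂ hl
    set a₀ := (⟨A y₀, B y₀⟩ : ℂ).arg / (2 * Real.pi) with ha₀
    set a₁ := (⟨A y₁, B y₁⟩ : ℂ).arg / (2 * Real.pi) with ha₁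
    have hX : |((a₁ - a₀) - (1 - (Hv A y₀ : ℝ)) * ((Hv B y₁ : ℝ) - Hv B y₀)) *
        ((Hv C y₂ : ℝ) - Hv C y₁)| ≤ 1 / 32 := by
      have hjump : |C y₀| ≤ 2 * η →
          |(a₁ - a₀) - (1 - (Hv A y₀ : ℝ)) * ((Hv B y₁ : ℝ) - Hv B y₀)| ≤ 1 / 32 := by
        intro hc
        have hz : r₀ - 2 * η ≤ ‖(⟨A y₀, B y₀⟩ : ℂ)‖ := by
          linarith [rad_sub_le A B C y₀, hr y₀ he0]
        have hz0 : (⟨A y₀, B y₀⟩ : ℂ) ≠ 0 := by
          intro h; rw [h, norm_zero] at hz; linarith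
        have hd : ‖(⟨A y₁, B y₁⟩ : ℂ) - ⟨A y₀, B y₀⟩‖ ≤ 2 * η := by
          refine (Complex.norm_le_abs_re_add_abs_im _).trans ?_
          have e1 := hA _ hl y₁ (by simp) y₀ (by simp)
          have e2 := hB _ hl y₁ (by simp) y₀ (by simp)
          simp only [Complex.sub_re, Complex.sub_im]
          linarith
        have := arg_jump hz0 (hd.trans (by linarith))
        rw [Hv_cast, Hv_cast, Hv_cast, ha₀, ha₁, ← sub_div]
        exact this
      have e0 := hC _ hl y₀ (by simp) y₁ (by simp)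
      have e1 := hC _ hl y₁ (by simp) y₂ (by simp)
      rw [abs_le] at e0 e1
      rcases Hv_cases C y₁ with ⟨c1, hc1⟩ | ⟨c1, hc1⟩ <;>
        rcases Hv_cases C y₂ with ⟨c2, hc2⟩ | ⟨c2, hc2⟩
      · rw [hc1, hc2]; norm_num
      · rw [abs_mul, hc1, hc2]
        have := hjump (by rw [abs_le]; constructor <;> linarith)
        norm_num at this ⊢
        exact this
      · rw [abs_mul, hc1, hc2]
        have := hjump (by rw [abs_le]; constructor <;> linarith)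
        norm_num at this ⊢
        exact this
      · rw [hc1, hc2]; norm_num
    have heq : thH A B C th y₁ y₂ - thH A B C th y₀ y₂ + thH A B C th y₀ y₁ -
        ((aco t A B C [y₀, y₁, y₂] : ℤ) : ℝ) =
        (th y₁ y₂ - th y₀ y₂ + th y₀ y₁ - t [y₀, y₁, y₂]) +
        ((a₁ - a₀) - (1 - (Hv A y₀ : ℝ)) * ((Hv B y₁ : ℝ) - Hv B y₀)) *
        ((Hv C y₂ : ℝ) - Hv C y₁) := by
      rw [aco, om_triple, thH, thH, thH, ← ha₀, ← ha₁]
      push_cast
      ring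
    rw [heq]
    calc _ ≤ _ := abs_add_le _ _
      _ ≤ 1 / 32 + 1 / 32 := add_le_add htt hX
      _ = 1 / 16 := by norm_num

end Vale.Agent.P093.Hom
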