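import Mathlib
import Vale.Agent.P093.Hom.GroupDef
import Vale.Agent.P093.Hom.Round

/-!
The parameter grid torus: definitions.
-/

namespace Vale.Agent.P093.Hom

/-- a class of tuples which only depends on the set of vertices -/
def Full {Y : Type*} (S : Set (List Y)) : Prop := ∀ l ∈ S, ∀ l' : List Y, (∀ y ∈ l', y ∈ l) → l' ∈ S

theorem Full.hered {Y : Type*} {S : Set (List Y)} (h : Full S) : Hered S :=
  fun l hl _ hl' => h l hl _ fun _ hy => hl'.subset hy

/-- coordinates of the parameter torus; `(j, true)` is the variable `x_j`, `(j, false)` the variable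
`y_j` -/
abbrev Crd (p : ℕ) := Fin p × Bool

/-- points of the grid torus -/
abbrev Gr (p ℓ : ℕ) := Crd p → ZMod ℓ

/-- the product of `X` with the grid torus -/
abbrev YY (X : Type*) (p ℓ : ℕ) := X × Gr p ℓ

variable {X : Type*} {p ℓ : ℕ} {M : Type*} [AddCommGroup M]

/-- wrap number of the step from `a` to `b` in the cyclic grid -/
def wrap (a b : ZMod ℓ) : ℤ := if a = -1 ∧ b = 0 then 1 else if a = 0 ∧ b = -1 then -1 else 0

/-- the integral `1`-cocycle of the coordinate `c` -/
def Zc (c : Crd p) : List (YY X p ℓ) → ℤ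
  | [y₀, y₁] => wrap (y₀.2 c) (y₁.2 c)
  | _ => 0

/-- the integral `2`-cocycle `t = ∑_j Y_j ∪ X_j` -/
def tc (l : List (YY X p ℓ)) : ℤ := ∑ j : Fin p, cup (Zc (j, false)) (Zc (j, true)) l

/-- all vertices lie in one cube of the grid -/
def GridSmall (l : List (YY X p ℓ)) : Prop :=
  ∃ g : Gr p ℓ, ∀ y ∈ l, ∀ c, y.2 c = g c ∨ y.2 c = g c + 1

/-- small tuples in the product -/
def SY (SX : Set (List X)) : Set (List (YY X p ℓ)) := {l | l.map Prod.fst ∈ SX ∧ GridSmall l}

/-- set the coordinate `c` to `g` -/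
def upd (c : Crd p) (g : ZMod ℓ) (y : YY X p ℓ) : YY X p ℓ := (y.1, Function.update y.2 c g)

/-- integration over the grid circle in the coordinate `c` -/
def intc [NeZero ℓ] (c : Crd p) (F : List (YY X p ℓ) → M) (l : List (YY X p ℓ)) : M :=
  ∑ g : ZMod ℓ, pr (upd c g) (upd c (g + 1)) F l

/-- iterated integration -/
def iint [NeZero ℓ] : List (Crd p) → (List (YY X p ℓ) → M) → List (YY X p ℓ) → M
  | [], F => F
  | c :: cs, F => iint cs (intc c F)

/-- all coordinates in the order `y₀, x₀, y₁, x₁, …` -/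
def allc (p : ℕ) : List (Crd p) := (List.finRange p).flatMap fun j => [(j, false), (j, true)]

/-- powers for the cup product -/
def cpow {Y : Type*} (t : List Y → ℤ) : ℕ → List Y → ℤ
  | 0 => unit 1
  | m + 1 => cup t (cpow t m)

/-- the action of the symmetric group permuting the `p` factors of the torus -/
def act (σ : Equiv.Perm (Fin p)) (y : YY X p ℓ) : YY X p ℓ := (y.1, fun c => y.2 (σ c.1, c.2))

/-- real coordinates -/
noncomputable def xc (y : YY X p ℓ) (c : Crd p) : ℝ := (y.2 c).val / (ℓ : ℝ)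

/-- the phase cochain `ϑ` -/
noncomputable def thc (y₀ y₁ : YY X p ℓ) : ℝ :=
  ∑ j : Fin p, xc y₁ (j, true) * wrap (y₀.2 (j, false)) (y₁.2 (j, false))

/-- the map `[0,1]² → ℂ² ∖ 0` which descends to a degree one map of the torus to `ℂP¹` -/
noncomputable def ktf (a b : ℝ) : Fin 2 → ℂ := ![(1 - b : ℝ) + b * ph a, ((b * (1 - b) : ℝ) : ℂ)]

/-- the parameters `q_j ∈ ℂ² ∖ 0` -/
noncomputable def qq (y : YY X p ℓ) (j : Fin p) : Fin 2 → ℂ := ktf (xc y (j, true)) (xc y (j, false))

/-- multihomogeneity -/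
def MultiHom (F : (Fin p → Fin 2 → ℂ) → ℂ) : Prop :=
  ∀ (q : Fin p → Fin 2 → ℂ) (c : Fin p → ℂ), F (fun j e => c j * q j e) = (∏ j, c j) * F q

end Vale.Agent.P093.Hom
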