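import Mathlib
import Vale.Agent.P093.Hom.GridDef

/-!
The fundamental class of the grid torus evaluates to `p !` on `t ^ p` (task HOM-D1b, `iint_tc`).
-/

namespace Vale.Agent.P093.Hom

section fund

variable {X : Type*} {p ℓ : ℕ}

/-- partial sums of the cocycle `tc` -/
def gfT (T : Finset (Fin p)) (l : List (YY X p ℓ)) : ℤ :=
  ∑ j ∈ T, cup (Zc (j, false)) (Zc (j, true)) l

theorem gf_unit_map {Y Z : Type*} (a : Y → Z) (l : List Y) :
    unit (1 : ℤ) (l.map a) = unit (1 : ℤ) l := by
  rcases l with _ | ⟨y, _ | ⟨y', l⟩⟩ <;> rfl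

theorem gf_cup_unit {Y : Type*} (G : List Y → ℤ) (hG : G [] = 0) (l : List Y) :
    cup (unit (1 : ℤ)) G l = G l := by
  rcases l with _ | ⟨y, l⟩
  · simp [hG]
  · rw [cup_cons]
    have h : (fun l' => unit (1 : ℤ) (y :: l')) =
        fun l' => (fun l' : List Y => if l' = [] then (1 : ℤ) else 0) l' := by
      funext l'
      rcases l' with _ | ⟨y', l'⟩ <;> simp [unit]
    have key : ∀ l : List Y, cup (fun l' : List Y => if l' = [] then (1 : ℤ) else 0) G l = 0 := by
      intro l
      induction l with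
      | nil => rfl
      | cons z l ih =>
        rw [cup_cons]
        have h2 : (fun l' => (fun l' : List Y => if l' = [] then (1 : ℤ) else 0) (z :: l')) =
            fun _ => (0 : ℤ) := by
          funext l'; simp
        rw [h2, cup_zero_left]
        simp
    rw [h, key]
    simp [unit]

theorem gf_cpow_nil {Y : Type*} (t : List Y → ℤ) (m : ℕ) : cpow t m [] = 0 := by
  cases m with
  | zero => rfl
  | succ m => rfl

theorem gf_cpow_map {Y Z : Type*} (a : Y → Z) (t : List Z → ℤ) (m : ℕ) (l : List Y) :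
    cpow t m (l.map a) = cpow (fun l => t (l.map a)) m l := by
  induction m generalizing l with
  | zero => exact gf_unit_map a l
  | succ m ih =>
    change cup t (cpow t m) (l.map a) = cup (fun l => t (l.map a)) (cpow (fun l => t (l.map a)) m) l
    rw [← cup_comp]
    congr 1
    funext l'
    exact ih l'

/-- degree count for the prism -/
theorem gf_pr_len {Y Z : Type*} (a b : Y → Z) (l : List Y) (e : ℕ) (F : List Z → ℤ)
    (hF : ∀ l', l'.length ≠ e → F l' = 0) (hl : l.length + 1 ≠ e) : pr a b F l = 0 := by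
  induction l generalizing e F with
  | nil => rfl
  | cons y l ih =>
    have h1 : F (a y :: b y :: l.map b) = 0 := hF _ (by simpa using hl)
    rcases e with _ | e
    · rw [pr_cons, h1, ih (l.length + 5) _ (fun l' _ => hF _ (by simp)) (by omega)]
      simp
    · rw [pr_cons, h1, ih e _ (fun l' hl' => hF _ (by simpa using hl'))
        (by simp only [List.length_cons] at hl; omega)]
      simp

theorem gf_pr_unit {Y Z : Type*} (a b : Y → Z) (l : List Y) : pr a b (unit (1 : ℤ)) l = 0 := by
  rcases l with _ | ⟨y, l⟩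
  · rfl
  · refine gf_pr_len a b _ 1 _ (fun l' hl' => ?_) (by simp)
    rcases l' with _ | ⟨y, _ | ⟨y', l'⟩⟩
    · rfl
    · simp at hl'
    · rfl

theorem gf_Zc_len (c : Crd p) (l : List (YY X p ℓ)) (hl : l.length ≠ 2) : Zc c l = 0 := by
  rcases l with _ | ⟨y, _ | ⟨y', _ | ⟨y'', l⟩⟩⟩
  · rfl
  · rfl
  · simp at hl
  · rfl

theorem gf_wrap_self (hℓ : 3 ≤ ℓ) (g : ZMod ℓ) : wrap g g = 0 := by
  have : Fact (1 < ℓ) := ⟨by omega⟩
  unfold wrap
  have h : ¬ (g = -1 ∧ g = 0) := by
    rintro ⟨h1, h2⟩
    rw [h1] at h2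
    exact one_ne_zero (neg_eq_zero.mp h2)
  have h' : ¬ (g = 0 ∧ g = -1) := fun h2 => h ⟨h2.2, h2.1⟩
  rw [if_neg h, if_neg h']

theorem gf_wrap_succ (hℓ : 3 ≤ ℓ) (g : ZMod ℓ) :
    wrap g (g + 1) = if g = -1 then 1 else 0 := by
  have : Fact (1 < ℓ) := ⟨by omega⟩
  unfold wrap
  by_cases h : g = -1
  · rw [if_pos ⟨h, by rw [h]; ring⟩, if_pos h]
  · have h' : ¬ (g = 0 ∧ g + 1 = -1) := by
      rintro ⟨h1, h2⟩
      rw [h1, zero_add] at h2
      have h3 : ((2 : ℕ) : ZMod ℓ) = 0 := by
        have : (1 : ZMod ℓ) + 1 = 0 := by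
          nth_rewrite 2 [h2]
          ring
        push_cast
        linear_combination this
      rw [ZMod.natCast_eq_zero_iff] at h3
      have := Nat.le_of_dvd (by norm_num) h3
      omega
    rw [if_neg (fun h2 => h h2.1), if_neg h', if_neg h]

/-- the prism of a coordinate cocycle -/
theorem gf_pr_Zc (hℓ : 3 ≤ ℓ) (c c' : Crd p) (g : ZMod ℓ) (l : List (YY X p ℓ)) :
    pr (upd c g) (upd c (g + 1)) (Zc c') l = if c' = c ∧ g = -1 then unit 1 l else 0 := by
  by_cases hl : l.length + 1 = 2
  · rcases l with _ | ⟨y, _ | ⟨y', l⟩⟩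
    · simp at hl
    · rw [pr_cons, pr_nil, sub_zero]
      change wrap ((upd c g y).2 c') ((upd c (g + 1) y).2 c') = _
      by_cases hc : c' = c
      · subst hc
        simp only [upd, Function.update_self, gf_wrap_succ hℓ, true_and]
        rfl
      · simp only [upd, Function.update_of_ne hc, gf_wrap_self hℓ, hc, false_and, if_false]
    · simp at hl
  · rw [gf_pr_len _ _ _ 2 _ (fun l' hl' => gf_Zc_len c' l' hl') hl]
    rcases l with _ | ⟨y, _ | ⟨y', l⟩⟩
    · simp [unit]
    · simp at hl
    · simp [unit]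

theorem gf_Zc_upd (hℓ : 3 ≤ ℓ) (c c' : Crd p) (g : ZMod ℓ) (l : List (YY X p ℓ)) :
    Zc c' (l.map (upd c g)) = if c' = c then 0 else Zc c' l := by
  by_cases hl : l.length = 2
  · rcases l with _ | ⟨y, _ | ⟨y', _ | ⟨y'', l⟩⟩⟩
    · simp at hl
    · simp at hl
    · change wrap ((upd c g y).2 c') ((upd c g y').2 c') = _
      by_cases hc : c' = c
      · subst hc
        simp only [upd, Function.update_self, gf_wrap_self hℓ, if_true]
      · simp only [upd, Function.update_of_ne hc, hc, if_false]
        rfl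
    · simp at hl
  · rw [gf_Zc_len c' _ (by simpa using hl), gf_Zc_len c' l hl]
    simp

theorem gf_cup_upd (hℓ : 3 ≤ ℓ) (k j : Fin p) (e : Bool) (g : ZMod ℓ) (l : List (YY X p ℓ)) :
    cup (Zc (j, false)) (Zc (j, true)) (l.map (upd (k, e) g)) =
      if j = k then 0 else cup (Zc (j, false)) (Zc (j, true)) l := by
  rw [← cup_comp]
  have h : ∀ e' : Bool, (fun l : List (YY X p ℓ) => Zc (j, e') (l.map (upd (k, e) g))) =
      fun l => if (j, e') = (k, e) then 0 else Zc (j, e') l := by
    intro e'
    funext l'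
    exact gf_Zc_upd hℓ _ _ _ _
  rw [h, h]
  by_cases hj : j = k
  · subst hj
    cases e
    · simp [cup_zero_left]
    · simp [cup_zero_right]
  · simp [hj]

theorem gfT_upd (hℓ : 3 ≤ ℓ) (k : Fin p) (e : Bool) (g : ZMod ℓ) (T : Finset (Fin p)) :
    (fun l : List (YY X p ℓ) => gfT T (l.map (upd (k, e) g))) = gfT (T.erase k) := by
  funext l
  unfold gfT
  simp only [gf_cup_upd hℓ]
  rw [Finset.sum_ite, Finset.sum_const_zero, zero_add]
  refine Finset.sum_congr ?_ fun _ _ => rfl
  ext j
  simp [and_comm]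

theorem gf_cup_len {Y : Type*} (f G : List Y → ℤ) (a b : ℕ) (hf : ∀ l, l.length ≠ a + 1 → f l = 0)
    (hG : ∀ l, l.length ≠ b + 1 → G l = 0) (l : List Y) (hl : l.length ≠ a + b + 1) :
    cup f G l = 0 := by
  induction l generalizing f a with
  | nil => rfl
  | cons y l ih =>
    rw [cup_cons]
    rcases a with _ | a
    · have h1 : G (y :: l) = 0 := hG _ (by simpa using hl)
      have h2 : ∀ l' : List Y, f (y :: l') = if l' = [] then f [y] else 0 := by
        intro l'
        rcases l' with _ | ⟨z, l'⟩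
        · simp
        · simpa using hf _ (by simp)
      rw [h1]
      rcases l with _ | ⟨z, l⟩
      · simp
      · have h3 : cup (fun l' => f (y :: l')) G (z :: l) = 0 := by
          rw [cup_cons]
          have h4 : (fun l' => (fun l' => f (y :: l')) (z :: l')) = fun _ => (0 : ℤ) := by
            funext l'
            exact hf _ (by simp)
          rw [h4, cup_zero_left, hf [y, z] (by simp)]
          simp
        rw [h3]; simp
    · rw [hf [y] (by simp), ih (fun l' => f (y :: l')) a (fun l' hl' => hf _ (by simpa using hl'))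
        (by simp only [List.length_cons] at hl; omega)]
      simp

theorem gfT_len (T : Finset (Fin p)) (l : List (YY X p ℓ)) (hl : l.length ≠ 3) : gfT T l = 0 := by
  unfold gfT
  refine Finset.sum_eq_zero fun j _ => ?_
  exact gf_cup_len _ _ 1 1 (fun l hl => gf_Zc_len _ l hl) (fun l hl => gf_Zc_len _ l hl) l hl

theorem gfT_sg (T : Finset (Fin p)) : sg (gfT (X := X) (ℓ := ℓ) T) = gfT T := by
  funext l
  unfold sg
  by_cases hl : l.length = 3
  · rw [hl]; simp
  · rw [gfT_len T l hl]; simp

/-- prism of `gfT` in the coordinate `(k, false)` -/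
theorem gf_pr_false (hℓ : 3 ≤ ℓ) (k : Fin p) (T : Finset (Fin p)) (hk : k ∈ T) (g : ZMod ℓ)
    (l : List (YY X p ℓ)) : pr (upd (k, false) g) (upd (k, false) (g + 1)) (gfT T) l =
      if g = -1 then Zc (k, true) l else 0 := by
  unfold gfT
  rw [pr_sum]
  have h1 : ∀ j : Fin p, pr (upd (k, false) g) (upd (k, false) (g + 1))
      (fun l : List (YY X p ℓ) => cup (Zc (j, false)) (Zc (j, true)) l) l =
      if j = k then (if g = -1 then Zc (k, true) l else 0) else 0 := by
    intro j
    change pr _ _ (cup (Zc (j, false)) (Zc (j, true))) l = _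
    rw [pr_cup]
    have h2 : pr (upd (X := X) (k, false) g) (upd (k, false) (g + 1)) (Zc (j, true)) =
        fun _ => (0 : ℤ) := by
      funext l'
      rw [gf_pr_Zc hℓ]
      simp
    have h3 : pr (upd (X := X) (k, false) g) (upd (k, false) (g + 1)) (Zc (j, false)) =
        fun l' => if j = k ∧ g = -1 then unit (1 : ℤ) l' else 0 := by
      funext l'
      rw [gf_pr_Zc hℓ]
      simp
    have h4 : (fun l' : List (YY X p ℓ) => Zc (j, true) (l'.map (upd (k, false) (g + 1)))) =
        Zc (j, true) := by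
      funext l'
      rw [gf_Zc_upd hℓ]
      simp
    rw [h2, h3, h4, cup_zero_right, add_zero]
    by_cases hj : j = k
    · subst hj
      by_cases hg : g = -1
      · simp only [hg, and_self, if_true]
        exact gf_cup_unit _ rfl l
      · simp only [hg, and_false, if_false, if_true]
        exact cup_zero_left _ _
    · simp only [hj, false_and, if_false]
      exact cup_zero_left _ _
  rw [Finset.sum_congr rfl fun j _ => h1 j, Finset.sum_ite_eq' T k, if_pos hk]

/-- prism of `gfT` in the coordinate `(k, true)` for `k ∉ T` -/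
theorem gf_pr_true (hℓ : 3 ≤ ℓ) (k : Fin p) (T : Finset (Fin p)) (hk : k ∉ T) (g : ZMod ℓ) :
    pr (upd (X := X) (k, true) g) (upd (k, true) (g + 1)) (gfT T) = fun _ => (0 : ℤ) := by
  funext l
  unfold gfT
  rw [pr_sum]
  refine Finset.sum_eq_zero fun j hj => ?_
  have hjk : j ≠ k := fun h => hk (h ▸ hj)
  change pr _ _ (cup (Zc (j, false)) (Zc (j, true))) l = _
  rw [pr_cup]
  have h2 : ∀ e : Bool, pr (upd (X := X) (k, true) g) (upd (k, true) (g + 1)) (Zc (j, e)) =
      fun _ => (0 : ℤ) := by
    intro e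
    funext l'
    rw [gf_pr_Zc hℓ]
    simp [hjk]
  rw [h2, h2, cup_zero_left, cup_zero_right, add_zero]

theorem gf_intc_add [NeZero ℓ] (c : Crd p) (F G : List (YY X p ℓ) → ℤ) (l : List (YY X p ℓ)) :
    intc c (fun l => F l + G l) l = intc c F l + intc c G l := by
  unfold intc
  rw [← Finset.sum_add_distrib]
  exact Finset.sum_congr rfl fun g _ => pr_add _ _ _ _ _

theorem gf_intc_mul [NeZero ℓ] (c : Crd p) (n : ℤ) (F : List (YY X p ℓ) → ℤ)
    (l : List (YY X p ℓ)) : intc c (fun l => n * F l) l = n * intc c F l := by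
  unfold intc
  rw [Finset.mul_sum]
  exact Finset.sum_congr rfl fun g _ => pr_zsmul _ _ n F _

theorem gf_intc_unit [NeZero ℓ] (c : Crd p) :
    intc (X := X) (ℓ := ℓ) c (unit (1 : ℤ)) = fun _ => 0 := by
  funext l
  unfold intc
  exact Finset.sum_eq_zero fun g _ => gf_pr_unit _ _ _

theorem gf_intc_zero [NeZero ℓ] (c : Crd p) :
    intc (X := X) (ℓ := ℓ) c (fun _ => (0 : ℤ)) = fun _ => 0 := by
  funext l
  unfold intc
  exact Finset.sum_eq_zero fun g _ => pr_zero _ _ _

/-- first integration -/
theorem gf_intc_false [NeZero ℓ] (hℓ : 3 ≤ ℓ) (k : Fin p) (T : Finset (Fin p)) (hk : k ∈ T)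
    (m : ℕ) (l : List (YY X p ℓ)) : intc (k, false) (cpow (gfT T) (m + 1)) l =
      cup (Zc (k, true)) (cpow (gfT (T.erase k)) m) l +
        cup (gfT (T.erase k)) (intc (k, false) (cpow (gfT T) m)) l := by
  have h : ∀ g : ZMod ℓ, pr (upd (k, false) g) (upd (k, false) (g + 1)) (cpow (gfT T) (m + 1)) l =
      (if g = -1 then cup (Zc (k, true)) (cpow (gfT (T.erase k)) m) l else 0) +
      cup (gfT (T.erase k)) (pr (upd (k, false) g) (upd (k, false) (g + 1)) (cpow (gfT T) m)) l := by
    intro g
    change pr _ _ (cup (gfT T) (cpow (gfT T) m)) l = _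
    rw [pr_cup]
    have h1 : (fun l' : List (YY X p ℓ) => cpow (gfT T) m (l'.map (upd (k, false) (g + 1)))) =
        cpow (gfT (T.erase k)) m := by
      funext l'
      rw [gf_cpow_map, gfT_upd hℓ]
    have h2 : (pr (upd (k, false) g) (upd (k, false) (g + 1)) (gfT T)) =
        fun l : List (YY X p ℓ) => if g = -1 then Zc (k, true) l else 0 := by
      funext l'
      exact gf_pr_false hℓ k T hk g l'
    rw [h1, h2, gfT_upd hℓ, gfT_sg]
    by_cases hg : g = -1
    · simp only [hg, if_true]
    · simp only [hg, if_false]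
      rw [cup_zero_left]
  unfold intc
  rw [Finset.sum_congr rfl fun g _ => h g, Finset.sum_add_distrib,
    Finset.sum_ite_eq' Finset.univ (-1 : ZMod ℓ), if_pos (Finset.mem_univ _)]
  congr 1
  rw [← cup_sum_right]

/-- second integration -/
theorem gf_intc_true [NeZero ℓ] (hℓ : 3 ≤ ℓ) (k : Fin p) (T : Finset (Fin p)) (hk : k ∉ T)
    (m : ℕ) (l : List (YY X p ℓ)) :
    intc (k, true) (cup (Zc (k, true)) (cpow (gfT T) m)) l = cpow (gfT T) m l := by
  have h : ∀ g : ZMod ℓ, pr (upd (k, true) g) (upd (k, true) (g + 1))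
      (cup (Zc (k, true)) (cpow (gfT T) m)) l = if g = -1 then cpow (gfT T) m l else 0 := by
    intro g
    rw [pr_cup]
    have h1 : (fun l' : List (YY X p ℓ) => cpow (gfT T) m (l'.map (upd (k, true) (g + 1)))) =
        cpow (gfT T) m := by
      funext l'
      rw [gf_cpow_map, gfT_upd hℓ, Finset.erase_eq_of_notMem hk]
    have h2 : (pr (upd (k, true) g) (upd (k, true) (g + 1)) (Zc (k, true))) =
        fun l : List (YY X p ℓ) => if g = -1 then unit (1 : ℤ) l else 0 := by
      funext l'
      rw [gf_pr_Zc hℓ]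
      simp
    have h3 : (fun l' : List (YY X p ℓ) => Zc (k, true) (l'.map (upd (k, true) g))) =
        fun _ => (0 : ℤ) := by
      funext l'
      rw [gf_Zc_upd hℓ]
      simp
    have h4 : sg (fun _ : List (YY X p ℓ) => (0 : ℤ)) = fun _ => 0 := by
      funext l'
      simp [sg]
    rw [h1, h2, h3, h4, cup_zero_left, add_zero]
    by_cases hg : g = -1
    · simp only [hg, if_true]
      exact gf_cup_unit _ (gf_cpow_nil _ _) l
    · simp only [hg, if_false]
      rw [cup_zero_left]
  unfold intc
  rw [Finset.sum_congr rfl fun g _ => h g, Finset.sum_ite_eq' Finset.univ (-1 : ZMod ℓ),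
    if_pos (Finset.mem_univ _)]

theorem gf_intc_true' [NeZero ℓ] (hℓ : 3 ≤ ℓ) (k : Fin p) (T : Finset (Fin p)) (hk : k ∉ T)
    (G : List (YY X p ℓ) → ℤ) (l : List (YY X p ℓ)) :
    intc (k, true) (cup (gfT T) G) l = cup (gfT T) (intc (k, true) G) l := by
  have h : ∀ g : ZMod ℓ, pr (upd (k, true) g) (upd (k, true) (g + 1)) (cup (gfT T) G) l =
      cup (gfT T) (pr (upd (k, true) g) (upd (k, true) (g + 1)) G) l := by
    intro g
    rw [pr_cup, gf_pr_true hℓ k T hk, cup_zero_left, zero_add, gfT_upd hℓ,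
      Finset.erase_eq_of_notMem hk, gfT_sg]
  unfold intc
  rw [Finset.sum_congr rfl fun g _ => h g, ← cup_sum_right]

/-- both integrations for the index `k` -/
theorem gf_intc_intc [NeZero ℓ] (hℓ : 3 ≤ ℓ) (k : Fin p) (T : Finset (Fin p)) (hk : k ∈ T)
    (m : ℕ) : intc (X := X) (k, true) (intc (k, false) (cpow (gfT T) m)) =
      fun l : List (YY X p ℓ) => (m : ℤ) * cpow (gfT (T.erase k)) (m - 1) l := by
  have hk' : k ∉ T.erase k := Finset.notMem_erase k T
  induction m with
  | zero =>
    change intc (k, true) (intc (k, false) (unit (1 : ℤ))) = _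
    rw [gf_intc_unit, gf_intc_zero]
    funext l
    simp
  | succ m ih =>
    funext l
    have h1 : intc (k, false) (cpow (gfT T) (m + 1)) = fun l : List (YY X p ℓ) =>
        cup (Zc (k, true)) (cpow (gfT (T.erase k)) m) l +
        cup (gfT (T.erase k)) (intc (k, false) (cpow (gfT T) m)) l := by
      funext l'
      exact gf_intc_false hℓ k T hk m l'
    rw [h1, gf_intc_add]
    have h2 := gf_intc_true (X := X) hℓ k (T.erase k) hk' m l
    have h3 := gf_intc_true' (X := X) hℓ k (T.erase k) hk' (intc (k, false) (cpow (gfT T) m)) l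
    rw [ih] at h3
    change intc (k, true) (cup (Zc (k, true)) (cpow (gfT (T.erase k)) m)) l +
      intc (k, true) (cup (gfT (T.erase k)) (intc (k, false) (cpow (gfT T) m))) l = _
    rw [h2, h3]
    have h4 := cup_zsmul_right (m : ℤ) (gfT (T.erase k)) (cpow (gfT (T.erase k)) (m - 1)) l
    simp only [smul_eq_mul] at h4
    rw [h4]
    rcases m with _ | m
    · simp
    · simp only [Nat.add_sub_cancel]
      have h5 : cup (gfT (T.erase k)) (cpow (gfT (T.erase k)) m) l =
        cpow (gfT (T.erase k)) (m + 1) l := rfl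
      rw [h5]
      push_cast
      ring

theorem gf_iint_mul [NeZero ℓ] (cs : List (Crd p)) (n : ℤ) (F : List (YY X p ℓ) → ℤ)
    (l : List (YY X p ℓ)) : iint cs (fun l => n * F l) l = n * iint cs F l := by
  induction cs generalizing F with
  | nil => rfl
  | cons c cs ih =>
    change iint cs (intc c fun l => n * F l) l = n * iint cs (intc c F) l
    rw [← ih]
    congr 1
    funext l'
    exact gf_intc_mul c n F l'

/-- iterated integration over the coordinates of the indices in `ks` -/
theorem gf_iint [NeZero ℓ] (hℓ : 3 ≤ ℓ) (ks : List (Fin p)) (hks : ks.Nodup)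
    (T : Finset (Fin p)) (hT : ∀ k ∈ ks, k ∈ T) (m : ℕ) (l : List (YY X p ℓ)) :
    iint (ks.flatMap fun j => [(j, false), (j, true)]) (cpow (gfT T) m) l =
      (m.descFactorial ks.length : ℤ) * cpow (gfT (T \ ks.toFinset)) (m - ks.length) l := by
  induction ks generalizing T m with
  | nil => simp [iint]
  | cons k ks ih =>
    rw [List.nodup_cons] at hks
    have h1 : ((k :: ks).flatMap fun j => [(j, false), (j, true)]) =
        (k, false) :: (k, true) :: (ks.flatMap fun j => [(j, false), (j, true)]) := rfl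
    rw [h1]
    change iint (ks.flatMap fun j => [(j, false), (j, true)])
      (intc (k, true) (intc (k, false) (cpow (gfT T) m))) l = _
    rw [gf_intc_intc hℓ k T (hT k (by simp)) m, gf_iint_mul,
      ih hks.2 (T.erase k) (fun j hj => Finset.mem_erase.mpr
        ⟨fun h => hks.1 (h ▸ hj), hT j (List.mem_cons_of_mem _ hj)⟩)]
    have h2 : T.erase k \ ks.toFinset = T \ (k :: ks).toFinset := by
      ext j
      simp only [Finset.mem_sdiff, Finset.mem_erase, List.mem_toFinset, List.mem_cons, not_or]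
      tauto
    rw [h2, List.length_cons]
    have h3 : m - 1 - ks.length = m - (ks.length + 1) := by omega
    rw [h3, ← mul_assoc]
    congr 1
    rcases m with _ | m
    · simp
    · rw [Nat.add_sub_cancel, Nat.succ_descFactorial_succ]
      push_cast
      ring

/-- the fundamental class of the torus evaluates to `p !` on `t ^ p` -/
theorem iint_tc' [NeZero ℓ] (hℓ : 3 ≤ ℓ) (y : YY X p ℓ) :
    iint (allc p) (cpow tc p) [y] = (p.factorial : ℤ) := by
  have h := gf_iint (X := X) hℓ (List.finRange p) (List.nodup_finRange p) Finset.univ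
    (fun k _ => Finset.mem_univ k) p [y]
  have h1 : gfT (X := X) (ℓ := ℓ) (Finset.univ : Finset (Fin p)) = tc := rfl
  rw [h1] at h
  rw [allc, h, List.length_finRange, Nat.sub_self, Nat.descFactorial_self]
  simp [cpow, unit]

end fund

end Vale.Agent.P093.Hom
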