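import Mathlib
import Vale.Agent.P093.Hom.GridDef
import Vale.Agent.P093.Hom.GridFund

/-!
TASK HOM-D1: the cocycle `tc` and integration over the grid torus.

Proofs.
* `dl_tc`: `dl (Zc c) [y₀,y₁,y₂] = wrap(1,2) - wrap(0,2) + wrap(0,1) = 0` if the three values of the
  coordinate `c` are in `{g, g+1}`: for `g ≠ -1` all wraps vanish (`ℓ ≥ 3`), for `g = -1` one has
  `wrap a b = s b - s a` with `s (-1) = 0`, `s 0 = 1`. Leibniz for `cup`.
* `iint_dl`: `pr_dl`, and `∑_g (F (l.map (upd c (g+1))) - F (l.map (upd c g))) = 0` for all `F`, `l`.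
* `iint_tc`: Call `f : List (YY X p ℓ) → ℤ` *c-normal* if it does not change when the coordinate `c`
  of the vertices is changed, and vanishes on tuples which have two consecutive vertices that
  agree outside the coordinate `c`... (only needed for positive degree). For such `f` of positive
  degree `pr (upd c g) (upd c (g+1)) f = 0` (each term of the prism has a repeated vertex).
  By `pr_cup`, `pr (upd c g) (upd c (g+1)) (cup f G) = cup (pr .. f) (G ∘ map (upd c (g+1)))
  + cup (sg (f ∘ map (upd c g))) (pr .. G)`.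
  Let `u = ∑_{j ≠ k} Y_j ∪ X_j`, `w = Y ∪ X` (`Y = Zc (k,false)`, `X = Zc (k,true)`), so `tc = u + w`;
  more generally let `T ⊆ Fin p` be a set of indices containing `k`, `t_T = ∑_{j∈T} Y_j ∪ X_j`.
  Claim: `intc (k,true) (intc (k,false) (cpow t_T m)) = m * cpow t_{T∖k} (m-1)`.
  First for the coordinate `c = (k,false)`: `t_T ∘ map (upd c g) = t_{T∖k}` (`wrap g g = 0`), and
  `pr (upd c g) (upd c (g+1)) t_T = (if g = -1 then 1 else 0) * X` (`pr .. Y [y] = wrap g (g+1)`;
  `pr .. (Y_j ∪ X_j) = 0` for `j ≠ k`, `pr .. Y = 0` in other degrees), so by `pr_cup` and induction on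
  `m`: `intc c (cpow t_T m) = ∑_{i<m} cpow t_{T∖k} i ∪ X ∪ cpow t_{T∖k} (m-1-i)`.
  Then for `c = (k,true)`: `pr .. X [y] = if g = -1 then 1 else 0`, so each summand gives
  `cpow t_{T∖k} i ∪ unit 1 ∪ cpow t_{T∖k} (m-1-i) = cpow t_{T∖k} (m-1)`.
  Iterating over `k = 0, …, p-1` gives `p !`. (`cup (unit 1) G = G`, `cup f (unit 1) = f` away from
  the empty list.)
* `iint_mem`: `pr a b F l` is a signed sum of values `F L` with `L.length = l.length + 1`,
  all vertices of `L` are `a y` or `b y` with `y ∈ l`; if `l` is `GridSmall` (cube `g₀`), then `L` is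
  too (cube `update g₀ c g`).
-/

namespace Vale.Agent.P093.Hom

variable {X : Type*} {p ℓ : ℕ} {M N : Type*} [AddCommGroup M] [AddCommGroup N]

theorem tc_length (l : List (YY X p ℓ)) (h : tc l ≠ 0) : l.length = 3 := by
  by_contra hl
  exact h (gfT_len Finset.univ l hl)

/-- the coboundary vanishes if the cochain vanishes one degree below -/
theorem gi_dl_len {Y : Type*} (n : ℕ) (F : List Y → M) (l : List Y) (hl : l.length = n + 1)
    (hF : ∀ l', l'.length = n → F l' = 0) : dl F l = 0 := by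
  induction n generalizing F l with
  | zero =>
    obtain ⟨y, rfl⟩ := List.length_eq_one_iff.1 hl
    rw [dl_singleton]
    exact hF [] rfl
  | succ n ih =>
    match l, hl with
    | y :: l, hl =>
      rw [dl_cons, hF l (by simpa using hl),
        ih (fun l' => F (y :: l')) l (by simpa using hl) fun l' hl' => hF _ (by simp [hl'])]
      simp

theorem gi_wrap_swap (hℓ : 3 ≤ ℓ) (a b : ZMod ℓ) : wrap b a = - wrap a b := by
  have h0 : (-1 : ZMod ℓ) ≠ 0 := by
    intro h
    have : Fact (1 < ℓ) := ⟨by omega⟩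
    exact one_ne_zero (neg_eq_zero.1 h)
  unfold wrap
  by_cases h1 : a = -1 ∧ b = 0
  · obtain ⟨rfl, rfl⟩ := h1
    simp [h0]
  · by_cases h2 : a = 0 ∧ b = -1
    · obtain ⟨rfl, rfl⟩ := h2
      simp [h0]
    · have h3 : ¬ (b = -1 ∧ a = 0) := fun h => h2 ⟨h.2, h.1⟩
      have h4 : ¬ (b = 0 ∧ a = -1) := fun h => h1 ⟨h.2, h.1⟩
      simp only [h1, h2, h3, h4, if_false, neg_zero]

theorem gi_wrap_three (hℓ : 3 ≤ ℓ) (g a b c : ZMod ℓ) (ha : a = g ∨ a = g + 1)
    (hb : b = g ∨ b = g + 1) (hc : c = g ∨ c = g + 1) : wrap b c - wrap a c + wrap a b = 0 := by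
  have hs := gf_wrap_self hℓ g
  have hs' := gf_wrap_self hℓ (g + 1)
  have hw := gi_wrap_swap hℓ g (g + 1)
  rcases ha with rfl | rfl <;> rcases hb with rfl | rfl <;> rcases hc with rfl | rfl <;>
    simp only [hs, hs', hw] <;> ring

theorem gi_dl_Zc (hℓ : 3 ≤ ℓ) (c : Crd p) {l : List (YY X p ℓ)} (hl : GridSmall l) :
    dl (Zc c) l = 0 := by
  obtain ⟨g, hg⟩ := hl
  by_cases h3 : l.length = 3
  · match l, h3, hg with
    | [y₀, y₁, y₂], _, hg =>
      rw [dl_triple]
      exact gi_wrap_three hℓ (g c) _ _ _ (hg y₀ (by simp) c) (hg y₁ (by simp) c)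
        (hg y₂ (by simp) c)
  · rcases Nat.eq_zero_or_pos l.length with h0 | h0
    · rw [List.length_eq_zero_iff.1 h0]
      rfl
    · refine gi_dl_len (l.length - 1) _ l (by omega) fun l' hl' => gf_Zc_len c l' (by omega)

theorem gi_hered : Hered {l : List (YY X p ℓ) | GridSmall l} :=
  fun _ ⟨g, hg⟩ _ h' => ⟨g, fun y hy => hg y (h'.subset hy)⟩

theorem dl_tc (hℓ : 3 ≤ ℓ) {l : List (YY X p ℓ)} (hl : GridSmall l) : dl tc l = 0 := by
  have h : (tc : List (YY X p ℓ) → ℤ) = fun l => ∑ j : Fin p, cup (Zc (j, false)) (Zc (j, true)) l :=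
    rfl
  rw [h, dl_sum]
  refine Finset.sum_eq_zero fun j _ => ?_
  rw [dl_cup' _ _ rfl rfl]
  have h1 : cup (dl (Zc (j, false))) (Zc (j, true)) l = 0 := by
    rw [cup_congr gi_hered (f := dl (Zc (j, false))) (g := fun _ => 0)
      (F := Zc (j, true)) (G := Zc (j, true)) (fun l hl => gi_dl_Zc hℓ _ hl) (fun _ _ => rfl) hl,
      cup_zero_left]
  have h2 : cup (sg (Zc (j, false))) (dl (Zc (j, true))) l = 0 := by
    rw [cup_congr gi_hered (f := sg (Zc (j, false))) (g := sg (Zc (j, false)))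
      (F := dl (Zc (j, true))) (G := fun _ => 0) (fun _ _ => rfl)
      (fun l hl => gi_dl_Zc hℓ _ hl) hl, cup_zero_right]
  rw [h1, h2, add_zero]

theorem gi_Zc_act (σ : Equiv.Perm (Fin p)) (c : Crd p) (l : List (YY X p ℓ)) :
    Zc c (l.map (act σ)) = Zc (σ c.1, c.2) l := by
  rcases l with _ | ⟨y₀, _ | ⟨y₁, _ | ⟨y₂, l⟩⟩⟩ <;> rfl

theorem tc_act (σ : Equiv.Perm (Fin p)) (l : List (YY X p ℓ)) : tc (l.map (act σ)) = tc l := by
  unfold tc
  rw [← Equiv.sum_comp σ (fun j => cup (Zc (j, false)) (Zc (j, true)) l)]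
  refine Finset.sum_congr rfl fun j _ => ?_
  rw [← cup_comp]
  congr 1 <;> funext l' <;> exact gi_Zc_act σ _ l'

theorem gi_map_intc [NeZero ℓ] (D : M →+ N) (c : Crd p) (F : List (YY X p ℓ) → M)
    (l : List (YY X p ℓ)) : D (intc c F l) = intc c (fun l => D (F l)) l := by
  unfold intc
  rw [map_sum]
  exact Finset.sum_congr rfl fun g _ => map_pr D _ _ F l

theorem map_iint [NeZero ℓ] (D : M →+ N) (cs : List (Crd p)) (F : List (YY X p ℓ) → M)
    (l : List (YY X p ℓ)) : D (iint cs F l) = iint cs (fun l => D (F l)) l := by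
  induction cs generalizing F with
  | nil => rfl
  | cons c cs ih =>
    change D (iint cs (intc c F) l) = iint cs (intc c fun l => D (F l)) l
    rw [ih]
    congr 1
    funext l'
    exact gi_map_intc D c F l'

theorem iint_nil' [NeZero ℓ] (cs : List (Crd p)) (F : List (YY X p ℓ) → M) (hF : F [] = 0) :
    iint cs F [] = 0 := by
  induction cs generalizing F with
  | nil => exact hF
  | cons c cs ih =>
    refine ih (intc c F) ?_
    unfold intc
    simp

theorem gi_intc_add [NeZero ℓ] (c : Crd p) (F G : List (YY X p ℓ) → M)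
    (l : List (YY X p ℓ)) : intc c (fun l => F l + G l) l = intc c F l + intc c G l := by
  unfold intc
  rw [← Finset.sum_add_distrib]
  exact Finset.sum_congr rfl fun g _ => pr_add _ _ F G l

theorem iint_add [NeZero ℓ] (cs : List (Crd p)) (F G : List (YY X p ℓ) → M)
    (l : List (YY X p ℓ)) : iint cs (fun l => F l + G l) l = iint cs F l + iint cs G l := by
  induction cs generalizing F G with
  | nil => rfl
  | cons c cs ih =>
    change iint cs (intc c fun l => F l + G l) l = iint cs (intc c F) l + iint cs (intc c G) l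
    rw [← ih]
    congr 1
    funext l'
    exact gi_intc_add c F G l'

theorem gi_intc_dl [NeZero ℓ] (c : Crd p) (F : List (YY X p ℓ) → M) (l : List (YY X p ℓ)) :
    intc c (dl F) l = - dl (intc c F) l := by
  have h1 : ∑ g : ZMod ℓ, (F (l.map (upd c (g + 1))) - F (l.map (upd c g))) = 0 := by
    rw [Finset.sum_sub_distrib, sub_eq_zero]
    exact Equiv.sum_comp (Equiv.addRight (1 : ZMod ℓ)) fun g => F (l.map (upd c g))
  have h2 : dl (intc c F) l = ∑ g : ZMod ℓ, dl (pr (upd c g) (upd c (g + 1)) F) l :=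
    dl_sum Finset.univ (fun g => pr (upd c g) (upd c (g + 1)) F) l
  rw [h2]
  unfold intc
  rw [Finset.sum_congr rfl fun g _ => pr_dl (upd c g) (upd c (g + 1)) F l, Finset.sum_sub_distrib,
    h1, zero_sub]

theorem iint_dl [NeZero ℓ] (cs : List (Crd p)) (F : List (YY X p ℓ) → M) (l : List (YY X p ℓ)) :
    iint cs (dl F) l = (-1 : ℤ) ^ cs.length • dl (iint cs F) l := by
  induction cs generalizing F with
  | nil =>
    change dl F l = (-1 : ℤ) ^ 0 • dl F l
    simp
  | cons c cs ih =>
    change iint cs (intc c (dl F)) l = (-1 : ℤ) ^ (cs.length + 1) • dl (iint cs (intc c F)) l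
    have h : intc c (dl F) = fun l => (negAddMonoidHom : M →+ M) (dl (intc c F) l) := by
      funext l'
      exact gi_intc_dl c F l'
    rw [h, ← map_iint, ih, pow_succ]
    simp

theorem gi_pr_mem {Y Z : Type*} (a b : Y → Z) (F : List Z → M) (l : List Y) (H : AddSubgroup M)
    (hF : ∀ L : List Z, L.length = l.length + 1 → (∀ z ∈ L, ∃ y ∈ l, z = a y ∨ z = b y) →
      F L ∈ H) : pr a b F l ∈ H := by
  induction l generalizing F with
  | nil => exact H.zero_mem
  | cons y l ih =>
    rw [pr_cons]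
    refine H.sub_mem (hF _ (by simp) ?_) (ih _ fun L hL hz => hF _ (by simp [hL]) ?_)
    · intro z hz
      rw [List.mem_cons, List.mem_cons, List.mem_map] at hz
      rcases hz with rfl | rfl | ⟨y', hy', rfl⟩
      · exact ⟨y, by simp, Or.inl rfl⟩
      · exact ⟨y, by simp, Or.inr rfl⟩
      · exact ⟨y', by simp [hy'], Or.inr rfl⟩
    · intro z hz'
      rw [List.mem_cons] at hz'
      rcases hz' with rfl | hz'
      · exact ⟨y, by simp, Or.inl rfl⟩
      · obtain ⟨y', hy', h⟩ := hz z hz'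
        exact ⟨y', by simp [hy'], h⟩

/-- support of the iterated integral -/
theorem iint_mem [NeZero ℓ] (cs : List (Crd p)) (F : List (YY X p ℓ) → M)
    (l : List (YY X p ℓ)) (hl : GridSmall l) (H : AddSubgroup M)
    (hF : ∀ L : List (YY X p ℓ), L.length = l.length + cs.length →
      (∀ y ∈ L, ∃ y' ∈ l, y.1 = y'.1) → GridSmall L → F L ∈ H) : iint cs F l ∈ H := by
  induction cs generalizing F with
  | nil => exact hF l (by simp) (fun y hy => ⟨y, hy, rfl⟩) hl
  | cons c cs ih =>
    refine ih (intc c F) fun L hL hL1 hL2 => ?_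
    unfold intc
    refine H.sum_mem fun g _ => gi_pr_mem _ _ F L H fun L' hL' hv => hF L' ?_ ?_ ?_
    · rw [hL', hL, List.length_cons]
      omega
    · intro y hy
      obtain ⟨y', hy', h⟩ := hv y hy
      obtain ⟨y'', hy'', h''⟩ := hL1 y' hy'
      refine ⟨y'', hy'', ?_⟩
      rcases h with rfl | rfl <;> exact h''
    · obtain ⟨g₀, hg₀⟩ := hL2
      refine ⟨Function.update g₀ c g, fun y hy c' => ?_⟩
      obtain ⟨y', hy', h⟩ := hv y hy
      by_cases hc : c' = c
      · subst hc
        rcases h with rfl | rfl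
        · left; simp [upd]
        · right; simp [upd]
      · rcases h with rfl | rfl <;> simpa [upd, Function.update_of_ne hc] using hg₀ y' hy' c'

/-- the fundamental class of the torus evaluates to `p !` on `t ^ p` -/
theorem iint_tc [NeZero ℓ] (hℓ : 3 ≤ ℓ) (y : YY X p ℓ) :
    iint (allc p) (cpow tc p) [y] = (p.factorial : ℤ) := iint_tc' hℓ y

end Vale.Agent.P093.Hom
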