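import Mathlib
import Vale.Agent.P093.Hom.GridDef

/-!
TASK HOM-D2: divisibility by `p !` from the action of the symmetric group.

Proof of `iint_dvd`. Let `c = iint (allc p) single l : List (YY X p ℓ) →₀ ℤ` where
`single L = Finsupp.single L 1`; then `iint (allc p) F l = c.sum (fun L n => n • F L)` for every `F`
(both sides are the same signed sum; `map_pr`-type statement for the homomorphism extend `F`
linearly).
(1) `c` is invariant under `act σ` (i.e. `Finsupp.mapDomain (List.map (act σ)) c = c`):
`act σ ∘ upd (σ k, b) g = upd (k, b) g ∘ act σ`, so (for every `F`, and every `l` with zero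
parameters, which is fixed by `act σ`) `iint cs (F ∘ map (act σ)) l = iint (σ' cs) F l`, where
`σ'` relabels the coordinates `(k,b) ↦ (σ⁻¹ k, b)`; and `iint` changes by the sign of the
permutation when the list of coordinates is permuted, because of the
*anticommutation lemma*: if `a, b, a', b' : Y → Y` and each of `a, b` commutes with each of
`a', b'`, then `pr a b (pr a' b' F) l = - pr a' b' (pr a b F) l`. Proof by induction on `l`:
both sides for `y :: l` unfold to
`F(a'ay :: b'ay :: bb' l…) - F(a'ay :: a'by :: …) + pr a' b' (F(a'ay :: a'by :: ·)) (l.map b)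
 - pr a b (fun l' => F(a'ay :: b'ay :: l'.map b')) l + pr a b (pr a' b' (F(a'ay :: ·))) l`
and the same with primes exchanged; use naturality
`pr a' b' H (l.map b) = pr a' b' (fun l' => H (l'.map b)) l`. For different coordinates `c ≠ c'` the
maps `upd c g`, `upd c' g'` commute. A permutation of the pairs (blocks of length two
`[(j,false),(j,true)]`) is a product of swaps of adjacent blocks, each of which is a product of four
adjacent transpositions, so has sign `+1`: `iint (cs₁ ++ [a,b] ++ [c,d] ++ cs₂) F =
iint (cs₁ ++ [c,d] ++ [a,b] ++ cs₂) F`; then `List.Perm` induction on the list of indices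
(`iint ((js).flatMap …) F = iint ((js').flatMap …) F` if `js.Perm js'`, `js.Nodup`).
(2) every `L` in the support of `c` has trivial stabilizer: for all coordinates `c ≠ c'` in `allc p`
there are two *consecutive* vertices `y, y'` of `L` with `y.2 c ≠ y'.2 c` and `y.2 c' = y'.2 c'`.
This is shown for the iterated prism by induction over the coordinates (`ℓ ≥ 2`): a term of the
prism in a new coordinate `c''` of a list `[y₀,…,y_q]` is `[a y₀,…,a y_i, b y_i,…, b y_q]`, the new
edge `(a y_i, b y_i)` changes `c''` and no other coordinate, each old edge `(y_k, y_{k+1})` survives as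
`(a y_k, a y_{k+1})` (`k < i`) or `(b y_k, b y_{k+1})` (`k ≥ i`), where `c''` is constant.
If `L.map (act σ) = L` with `σ k = j ≠ k` then `y.2 (k,false) = y.2 (j,false)` for all vertices,
contradiction. Hence all `p !` lists `L.map (act σ)` are different.
(3) sum over orbits: choose for the equivalence relation same orbit on the support; each class has
`p !` elements, `c` and `F` are constant on it, so `c.sum (n • F)` is `p !` times a sum over
representatives.
-/

namespace Vale.Agent.P093.Hom

variable {X : Type*} {p ℓ : ℕ} {M N : Type*} [AddCommGroup M] [AddCommGroup N]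

/-- naturality of the prism operator -/
private theorem pr_nat {Y Z : Type*} {a b : Y → Y} {a' b' : Z → Z} {φ : Y → Z}
    (ha : ∀ y, φ (a y) = a' (φ y)) (hb : ∀ y, φ (b y) = b' (φ y)) (F : List Z → M) (l : List Y) :
    pr a b (fun l => F (l.map φ)) l = pr a' b' F (l.map φ) := by
  induction l generalizing F with
  | nil => rfl
  | cons y l ih =>
    have h1 : (l.map b).map φ = (l.map φ).map b' := by
      rw [List.map_map, List.map_map]
      exact List.map_congr_left fun z _ => hb z
    simp only [pr_cons, List.map_cons, ha, hb, h1]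
    rw [ih (fun l' => F (a' (φ y) :: l'))]

private theorem pr_pr_cons {Y : Type*} (a b a' b' : Y → Y) (F : List Y → M) (y : Y)
    (l : List Y) : pr a b (pr a' b' F) (y :: l) =
      F (a' (a y) :: b' (a y) :: b' (b y) :: (l.map b).map b') -
        F (a' (a y) :: a' (b y) :: b' (b y) :: (l.map b).map b') +
        pr a' b' (fun l' => F (a' (a y) :: a' (b y) :: l')) (l.map b) -
        pr a b (fun l' => F (a' (a y) :: b' (a y) :: l'.map b')) l +
        pr a b (pr a' b' fun l' => F (a' (a y) :: l')) l := by
  have h1 : (fun l' => pr a' b' F (a y :: l')) = fun l' =>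
      F (a' (a y) :: b' (a y) :: l'.map b') - pr a' b' (fun l'' => F (a' (a y) :: l'')) l' := by
    funext l'
    rw [pr_cons]
  rw [pr_cons a b, h1, pr_sub, pr_cons a' b', pr_cons a' b']
  simp only [List.map_cons]
  abel

theorem pr_pr_comm {Y : Type*} (a b a' b' : Y → Y) (haa : ∀ y, a (a' y) = a' (a y))
    (hab : ∀ y, a (b' y) = b' (a y)) (hba : ∀ y, b (a' y) = a' (b y))
    (hbb : ∀ y, b (b' y) = b' (b y)) (F : List Y → M) (l : List Y) :
    pr a b (pr a' b' F) l = - pr a' b' (pr a b F) l := by
  induction l generalizing F with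
  | nil => simp
  | cons y l ih =>
    have h1 : (l.map b').map b = (l.map b).map b' := by
      rw [List.map_map, List.map_map]
      exact List.map_congr_left fun z _ => hbb z
    rw [pr_pr_cons a b a' b' F, pr_pr_cons a' b' a b F, ih, haa, hab, hba, hbb, h1,
      ← pr_nat (φ := b) (a := a') (b := b') (a' := a') (b' := b') hba hbb,
      ← pr_nat (φ := b') (a := a) (b := b) (a' := a) (b' := b) (fun y => (hab y).symm)
        (fun y => (hbb y).symm)]
    abel

section intc

variable [NeZero ℓ]

private theorem intc_neg' (c : Crd p) (F : List (YY X p ℓ) → M) :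
    intc c (fun l => - F l) = fun l => - intc c F l := by
  funext l
  simp only [intc, pr_neg, Finset.sum_neg_distrib]

omit [NeZero ℓ] in
private theorem upd_comm {c c' : Crd p} (h : c ≠ c') (g g' : ZMod ℓ) (y : YY X p ℓ) :
    upd c g (upd c' g' y) = upd c' g' (upd c g y) := by
  simp only [upd]
  rw [Function.update_comm h]

private theorem intc_comm {c c' : Crd p} (h : c ≠ c') (F : List (YY X p ℓ) → M) :
    intc c (intc c' F) = fun l => - intc c' (intc c F) l := by
  funext l
  have h1 : ∀ (c c' : Crd p), intc c (intc c' F) l = ∑ g : ZMod ℓ, ∑ g' : ZMod ℓ,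
      pr (upd c g) (upd c (g + 1)) (pr (upd c' g') (upd c' (g' + 1)) F) l := by
    intro c c'
    unfold intc
    exact Finset.sum_congr rfl fun g _ => pr_sum _ _ _ _ _
  rw [h1 c c', h1 c' c, Finset.sum_comm, ← Finset.sum_neg_distrib]
  refine Finset.sum_congr rfl fun g _ => ?_
  rw [← Finset.sum_neg_distrib]
  refine Finset.sum_congr rfl fun g' _ => ?_
  exact pr_pr_comm _ _ _ _ (upd_comm h _ _) (upd_comm h _ _) (upd_comm h _ _)
    (upd_comm h _ _) F l

/-- two blocks of length two commute -/
private theorem intc_block {x y : Fin p} (h : x ≠ y) (F : List (YY X p ℓ) → M) :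
    intc (x, true) (intc (x, false) (intc (y, true) (intc (y, false) F))) =
      intc (y, true) (intc (y, false) (intc (x, true) (intc (x, false) F))) := by
  have hc : ∀ b b' : Bool, ((x, b) : Crd p) ≠ (y, b') := fun b b' e => h (Prod.ext_iff.1 e).1
  rw [intc_comm (hc false true), intc_neg', intc_comm (hc true true), intc_comm (hc false false),
    intc_neg' (x, true), intc_neg' (y, true), intc_comm (hc true false), intc_neg' (y, true)]
  simp only [neg_neg]

private theorem iint_blocks {js js' : List (Fin p)} (h : js.Perm js') (hn : js.Nodup)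
    (F : List (YY X p ℓ) → M) :
    iint (js.flatMap fun j => [(j, false), (j, true)]) F =
      iint (js'.flatMap fun j => [(j, false), (j, true)]) F := by
  induction h generalizing F with
  | nil => rfl
  | cons x _ ih =>
    simp only [List.flatMap_cons, List.cons_append, List.nil_append, iint]
    exact ih (List.nodup_cons.1 hn).2 _
  | swap x y l =>
    simp only [List.flatMap_cons, List.cons_append, List.nil_append, iint]
    rw [intc_block]
    intro e
    subst e
    simp at hn
  | trans h1 _ ih1 ih2 => rw [ih1 hn, ih2 (h1.nodup_iff.1 hn)]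

omit [NeZero ℓ] in
private theorem act_upd (σ : Equiv.Perm (Fin p)) (c : Crd p) (g : ZMod ℓ) (y : YY X p ℓ) :
    act σ (upd c g y) = upd (σ⁻¹ c.1, c.2) g (act σ y) := by
  simp only [act, upd]
  refine Prod.ext rfl ?_
  funext d
  simp only [Function.update_apply]
  have : ((σ d.1, d.2) = c) ↔ (d = (σ⁻¹ c.1, c.2)) := by
    constructor
    · rintro rfl
      simp
    · rintro rfl
      simp
  simp only [this]

private theorem iint_act (σ : Equiv.Perm (Fin p)) (cs : List (Crd p))
    (F : List (YY X p ℓ) → M) (l : List (YY X p ℓ)) :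
    iint cs (fun l => F (l.map (act σ))) l =
      iint (cs.map fun c => (σ⁻¹ c.1, c.2)) F (l.map (act σ)) := by
  induction cs generalizing F with
  | nil => rfl
  | cons c cs ih =>
    have h1 : intc c (fun l => F (l.map (act σ))) =
        fun l => intc (σ⁻¹ c.1, c.2) F (l.map (act σ)) := by
      funext l
      unfold intc
      exact Finset.sum_congr rfl fun g _ => pr_nat (act_upd σ c g) (act_upd σ c (g + 1)) F l
    simp only [iint, List.map_cons]
    rw [h1]
    exact ih (intc (σ⁻¹ c.1, c.2) F)

private theorem iint_inv (σ : Equiv.Perm (Fin p)) (F : List (YY X p ℓ) → M)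
    (l : List (YY X p ℓ)) (hl : ∀ y ∈ l, y.2 = 0) :
    iint (allc p) (fun l => F (l.map (act σ))) l = iint (allc p) F l := by
  have h1 : l.map (act σ) = l := by
    conv_rhs => rw [← List.map_id l]
    refine List.map_congr_left fun y hy => ?_
    refine Prod.ext rfl ?_
    funext c
    simp only [act, id, hl y hy, Pi.zero_apply]
  have h2 : (allc p).map (fun c => (σ⁻¹ c.1, c.2)) =
      ((List.finRange p).map fun j => σ⁻¹ j).flatMap fun j => [(j, false), (j, true)] := by
    rw [allc, List.map_flatMap, List.flatMap_map]
    rfl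
  rw [iint_act, h1, h2]
  have h3 : ((List.finRange p).map fun j => σ⁻¹ j).Perm (List.finRange p) := by
    rw [List.perm_ext_iff_of_nodup ((List.nodup_finRange p).map (σ⁻¹).injective)
      (List.nodup_finRange p)]
    intro a
    simp only [List.mem_map, List.mem_finRange, true_and, iff_true]
    exact ⟨σ a, by simp⟩
  rw [iint_blocks h3 ((List.nodup_finRange p).map (σ⁻¹).injective), allc]

private theorem map_iint' (D : M →+ N) (cs : List (Crd p)) (F : List (YY X p ℓ) → M)
    (l : List (YY X p ℓ)) : D (iint cs F l) = iint cs (fun l => D (F l)) l := by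
  induction cs generalizing F with
  | nil => rfl
  | cons c cs ih =>
    have h1 : (fun l => D (intc c F l)) = intc c (fun l => D (F l)) := by
      funext l
      unfold intc
      rw [map_sum]
      exact Finset.sum_congr rfl fun g _ => map_pr D _ _ F l
    simp only [iint]
    rw [ih, h1]

end intc

/-- support of the prism operator -/
private theorem pr_supp {Y : Type*} {a b : Y → Y} {F : List Y → M} {l : List Y}
    (H : AddSubgroup M)
    (hF : ∀ L₁ y L₂, l = L₁ ++ y :: L₂ → F (L₁.map a ++ a y :: b y :: L₂.map b) ∈ H) :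
    pr a b F l ∈ H := by
  induction l generalizing F with
  | nil => exact H.zero_mem
  | cons y l ih =>
    rw [pr_cons]
    refine H.sub_mem (hF [] y l rfl) (ih fun L₁ z L₂ e => ?_)
    have := hF (y :: L₁) z L₂ (by rw [e]; rfl)
    simpa using this

/-- every coordinate in `cs` is changed between two vertices at which any given other coordinate
is the same -/
private def Sep (cs : List (Crd p)) (L : List (YY X p ℓ)) : Prop :=
  ∀ c ∈ cs, ∀ c' : Crd p, c' ≠ c → ∃ y ∈ L, ∃ y' ∈ L, y.2 c ≠ y'.2 c ∧ y.2 c' = y'.2 c'

private theorem upd_same (c : Crd p) (g : ZMod ℓ) (y : YY X p ℓ) : (upd c g y).2 c = g := by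
  simp [upd]

private theorem upd_other {c c' : Crd p} (h : c' ≠ c) (g : ZMod ℓ) (y : YY X p ℓ) :
    (upd c g y).2 c' = y.2 c' := by
  simp [upd, Function.update_of_ne h]

private theorem sep_step (hℓ : 2 ≤ ℓ) {cs : List (Crd p)} {c : Crd p} (hc : c ∉ cs)
    {L₁ L₂ : List (YY X p ℓ)} {y : YY X p ℓ} (h : Sep cs (L₁ ++ y :: L₂)) (g : ZMod ℓ) :
    Sep (c :: cs) (L₁.map (upd c g) ++ upd c g y :: upd c (g + 1) y ::
      L₂.map (upd c (g + 1))) := by
  have hg : g ≠ g + 1 := by
    have : Fact (1 < ℓ) := ⟨hℓ⟩
    intro e
    have : (1 : ZMod ℓ) = 0 := by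
      have := congrArg (fun t => t - g) e
      simpa using this.symm
    exact one_ne_zero this
  have hy1 : upd c g y ∈ L₁.map (upd c g) ++ upd c g y :: upd c (g + 1) y ::
      L₂.map (upd c (g + 1)) := by simp
  have hy2 : upd c (g + 1) y ∈ L₁.map (upd c g) ++ upd c g y :: upd c (g + 1) y ::
      L₂.map (upd c (g + 1)) := by simp
  intro d hd c' hc'
  rcases List.mem_cons.1 hd with rfl | hd
  · exact ⟨_, hy1, _, hy2, by rw [upd_same, upd_same]; exact hg,
      by rw [upd_other hc', upd_other hc']⟩
  · have hdc : d ≠ c := fun e => hc (e ▸ hd)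
    -- every old vertex survives
    have hsurv : ∀ u ∈ L₁ ++ y :: L₂, ∃ u' ∈ L₁.map (upd c g) ++ upd c g y ::
        upd c (g + 1) y :: L₂.map (upd c (g + 1)), ∀ e : Crd p, e ≠ c → u'.2 e = u.2 e := by
      intro u hu
      rcases List.mem_append.1 hu with hu | hu
      · exact ⟨upd c g u, List.mem_append_left _ (List.mem_map_of_mem hu),
          fun e he => upd_other he _ _⟩
      · rcases List.mem_cons.1 hu with rfl | hu
        · exact ⟨_, hy1, fun e he => upd_other he _ _⟩
        · exact ⟨upd c (g + 1) u, List.mem_append_right _ (List.mem_cons_of_mem _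
            (List.mem_cons_of_mem _ (List.mem_map_of_mem hu))), fun e he => upd_other he _ _⟩
    obtain ⟨u, hu, v, hv, huv, huv'⟩ := h d hd c' hc'
    by_cases hcc : c' = c
    · -- the new coordinate
      subst hcc
      have key : ∀ w ∈ L₁ ++ y :: L₂, w.2 d ≠ y.2 d → ∃ s ∈ L₁.map (upd c' g) ++ upd c' g y ::
          upd c' (g + 1) y :: L₂.map (upd c' (g + 1)), ∃ t ∈ L₁.map (upd c' g) ++ upd c' g y ::
          upd c' (g + 1) y :: L₂.map (upd c' (g + 1)), s.2 d ≠ t.2 d ∧ s.2 c' = t.2 c' := by
        intro w hw hne
        rcases List.mem_append.1 hw with hw | hw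
        · exact ⟨upd c' g w, List.mem_append_left _ (List.mem_map_of_mem hw), _, hy1,
            by rw [upd_other hdc, upd_other hdc]; exact hne, by rw [upd_same, upd_same]⟩
        · rcases List.mem_cons.1 hw with rfl | hw
          · exact absurd rfl hne
          · exact ⟨upd c' (g + 1) w, List.mem_append_right _ (List.mem_cons_of_mem _
              (List.mem_cons_of_mem _ (List.mem_map_of_mem hw))), _, hy2,
              by rw [upd_other hdc, upd_other hdc]; exact hne, by rw [upd_same, upd_same]⟩
      by_cases h1 : u.2 d = y.2 d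
      · exact key v hv fun e => huv (h1.trans e.symm)
      · exact key u hu h1
    · obtain ⟨u', hu', hu2⟩ := hsurv u hu
      obtain ⟨v', hv', hv2⟩ := hsurv v hv
      exact ⟨u', hu', v', hv', by rw [hu2 d hdc, hv2 d hdc]; exact huv,
        by rw [hu2 c' hcc, hv2 c' hcc]; exact huv'⟩

private theorem iint_supp [NeZero ℓ] (hℓ : 2 ≤ ℓ) (H : AddSubgroup M) (cs : List (Crd p))
    (hn : cs.Nodup) (F : List (YY X p ℓ) → M) (hF : ∀ L, Sep cs L → F L ∈ H)
    (l : List (YY X p ℓ)) : iint cs F l ∈ H := by
  induction cs generalizing F with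
  | nil => exact hF l fun c hc => absurd hc List.not_mem_nil
  | cons c cs ih =>
    simp only [iint]
    refine ih (List.nodup_cons.1 hn).2 _ fun L hL => ?_
    unfold intc
    refine H.sum_mem fun g _ => pr_supp H fun L₁ y L₂ e => hF _ ?_
    exact sep_step hℓ (List.nodup_cons.1 hn).1 (e ▸ hL) g

/-- sums over free orbits are divisible by the order of the group -/
private theorem orbit_sum {G Ω : Type*} [Group G] [Fintype G] (A : G → Ω → Ω)
    (A1 : ∀ x, A 1 x = x) (Am : ∀ g h x, A g (A h x) = A (h * g) x) (c : Ω →₀ ℤ)
    (hc : ∀ g x, c (A g x) = c x) (hfree : ∀ g x, c x ≠ 0 → A g x = x → g = 1) (F : Ω → M)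
    (hF : ∀ g x, F (A g x) = F x) :
    ∃ m : M, (c.sum fun x n => n • F x) = (Fintype.card G : ℤ) • m := by
  classical
  let S : Setoid Ω :=
    { r := fun x y => ∃ g, A g x = y
      iseqv :=
        { refl := fun x => ⟨1, A1 x⟩
          symm := by
            rintro x y ⟨g, rfl⟩
            exact ⟨g⁻¹, by rw [Am, mul_inv_cancel, A1]⟩
          trans := by
            rintro x y z ⟨g, rfl⟩ ⟨h, rfl⟩
            exact ⟨g * h, (Am _ _ _).symm⟩ } }
  let π : Ω → Quotient S := fun x => Quotient.mk S x
  have key : ∀ q ∈ c.support.image π, ∃ m : M,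
      ∑ x ∈ c.support.filter (fun x => π x = q), c x • F x = (Fintype.card G : ℤ) • m := by
    intro q hq
    obtain ⟨x₀, hx₀, rfl⟩ := Finset.mem_image.1 hq
    have hne : c x₀ ≠ 0 := Finsupp.mem_support_iff.1 hx₀
    have himg : c.support.filter (fun x => π x = π x₀) =
        Finset.univ.image fun g => A g x₀ := by
      ext x
      simp only [Finset.mem_filter, Finsupp.mem_support_iff, Finset.mem_image, Finset.mem_univ,
        true_and]
      constructor
      · rintro ⟨-, h⟩
        have h2 : S.r x₀ x := Quotient.exact h.symm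
        exact h2
      · rintro ⟨g, rfl⟩
        refine ⟨by rw [hc]; exact hne, Quotient.sound ?_⟩
        exact S.symm ⟨g, rfl⟩
    have hinj : Set.InjOn (fun g => A g x₀) (Finset.univ : Finset G) := by
      intro g _ h _ e
      have e2 : A g x₀ = A h x₀ := e
      have : A h⁻¹ (A g x₀) = x₀ := by rw [e2, Am, mul_inv_cancel, A1]
      rw [Am] at this
      exact mul_inv_eq_one.1 (hfree _ _ hne this)
    refine ⟨c x₀ • F x₀, ?_⟩
    rw [himg, Finset.sum_image hinj]
    simp only [hc, hF, Finset.sum_const, Finset.card_univ, natCast_zsmul]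
  choose! m hm using key
  refine ⟨∑ q ∈ c.support.image π, m q, ?_⟩
  rw [Finsupp.sum, Finset.smul_sum,
    ← Finset.sum_fiberwise_of_maps_to (g := π) (t := c.support.image π)
      (fun x hx => Finset.mem_image_of_mem π hx)]
  exact Finset.sum_congr rfl fun q hq => hm q hq

private theorem nodup_allc : (allc p).Nodup := by
  rw [allc, List.nodup_flatMap]
  refine ⟨fun j _ => by simp, ?_⟩
  refine (List.nodup_finRange p).imp ?_
  intro a b hab
  simp [Function.onFun, List.disjoint_left, hab]

theorem iint_dvd [NeZero ℓ] (hℓ : 3 ≤ ℓ) (F : List (YY X p ℓ) → M)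
    (hF : ∀ (σ : Equiv.Perm (Fin p)) l, F (l.map (act σ)) = F l) (l : List (YY X p ℓ))
    (hl : ∀ y ∈ l, y.2 = 0) : ∃ m : M, iint (allc p) F l = (p.factorial : ℤ) • m := by
  classical
  set e : List (YY X p ℓ) → (List (YY X p ℓ) →₀ ℤ) := fun L => Finsupp.single L 1 with he
  set c := iint (allc p) e l with hc
  have h1 : iint (allc p) F l = c.sum fun L n => n • F L := by
    have h2 := map_iint' (Finsupp.linearCombination ℤ F).toAddMonoidHom (allc p) e l
    have h3 : (fun l => (Finsupp.linearCombination ℤ F).toAddMonoidHom (e l)) = F := by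
      funext L
      simp [he]
    rw [h3] at h2
    rw [← h2]
    rfl
  have hact1 : ∀ y : YY X p ℓ, act 1 y = y := fun y => rfl
  have hactm : ∀ (σ τ : Equiv.Perm (Fin p)) (y : YY X p ℓ),
      act σ (act τ y) = act (τ * σ) y := fun σ τ y => rfl
  have hinj : ∀ σ : Equiv.Perm (Fin p), Function.Injective (act σ : YY X p ℓ → YY X p ℓ) := by
    intro σ x y h
    have := congrArg (act σ⁻¹) h
    rwa [hactm, hactm, mul_inv_cancel, hact1, hact1] at this
  have hcinv : ∀ (σ : Equiv.Perm (Fin p)) L, c (L.map (act σ)) = c L := by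
    intro σ L
    have h2 := map_iint' (Finsupp.mapDomain.addMonoidHom (M := ℤ) (List.map (act σ)))
      (allc p) e l
    have h3 : (fun l => Finsupp.mapDomain.addMonoidHom (M := ℤ) (List.map (act σ)) (e l)) =
        fun l => e (l.map (act σ)) := by
      funext L
      simp [he, Finsupp.mapDomain.addMonoidHom, Finsupp.mapDomain_single]
    rw [h3, iint_inv σ e l hl] at h2
    have h4 : Finsupp.mapDomain (List.map (act σ)) c = c := h2
    conv_lhs => rw [← h4]
    exact Finsupp.mapDomain_apply (List.map_injective_iff.2 (hinj σ)) c L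
  have hsupp : ∀ L, c L ≠ 0 → Sep (allc p) L := by
    let H : AddSubgroup (List (YY X p ℓ) →₀ ℤ) :=
      { carrier := {f | ∀ L, f L ≠ 0 → Sep (allc p) L}
        zero_mem' := fun L h => absurd rfl h
        add_mem' := by
          intro f g hf hg L h
          by_contra hn
          have h1 : f L = 0 := by_contra fun h => hn (hf L h)
          have h2 : g L = 0 := by_contra fun h => hn (hg L h)
          exact h (by rw [Finsupp.add_apply, h1, h2, add_zero])
        neg_mem' := by
          intro f hf L h
          exact hf L fun h1 => h (by rw [Finsupp.neg_apply, h1, neg_zero]) }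
    have : c ∈ H := iint_supp (by omega) H (allc p) nodup_allc e (fun L hL L' h => by
      by_cases hLL : L = L'
      · exact hLL ▸ hL
      · exact absurd (by rw [he]; exact Finsupp.single_eq_of_ne' hLL) h) l
    exact this
  obtain ⟨m, hm⟩ := orbit_sum (G := Equiv.Perm (Fin p)) (fun σ L => L.map (act σ))
    (fun L => by
      conv_rhs => rw [← List.map_id L]
      exact List.map_congr_left fun y _ => hact1 y)
    (fun σ τ L => by
      rw [List.map_map]
      exact List.map_congr_left fun y _ => hactm σ τ y) c hcinv
    (fun σ L hL hfix => by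
      by_contra hne
      obtain ⟨k, hk⟩ : ∃ k, σ k ≠ k := by
        by_contra hcon
        push Not at hcon
        exact hne (Equiv.ext hcon)
      have hmem : ((σ k, false) : Crd p) ∈ allc p := by
        rw [allc, List.mem_flatMap]
        exact ⟨σ k, List.mem_finRange _, by simp⟩
      obtain ⟨y, hy, y', hy', h2, h3⟩ := hsupp L hL (σ k, false) hmem (k, false)
        (fun e => hk (Prod.ext_iff.1 e).1.symm)
      have hfix' : ∀ y ∈ L, act σ y = y := by
        have h5 : L.map (act σ) = L.map id := by rw [List.map_id]; exact hfix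
        exact fun y hy => List.map_inj_left.1 h5 y hy
      have h6 : ∀ y ∈ L, y.2 (σ k, false) = y.2 (k, false) := by
        intro y hy
        conv_rhs => rw [← hfix' y hy]
        rfl
      exact h2 (by rw [h6 y hy, h6 y' hy']; exact h3)) F hF
  refine ⟨m, ?_⟩
  rw [h1, hm, Fintype.card_perm, Fintype.card_fin]

end Vale.Agent.P093.Hom
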