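import Mathlib
import Vale.Agent.P093.Hom.GridInt
import Vale.Agent.P093.Hom.GridSym
import Vale.Agent.P093.Hom.OrderDef

/-!
TASK HOM-D3: the transfer.

Proof of `transfer`. Let `G = cup η Φ`; since `η` lives in degree `2p`,
`G L = η (L.take (2p+1)) • Φ (L.drop (2p))`. Let `Ψ₀ l = iint (allc p) G (l.map (·, 0))`; `G` is
invariant under `act σ` (`cup_comp`), so by `iint_dvd` `Ψ₀ l = p ! • Ψ l` for some `Ψ l`
(take `Ψ [] = 0`).
* `bd (Ψ₀ l) = iint (bd ∘ G) = iint (cup η (bd ∘ Φ))` (`map_iint`, `map_cup`). On `SY SX` one has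
  `cup η (bd ∘ Φ) = cup η (dl Φ) = dl G` (Leibniz, `sg η = η` because `2p` is even, `dl η = 0` on
  `SY SX`, `η [] = 0`; `cup_congr`); `SY SX` is hereditary. `iint` of two functions that agree on
  `SY SX` agree at `l.map (·, 0)`, `l ∈ SX` (`iint_mem` with `H = ⊥` for the difference; the lists `L`
  there are in `SY SX` because `SX` is `Full`; `(l.map (·,0))` is `GridSmall`). Then `iint_dl` with
  `(allc p).length = 2 p` and `dl_comp` give `bd (Ψ₀ l) = dl Ψ₀ l`; divide by `p !`
  (`OChain V` is torsion free).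
* `aug (Ψ₀ [x]) = iint (aug ∘ G) [(x,0)]`, all lists `L` occurring have length `2p+1`, where
  `aug (G L) = η L * aug (Φ [last]) = η L = cpow tc p L + dl ζ L`;
  `iint (cpow tc p) [(x,0)] = p !` (`iint_tc`), `iint (dl ζ) [(x,0)] = ± dl (iint ζ) [(x,0)] =
  ± iint ζ [] = 0`.
* support: if every `G L` had coefficient zero at `s`, so would `Ψ₀ l` (`iint_mem` with
  `H = {c | c s = 0}`), hence `Ψ l`.
-/

namespace Vale.Agent.P093.Hom

/-- boundary of ordered chains -/
noncomputable def bd {V : Type*} : OChain V →+ OChain V :=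
  Finsupp.liftAddHom fun s => zmultiplesHom _ (simplexBoundary s)

/-- augmentation: sum of the coefficients -/
noncomputable def aug {V : Type*} : OChain V →+ ℤ := Finsupp.liftAddHom fun _ => AddMonoidHom.id ℤ

variable {X V : Type*} {p ℓ : ℕ}

theorem bd_single {V : Type*} (s : List V) : bd (Finsupp.single s 1) = simplexBoundary s := by
  simp [bd]

theorem bd_eq_extend {V : Type*} (c : OChain V) : bd c = extend simplexBoundary c := by
  rw [bd, Finsupp.liftAddHom_apply, extend]
  rfl

theorem aug_eq_sum {V : Type*} (c : OChain V) : aug c = c.sum fun _ n => n := by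
  rw [aug, Finsupp.liftAddHom_apply]
  rfl

private theorem tr_dl_eq_sum {X : Type*} {M : Type*} [AddCommGroup M] (F : List X → M)
    (l : List X) : dl F l = ∑ i ∈ Finset.range l.length, (-1 : ℤ) ^ i • F (l.eraseIdx i) := by
  induction l generalizing F with
  | nil => simp
  | cons y l ih =>
    rw [dl_cons, ih, List.length_cons, Finset.sum_range_succ', List.eraseIdx_cons_zero, pow_zero,
      one_smul, add_comm, sub_eq_add_neg, ← Finset.sum_neg_distrib]
    congr 1
    refine Finset.sum_congr rfl fun i _ => ?_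
    rw [List.eraseIdx_cons_succ, pow_succ, mul_neg_one, neg_smul]

/-- `dl` computes the value on the boundary -/
theorem extend_boundary {X : Type*} {M : Type*} [AddCommGroup M] (F : List X → M) (hF : F [] = 0)
    (l : List X) : extend F (simplexBoundary l) = dl F l := by
  have hE : ∀ c : OChain X, extend F c =
      (Finsupp.liftAddHom fun s => zmultiplesHom M (F s) : OChain X →+ M) c := by
    intro c
    rw [Finsupp.liftAddHom_apply, extend]
    rfl
  rw [hE, simplexBoundary]
  split_ifs with h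
  · rw [map_zero]
    match l, h with
    | [], _ => rfl
    | [y], _ => rw [dl_singleton, hF]
    | y :: z :: l, h => simp at h
  · rw [map_sum, tr_dl_eq_sum]
    refine Finset.sum_congr rfl fun i _ => ?_
    rw [map_zsmul, Finsupp.liftAddHom_apply_single]
    simp

/-! ### Auxiliary facts -/

section Aux

variable {Y : Type*} {M : Type*} [AddCommGroup M]

private theorem tr_cup_zero (f : List Y → ℤ) (G : List Y → M) (hf : ∀ l, l ≠ [] → f l = 0)
    (l : List Y) : cup f G l = 0 := by
  induction l generalizing f with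
  | nil => rfl
  | cons y l ih =>
    rw [cup_cons, hf [y] (by simp), zero_smul, zero_add]
    exact ih _ fun l' _ => hf _ (by simp)

/-- cup product with a cochain of degree `n` -/
private theorem tr_cup_split (n : ℕ) (f : List Y → ℤ) (G : List Y → M)
    (hf : ∀ l, f l ≠ 0 → l.length = n + 1) (l : List Y) :
    cup f G l = f (l.take (n + 1)) • G (l.drop n) := by
  induction n generalizing f l with
  | zero =>
    cases l with
    | nil =>
      have h : f [] = 0 := by
        by_contra h
        simpa using hf _ h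
      simp [h]
    | cons y l =>
      rw [cup_cons, tr_cup_zero]
      · simp
      · intro l' hl'
        by_contra h
        have h1 := hf _ h
        rw [List.length_cons] at h1
        exact hl' (List.length_eq_zero_iff.1 (by omega))
  | succ n ih =>
    cases l with
    | nil =>
      have h : f [] = 0 := by
        by_contra h
        simpa using hf _ h
      simp [h]
    | cons y l =>
      have h : f [y] = 0 := by
        by_contra h
        have h1 := hf _ h
        rw [List.length_singleton] at h1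
        omega
      rw [cup_cons, h, zero_smul, zero_add, ih (fun l' => f (y :: l'))]
      · rfl
      · intro l' hl'
        have h1 := hf _ hl'
        rw [List.length_cons] at h1
        omega

end Aux

private theorem tr_hered {SX : Set (List X)} (hSX : Full SX) :
    Hered (SY (p := p) (ℓ := ℓ) SX) := by
  rintro l ⟨hl, g, hg⟩ l' hl'
  refine ⟨hSX _ hl _ fun x hx => ?_, g, fun y hy => hg y (hl'.subset hy)⟩
  exact (hl'.map Prod.fst).subset hx

private theorem tr_small (l : List X) :
    GridSmall (l.map fun x => ((x, 0) : YY X p ℓ)) := by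
  refine ⟨0, fun y hy c => Or.inl ?_⟩
  obtain ⟨x, _, rfl⟩ := List.mem_map.1 hy
  rfl

private theorem tr_length_allc (p : ℕ) : (allc p).length = 2 * p := by
  rw [allc, List.length_flatMap]
  simp [mul_comm]

/-- two functions which agree on `SY SX` have the same iterated integrals -/
private theorem tr_iint_congr [NeZero ℓ] {M : Type*} [AddCommGroup M] {SX : Set (List X)}
    (hSX : Full SX) (F G : List (YY X p ℓ) → M) {l : List X} (hl : l ∈ SX)
    (h : ∀ L ∈ SY (p := p) (ℓ := ℓ) SX, L.length = l.length + 2 * p → (∀ y ∈ L, y.1 ∈ l) →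
      F L = G L) :
    iint (allc p) F (l.map fun x => (x, 0)) = iint (allc p) G (l.map fun x => (x, 0)) := by
  have h1 : iint (allc p) (fun L => F L - G L) (l.map fun x => (x, 0)) ∈ (⊥ : AddSubgroup M) := by
    refine iint_mem _ _ _ (tr_small l) ⊥ fun L hL1 hL2 hL3 => ?_
    have h2 : ∀ y ∈ L, y.1 ∈ l := by
      intro y hy
      obtain ⟨y', hy', e⟩ := hL2 y hy
      obtain ⟨x, hx, rfl⟩ := List.mem_map.1 hy'
      rw [e]
      exact hx
    have h3 : L ∈ SY (p := p) (ℓ := ℓ) SX := by
      refine ⟨hSX l hl _ fun x hx => ?_, hL3⟩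
      obtain ⟨y, hy, rfl⟩ := List.mem_map.1 hx
      exact h2 y hy
    rw [AddSubgroup.mem_bot, h L h3 ?_ h2, sub_self]
    rw [hL1, List.length_map, tr_length_allc]
  rw [AddSubgroup.mem_bot] at h1
  have h2 := iint_add (allc p) (fun L => F L - G L) G (l.map fun x => ((x, 0) : YY X p ℓ))
  simp only [sub_add_cancel] at h2
  rw [h2, h1, zero_add]

theorem transfer [NeZero ℓ] (hℓ : 3 ≤ ℓ) {SX : Set (List X)} (hSX : Full SX)
    (η : List (YY X p ℓ) → ℤ) (Φ : List (YY X p ℓ) → OChain V)
    (hη0 : ∀ l, η l ≠ 0 → l.length = 2 * p + 1) (hηc : ∀ l ∈ SY SX, dl η l = 0)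
    (hηt : ∃ ζ : List (YY X p ℓ) → ℤ, ζ [] = 0 ∧
      ∀ l ∈ SY SX, l.length = 2 * p + 1 → η l = cpow tc p l + dl ζ l)
    (hηs : ∀ (σ : Equiv.Perm (Fin p)) l, η (l.map (act σ)) = η l)
    (hΦ0 : Φ [] = 0) (hΦc : ∀ l ∈ SY SX, bd (Φ l) = dl Φ l) (hΦ1 : ∀ y, aug (Φ [y]) = 1)
    (hΦs : ∀ (σ : Equiv.Perm (Fin p)) l, Φ (l.map (act σ)) = Φ l) :
    ∃ Ψ : List X → OChain V, Ψ [] = 0 ∧ (∀ l ∈ SX, bd (Ψ l) = dl Ψ l) ∧
      (∀ x, [x] ∈ SX → aug (Ψ [x]) = 1) ∧
      ∀ l ∈ SX, ∀ s ∈ (Ψ l).support, ∃ L ∈ SY (p := p) (ℓ := ℓ) SX, (∀ y ∈ L, y.1 ∈ l) ∧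
        L.length = l.length + 2 * p ∧ η (L.take (2 * p + 1)) ≠ 0 ∧
        s ∈ (Φ (L.drop (2 * p))).support := by
  set G : List (YY X p ℓ) → OChain V := cup η Φ with hG
  have hGsplit : ∀ L, G L = η (L.take (2 * p + 1)) • Φ (L.drop (2 * p)) := fun L =>
    tr_cup_split (2 * p) η Φ hη0 L
  have hGs : ∀ (σ : Equiv.Perm (Fin p)) l, G (l.map (act σ)) = G l := by
    intro σ l
    rw [hG, ← cup_comp (act σ) η Φ l]
    simp only [hηs, hΦs]
  have hdvd : ∀ l : List X, ∃ m : OChain V,
      iint (allc p) G (l.map fun x => (x, 0)) = (p.factorial : ℤ) • m := by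
    intro l
    refine iint_dvd hℓ G hGs _ fun y hy => ?_
    obtain ⟨x, _, rfl⟩ := List.mem_map.1 hy
    rfl
  choose Ψ hΨ using hdvd
  have hfac : ((p.factorial : ℕ) : ℤ) ≠ 0 := Int.natCast_ne_zero.2 (Nat.factorial_ne_zero p)
  have hcancel : ∀ a b : OChain V, (p.factorial : ℤ) • a = (p.factorial : ℤ) • b → a = b := by
    intro a b h
    ext s
    have h1 := DFunLike.congr_fun h s
    rw [Finsupp.smul_apply, Finsupp.smul_apply, smul_eq_mul, smul_eq_mul] at h1
    exact mul_left_cancel₀ hfac h1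
  have hη00 : η [] = 0 := by
    by_contra h
    simpa using hη0 _ h
  have hsg : sg η = η := by
    funext l
    by_cases h : η l = 0
    · rw [sg, h, smul_zero]
    · rw [sg, hη0 l h]
      have h2 : (-1 : ℤ) ^ (2 * p + 1 + 1) = 1 := by
        rw [show 2 * p + 1 + 1 = 2 * (p + 1) by ring, pow_mul]
        simp
      rw [h2, one_smul]
  have hpow : (-1 : ℤ) ^ (allc p).length = 1 := by
    rw [tr_length_allc, pow_mul]
    simp
  -- the boundary on small tuples
  have hbd : ∀ L ∈ SY (p := p) (ℓ := ℓ) SX, bd (G L) = dl G L := by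
    intro L hL
    have h1 : bd (G L) = cup η (dl Φ) L := by
      rw [hG, map_cup]
      exact cup_congr (tr_hered hSX) (fun _ _ => rfl) hΦc hL
    have h2 : cup (dl η) Φ L = 0 := by
      rw [cup_congr (tr_hered hSX) (g := fun _ => 0) (G := Φ) hηc (fun _ _ => rfl) hL,
        cup_zero_left]
    rw [h1, hG, dl_cup' η Φ hη00 hΦ0, h2, zero_add, hsg]
  refine ⟨Ψ, ?_, ?_, ?_, ?_⟩
  · refine hcancel _ _ ?_
    rw [← hΨ, List.map_nil, smul_zero]
    exact iint_nil' _ _ rfl
  · intro l hl
    refine hcancel _ _ ?_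
    rw [← map_zsmul, ← hΨ, map_iint, ← dl_zsmul]
    simp only [← hΨ]
    rw [tr_iint_congr hSX (fun L => bd (G L)) (dl G) hl fun L hL _ _ => hbd L hL, iint_dl, hpow,
      one_smul, dl_comp (fun x => ((x, 0) : YY X p ℓ)) (iint (allc p) G)]
  · intro x hx
    obtain ⟨ζ, hζ0, hζ⟩ := hηt
    refine mul_left_cancel₀ hfac ?_
    rw [← smul_eq_mul, ← map_zsmul, ← hΨ, map_iint, mul_one]
    rw [tr_iint_congr hSX (fun L => aug (G L)) (fun L => cpow tc p L + dl ζ L) hx ?_, iint_add,
      iint_dl, hpow, one_smul]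
    · change iint (allc p) (cpow tc p) [(x, 0)] + dl (iint (allc p) ζ) [(x, 0)] = _
      rw [iint_tc hℓ, dl_singleton, iint_nil' _ _ hζ0, add_zero]
    · intro L hL hlen _
      rw [List.length_singleton] at hlen
      have hlen' : L.length = 2 * p + 1 := by omega
      have h1 : L.take (2 * p + 1) = L := List.take_of_length_le (by omega)
      obtain ⟨y, hy⟩ : ∃ y, L.drop (2 * p) = [y] := by
        rw [← List.length_eq_one_iff, List.length_drop]
        omega
      change aug (G L) = _
      rw [hGsplit, map_zsmul, h1, hy, hΦ1, smul_eq_mul, mul_one, hζ L hL hlen']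
  · intro l hl s hs
    by_contra hcon
    push Not at hcon
    have h1 : iint (allc p) G (l.map fun x => (x, 0)) ∈
        (Finsupp.applyAddHom s : OChain V →+ ℤ).ker := by
      refine iint_mem _ _ _ (tr_small l) _ fun L hL1 hL2 hL3 => ?_
      have h2 : ∀ y ∈ L, y.1 ∈ l := by
        intro y hy
        obtain ⟨y', hy', e⟩ := hL2 y hy
        obtain ⟨x, hx, rfl⟩ := List.mem_map.1 hy'
        rw [e]
        exact hx
      have h3 : L ∈ SY (p := p) (ℓ := ℓ) SX := by
        refine ⟨hSX l hl _ fun x hx => ?_, hL3⟩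
        obtain ⟨y, hy, rfl⟩ := List.mem_map.1 hx
        exact h2 y hy
      have h4 : L.length = l.length + 2 * p := by
        rw [hL1, List.length_map, tr_length_allc]
      rw [AddMonoidHom.mem_ker, hGsplit, map_zsmul, smul_eq_mul, Finsupp.applyAddHom_apply]
      by_cases h5 : η (L.take (2 * p + 1)) = 0
      · rw [h5, zero_mul]
      · have h6 := hcon L h3 h2 h4 h5
        rw [Finsupp.notMem_support_iff.1 h6, mul_zero]
    rw [AddMonoidHom.mem_ker, hΨ, map_zsmul, smul_eq_mul, Finsupp.applyAddHom_apply] at h1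
    exact (Finsupp.mem_support_iff.1 hs) ((mul_eq_zero.1 h1).resolve_left hfac)

end Vale.Agent.P093.Hom
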