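import Mathlib
import Vale.Agent.P093.Hom.Transfer

/-!
TASK HOM-J1: acyclic carriers for ordered chains.

Proof. Let `cone w c = ∑ n_s single (w :: s)` for `c = ∑ n_s single s` (an additive map, e.g.
`Finsupp.liftAddHom fun s => zmultiplesHom _ (Finsupp.single (w :: s) 1)`). For lists `s` of length `≥ 2`
`bd (single (w :: s) 1) = single s 1 - cone w (bd (single s 1))`, for `s = [w']` it is
`single [w'] 1 - single [w] 1`. Hence `bd (cone w c) = c - cone w (bd c)` if `c` is supported on lists of
length `≥ 2`, and `bd (cone w c) = c - aug c • single [w] 1` if `c` is supported on lists of length `1`.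
Define `H` by recursion on the length: `H [] = 0`, `H l = cone (v l) (Φ l - Φ' l - dl H l)`
(`dl H l` only uses the values of `H` at the lists `l.eraseIdx i`, `i < l.length`; `tr_dl_eq_sum` in
`Hom/Transfer.lean` (private, copy it) is `dl F l = ∑ i ∈ range l.length, (-1) ^ i • F (l.eraseIdx i)`; e.g.
define `Hn : ℕ → List Y → OChain V` by recursion on `n`, `Hn 0 l = 0`,
`Hn (n + 1) l = cone (v l) (Φ l - Φ' l - dl (Hn n) l)`, and `H l = Hn l.length l`).
By induction on the length of `l`, for `l ∈ S`, `l ≠ []`: all lists in the support of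
`Φ l - Φ' l - dl H l` have length `l.length` and entries in `C l` (monotone carrier), and
`bd (Φ l - Φ' l - dl H l) = 0` if `l.length ≥ 2` (`bd (dl H l) = dl (bd ∘ H) l` by `dl_map`, on nonempty
sublists `bd ∘ H = Φ - Φ' - dl H`, and `dl (dl H) l = 0`), `aug (…) = 0` if `l.length = 1`.
-/

open Finset

namespace Vale.Agent.P093.Hom

private theorem hj_dl_eq_sum {X : Type*} {M : Type*} [AddCommGroup M] (F : List X → M)
    (l : List X) : dl F l = ∑ i ∈ Finset.range l.length, (-1 : ℤ) ^ i • F (l.eraseIdx i) := by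
  induction l generalizing F with
  | nil => simp
  | cons y l ih =>
    rw [dl_cons, ih, List.length_cons, Finset.sum_range_succ', List.eraseIdx_cons_zero, pow_zero,
      one_smul, add_comm, sub_eq_add_neg, ← Finset.sum_neg_distrib]
    congr 1
    refine Finset.sum_congr rfl fun i _ => ?_
    rw [List.eraseIdx_cons_succ, pow_succ, mul_neg_one, neg_smul]

/-- the cone with apex `w` -/
noncomputable def hjCone {V : Type*} (w : V) : OChain V →+ OChain V :=
  Finsupp.liftAddHom fun s => zmultiplesHom _ (Finsupp.single (w :: s) 1)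

section cone

variable {V : Type*}

private theorem hj_cone_single (w : V) (s : List V) :
    hjCone w (Finsupp.single s 1) = Finsupp.single (w :: s) 1 := by
  simp [hjCone]

private theorem hj_ext {A : Type*} [AddCommGroup A] (f g : OChain V →+ A) (c : OChain V)
    (h : ∀ s ∈ c.support, f (Finsupp.single s 1) = g (Finsupp.single s 1)) : f c = g c := by
  have hc : c = ∑ s ∈ c.support, c s • Finsupp.single s (1 : ℤ) := by
    conv_lhs => rw [← Finsupp.sum_single c]
    rw [Finsupp.sum]
    refine Finset.sum_congr rfl fun s _ => ?_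
    rw [Finsupp.smul_single, smul_eq_mul, mul_one]
  rw [hc, map_sum, map_sum]
  refine Finset.sum_congr rfl fun s hs => ?_
  rw [map_zsmul, map_zsmul, h s hs]

private theorem hj_bd_cons (w : V) (s : List V) (hs : s ≠ []) :
    bd (Finsupp.single (w :: s) 1) = Finsupp.single s 1 -
      hjCone w (∑ i ∈ Finset.range s.length, (-1 : ℤ) ^ i • Finsupp.single (s.eraseIdx i) 1) := by
  have h1 : ¬ (w :: s).length ≤ 1 := by
    rw [List.length_cons]
    have := List.length_pos_iff.2 hs
    omega
  rw [bd_single, simplexBoundary, if_neg h1, List.length_cons, Finset.sum_range_succ',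
    List.eraseIdx_cons_zero, pow_zero, one_smul, add_comm, sub_eq_add_neg, map_sum,
    ← Finset.sum_neg_distrib]
  congr 1
  refine Finset.sum_congr rfl fun i _ => ?_
  rw [List.eraseIdx_cons_succ, pow_succ, mul_neg_one, neg_smul, map_zsmul, hj_cone_single]

private theorem hj_bd_cone (w : V) (c : OChain V) (hc : ∀ s ∈ c.support, 2 ≤ s.length) :
    bd (hjCone w c) = c - hjCone w (bd c) := by
  have := hj_ext (bd.comp (hjCone w)) (AddMonoidHom.id _ - (hjCone w).comp bd) c ?_
  · simpa using this
  · intro s hs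
    have h2 := hc s hs
    have hne : s ≠ [] := by
      rintro rfl
      simp at h2
    simp only [AddMonoidHom.coe_comp, Function.comp_apply, AddMonoidHom.sub_apply,
      AddMonoidHom.id_apply]
    rw [hj_cone_single, hj_bd_cons w s hne, bd_single, simplexBoundary, if_neg (by omega)]

private theorem hj_bd_cone_one (w : V) (c : OChain V) (hc : ∀ s ∈ c.support, s.length = 1) :
    bd (hjCone w c) = c - aug c • Finsupp.single [w] 1 := by
  have := hj_ext (bd.comp (hjCone w)) (AddMonoidHom.id _ -
    (zmultiplesHom (OChain V) (Finsupp.single [w] 1)).comp aug) c ?_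
  · simpa using this
  · intro s hs
    have h2 := hc s hs
    have hne : s ≠ [] := by
      rintro rfl
      simp at h2
    have haug : aug (Finsupp.single s 1) = 1 := by simp [aug]
    have he : s.eraseIdx 0 = [] := by
      match s, h2 with
      | [x], _ => rfl
    simp only [AddMonoidHom.coe_comp, Function.comp_apply, AddMonoidHom.sub_apply,
      AddMonoidHom.id_apply]
    rw [hj_cone_single, hj_bd_cons w s hne, h2, haug]
    simp [he, hj_cone_single]

private theorem hj_cone_support (w : V) (c : OChain V) :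
    ∀ s ∈ (hjCone w c).support, ∃ s' ∈ c.support, s = w :: s' := by
  classical
  intro s hs
  by_contra hcon
  push Not at hcon
  have h1 : (Finsupp.applyAddHom s : OChain V →+ ℤ).comp (hjCone w) c = (0 : OChain V →+ ℤ) c := by
    refine hj_ext _ _ c fun s' hs' => ?_
    simp only [AddMonoidHom.coe_comp, Function.comp_apply, AddMonoidHom.zero_apply,
      hj_cone_single, Finsupp.applyAddHom_apply]
    rw [Finsupp.single_apply, if_neg (fun h => hcon s' hs' h.symm)]
  rw [Finsupp.mem_support_iff] at hs
  exact hs h1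

end cone

/-- the homotopy, by recursion on the length -/
noncomputable def hjH {Y V : Type*} (v : List Y → V) (Φ Φ' : List Y → OChain V) :
    ℕ → List Y → OChain V
  | 0, _ => 0
  | n + 1, l => hjCone (v l) (Φ l - Φ' l - dl (hjH v Φ Φ' n) l)

theorem exists_homotopy {Y V : Type*} {S : Set (List Y)}
    (hS : ∀ l ∈ S, ∀ l' : List Y, l'.Sublist l → l' ∈ S) {C : List Y → Set V}
    (hC : ∀ l ∈ S, ∀ l' : List Y, l'.Sublist l → l' ≠ [] → C l' ⊆ C l) (v : List Y → V)
    (hv : ∀ l ∈ S, l ≠ [] → v l ∈ C l) (Φ Φ' : List Y → OChain V) (hΦ0 : Φ [] = 0)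
    (hΦ0' : Φ' [] = 0) (hΦc : ∀ l ∈ S, bd (Φ l) = dl Φ l) (hΦc' : ∀ l ∈ S, bd (Φ' l) = dl Φ' l)
    (hΦ1 : ∀ y, [y] ∈ S → aug (Φ [y]) = 1) (hΦ1' : ∀ y, [y] ∈ S → aug (Φ' [y]) = 1)
    (hΦs : ∀ l ∈ S, l ≠ [] → ∀ s ∈ (Φ l).support, s.length = l.length ∧ ∀ w ∈ s, w ∈ C l)
    (hΦs' : ∀ l ∈ S, l ≠ [] → ∀ s ∈ (Φ' l).support, s.length = l.length ∧ ∀ w ∈ s, w ∈ C l) :
    ∃ H : List Y → OChain V, H [] = 0 ∧ ∀ l ∈ S, l ≠ [] →
      bd (H l) = Φ l - Φ' l - dl H l ∧
      ∀ s ∈ (H l).support, s.length = l.length + 1 ∧ ∀ w ∈ s, w ∈ C l := by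
  classical
  let H : List Y → OChain V := fun l => hjH v Φ Φ' l.length l
  have hH0 : H [] = 0 := rfl
  have hHrec : ∀ l, l ≠ [] → H l = hjCone (v l) (Φ l - Φ' l - dl H l) := by
    intro l hl
    obtain ⟨n, hn⟩ : ∃ n, l.length = n + 1 :=
      ⟨l.length - 1, by have := List.length_pos_iff.2 hl; omega⟩
    have h1 : dl (hjH v Φ Φ' n) l = dl H l := by
      rw [hj_dl_eq_sum, hj_dl_eq_sum]
      refine Finset.sum_congr rfl fun i hi => ?_
      have h2 : (l.eraseIdx i).length = n := by
        rw [List.length_eraseIdx_of_lt (Finset.mem_range.1 hi), hn]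
        rfl
      change _ = (-1 : ℤ) ^ i • hjH v Φ Φ' (l.eraseIdx i).length (l.eraseIdx i)
      rw [h2]
    change hjH v Φ Φ' l.length l = _
    rw [hn, hjH, h1]
  refine ⟨H, hH0, ?_⟩
  have key : ∀ n : ℕ, ∀ l ∈ S, l.length = n → l ≠ [] →
      bd (H l) = Φ l - Φ' l - dl H l ∧
      ∀ s ∈ (H l).support, s.length = l.length + 1 ∧ ∀ w ∈ s, w ∈ C l := by
    intro n
    induction n using Nat.strong_induction_on with
    | _ n ih =>
    intro l hl hn hne
    have hpos : 0 < l.length := List.length_pos_iff.2 hne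
    -- sublists
    have hsub : ∀ i < l.length, l.eraseIdx i ∈ S ∧ (l.eraseIdx i).length + 1 = l.length ∧
        (l.eraseIdx i ≠ [] → C (l.eraseIdx i) ⊆ C l) := by
      intro i hi
      refine ⟨hS l hl _ (List.eraseIdx_sublist l i), ?_, fun h => hC l hl _
        (List.eraseIdx_sublist l i) h⟩
      rw [List.length_eraseIdx_of_lt hi]
      omega
    have hIH : ∀ i < l.length, l.eraseIdx i ≠ [] →
        bd (H (l.eraseIdx i)) = Φ (l.eraseIdx i) - Φ' (l.eraseIdx i) - dl H (l.eraseIdx i) ∧
        ∀ s ∈ (H (l.eraseIdx i)).support, s.length = (l.eraseIdx i).length + 1 ∧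
          ∀ w ∈ s, w ∈ C (l.eraseIdx i) := by
      intro i hi hne'
      obtain ⟨h1, h2, -⟩ := hsub i hi
      exact ih _ (by omega) _ h1 rfl hne'
    -- support of `dl H l`
    have hdl : ∀ s ∈ (dl H l).support, s.length = l.length ∧ ∀ w ∈ s, w ∈ C l := by
      intro s hs
      rw [hj_dl_eq_sum] at hs
      have h1 := Finsupp.support_finsetSum hs
      rw [Finset.mem_biUnion] at h1
      obtain ⟨i, hi, h2⟩ := h1
      rw [Finset.mem_range] at hi
      have h3 := Finsupp.support_smul h2
      by_cases he : l.eraseIdx i = []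
      · rw [he, hH0] at h3
        simp at h3
      · obtain ⟨-, h5⟩ := hIH i hi he
        obtain ⟨h6, h7, h8⟩ := hsub i hi
        obtain ⟨h9, h10⟩ := h5 s h3
        exact ⟨by omega, fun w hw => h8 he (h10 w hw)⟩
    have hK : ∀ s ∈ (Φ l - Φ' l - dl H l).support, s.length = l.length ∧ ∀ w ∈ s, w ∈ C l := by
      intro s hs
      rcases Finset.mem_union.1 (Finsupp.support_sub hs) with h1 | h1
      · rcases Finset.mem_union.1 (Finsupp.support_sub h1) with h2 | h2
        · exact hΦs l hl hne s h2
        · exact hΦs' l hl hne s h2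
      · exact hdl s h1
    refine ⟨?_, ?_⟩
    · rw [hHrec l hne]
      by_cases h2 : 2 ≤ l.length
      · rw [← hHrec l hne, hHrec l hne, hj_bd_cone _ _ fun s hs => by rw [(hK s hs).1]; exact h2]
        have hb : bd (Φ l - Φ' l - dl H l) = 0 := by
          rw [map_sub, map_sub, hΦc l hl, hΦc' l hl]
          have h3 : bd (dl H l) = dl (fun l' => bd (H l')) l := (dl_map bd H l).symm
          have h4 : dl (fun l' => bd (H l')) l = dl (fun l' => Φ l' - Φ' l' - dl H l') l := by
            rw [hj_dl_eq_sum, hj_dl_eq_sum]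
            refine Finset.sum_congr rfl fun i hi => ?_
            rw [Finset.mem_range] at hi
            obtain ⟨-, h6, -⟩ := hsub i hi
            rw [(hIH i hi (by rw [← List.length_pos_iff]; omega)).1]
          rw [h3, h4, dl_sub (fun l' => Φ l' - Φ' l') (dl H), dl_sub Φ Φ', dl_dl]
          abel
        rw [hb, map_zero, sub_zero]
      · have h1 : l.length = 1 := by omega
        obtain ⟨y, rfl⟩ := List.length_eq_one_iff.1 h1
        rw [hj_bd_cone_one _ _ fun s hs => by rw [(hK s hs).1]; exact h1]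
        rw [dl_singleton, hH0, sub_zero, map_sub, hΦ1 y hl, hΦ1' y hl, sub_self, zero_smul,
          sub_zero]
    · intro s hs
      rw [hHrec l hne] at hs
      obtain ⟨s', hs', rfl⟩ := hj_cone_support _ _ s hs
      obtain ⟨h1, h2⟩ := hK s' hs'
      refine ⟨by rw [List.length_cons, h1], fun w hw => ?_⟩
      rcases List.mem_cons.1 hw with h | h
      · rw [h]
        exact hv l hl hne
      · exact h2 w h
  exact fun l hl hne => key l.length l hl rfl hne

end Vale.Agent.P093.Hom
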