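import Mathlib
import Vale.Agent.P093.Hom.BlocksDef

/-!
TASK HOM-A3: triangulated cubes.

Proof. Both by induction on `κ` (generalizing `F`): `ct` is additive in `F`, `dl_comp`, and
`pr_dl : pr a b (dl F) l = F (l.map b) - F (l.map a) - dl (pr a b F) l`. For `ct_mem` note that
`pr a b F l` is a signed sum of values `F L`, where `L` has length `l.length + 1` and all entries of
`L` are `a y` or `b y` with `y ∈ l`.
-/

namespace Vale.Agent.P093.Hom

variable {M : Type*} [AddCommGroup M]

theorem ct_sub (κ : List Cell) (F G : List (List Bool) → M) :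
    ct κ (fun l => F l - G l) = ct κ F - ct κ G := by
  induction κ generalizing F G with
  | nil => rfl
  | cons c κ ih =>
    cases c with
    | z => exact ih (fun l => F (l.map (false :: ·))) (fun l => G (l.map (false :: ·)))
    | o => exact ih (fun l => F (l.map (true :: ·))) (fun l => G (l.map (true :: ·)))
    | e =>
      change ct κ (pr (false :: ·) (true :: ·) (fun l => F l - G l)) = _
      have h : (pr (false :: ·) (true :: ·) (fun l => F l - G l)) =
          fun l : List (List Bool) => pr (false :: ·) (true :: ·) F l -
            pr (false :: ·) (true :: ·) G l := by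
        funext l
        exact pr_sub _ _ F G l
      rw [h, ih]
      rfl

theorem ct_dl (F : List (List Bool) → M) (hF : F [] = 0) (κ : List Cell) :
    ct κ (dl F) = cb (fun κ' => ct κ' F) κ := by
  induction κ generalizing F with
  | nil => simpa [ct, cb, dl_cons] using hF
  | cons c κ ih =>
    cases c with
    | z =>
      change ct κ (fun l => dl F (l.map (false :: ·))) = _
      have h : (fun l : List (List Bool) => dl F (l.map (false :: ·))) =
          dl (fun l => F (l.map (false :: ·))) := by
        funext l
        exact (dl_comp (false :: ·) F l).symm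
      rw [h, ih (fun l => F (l.map (false :: ·))) (by simpa using hF)]
      rfl
    | o =>
      change ct κ (fun l => dl F (l.map (true :: ·))) = _
      have h : (fun l : List (List Bool) => dl F (l.map (true :: ·))) =
          dl (fun l => F (l.map (true :: ·))) := by
        funext l
        exact (dl_comp (true :: ·) F l).symm
      rw [h, ih (fun l => F (l.map (true :: ·))) (by simpa using hF)]
      rfl
    | e =>
      change ct κ (pr (false :: ·) (true :: ·) (dl F)) = _
      have h : (pr (false :: ·) (true :: ·) (dl F)) =
          fun l : List (List Bool) => (F (l.map (true :: ·)) - F (l.map (false :: ·))) -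
            dl (pr (false :: ·) (true :: ·) F) l := by
        funext l
        exact pr_dl _ _ F l
      rw [h, ct_sub, ct_sub, ih (pr (false :: ·) (true :: ·) F) rfl]
      rfl

theorem pr_mem {Y Z : Type*} (H : AddSubgroup M) (a b : Y → Z) (F : List Z → M) (l : List Y)
    (hF : ∀ L : List Z, L.length = l.length + 1 → (∀ S ∈ L, ∃ y ∈ l, S = a y ∨ S = b y) →
      F L ∈ H) : pr a b F l ∈ H := by
  induction l generalizing F with
  | nil => exact H.zero_mem
  | cons y l ih =>
    rw [pr_cons]
    refine H.sub_mem (hF _ (by simp) ?_) (ih _ ?_)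
    · intro S hS
      simp only [List.mem_cons, List.mem_map] at hS
      rcases hS with rfl | rfl | ⟨y', hy', rfl⟩
      · exact ⟨y, by simp, Or.inl rfl⟩
      · exact ⟨y, by simp, Or.inr rfl⟩
      · exact ⟨y', by simp [hy'], Or.inr rfl⟩
    · intro L hL hL'
      refine hF _ (by simp [hL]) ?_
      intro S hS
      rcases List.mem_cons.1 hS with rfl | hS
      · exact ⟨y, by simp, Or.inl rfl⟩
      · obtain ⟨y', hy', h⟩ := hL' S hS
        exact ⟨y', by simp [hy'], h⟩

theorem ct_mem (H : AddSubgroup M) (κ : List Cell) (F : List (List Bool) → M)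
    (hF : ∀ L : List (List Bool), L.length = ecount κ + 1 → (∀ S ∈ L, VertexOf S κ) → F L ∈ H) :
    ct κ F ∈ H := by
  induction κ generalizing F with
  | nil =>
    refine hF _ rfl ?_
    intro S hS
    obtain rfl : S = [] := by simpa using hS
    exact List.Forall₂.nil
  | cons c κ ih =>
    cases c with
    | z =>
      refine ih (fun l => F (l.map (false :: ·))) ?_
      intro L hL hL'
      refine hF _ (by simpa [ecount] using hL) ?_
      intro S hS
      obtain ⟨S', hS', rfl⟩ := List.mem_map.1 hS
      exact List.Forall₂.cons ⟨by simp, by simp⟩ (hL' S' hS')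
    | o =>
      refine ih (fun l => F (l.map (true :: ·))) ?_
      intro L hL hL'
      refine hF _ (by simpa [ecount] using hL) ?_
      intro S hS
      obtain ⟨S', hS', rfl⟩ := List.mem_map.1 hS
      exact List.Forall₂.cons ⟨by simp, by simp⟩ (hL' S' hS')
    | e =>
      refine ih (pr (false :: ·) (true :: ·) F) ?_
      intro L hL hL'
      refine pr_mem H _ _ F L ?_
      intro L' hL1 hL2
      refine hF _ (by rw [hL1, hL]; rfl) ?_
      intro S hS
      obtain ⟨S', hS', h⟩ := hL2 S hS
      rcases h with rfl | rfl
      · exact List.Forall₂.cons ⟨by simp, by simp⟩ (hL' S' hS')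
      · exact List.Forall₂.cons ⟨by simp, by simp⟩ (hL' S' hS')

theorem ct_congr (κ : List Cell) (F F' : List (List Bool) → M)
    (hF : ∀ L : List (List Bool), L.length = ecount κ + 1 → (∀ S ∈ L, VertexOf S κ) →
      F L = F' L) : ct κ F = ct κ F' := by
  have h := ct_mem (⊥ : AddSubgroup M) κ (fun l => F l - F' l) (fun L hL hL' => by
    rw [AddSubgroup.mem_bot, hF L hL hL', sub_self])
  rw [AddSubgroup.mem_bot, ct_sub] at h
  exact sub_eq_zero.1 h

/-- on a vertex -/
theorem ct_zero (κ : List Cell) (hκ : ecount κ = 0) (F : List (List Bool) → M) :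
    ∃ S, VertexOf S κ ∧ ct κ F = F [S] := by
  induction κ generalizing F with
  | nil => exact ⟨[], List.Forall₂.nil, rfl⟩
  | cons c κ ih =>
    cases c with
    | z =>
      obtain ⟨S, hS, h⟩ := ih hκ (fun l => F (l.map (false :: ·)))
      exact ⟨false :: S, List.Forall₂.cons ⟨by simp, by simp⟩ hS, h⟩
    | o =>
      obtain ⟨S, hS, h⟩ := ih hκ (fun l => F (l.map (true :: ·)))
      exact ⟨true :: S, List.Forall₂.cons ⟨by simp, by simp⟩ hS, h⟩
    | e => exact absurd hκ (Nat.succ_ne_zero _)

theorem map_ct {N : Type*} [AddCommGroup N] (D : M →+ N) (κ : List Cell)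
    (F : List (List Bool) → M) : D (ct κ F) = ct κ fun l => D (F l) := by
  induction κ generalizing F with
  | nil => rfl
  | cons c κ ih =>
    cases c with
    | z => exact ih (fun l => F (l.map (false :: ·)))
    | o => exact ih (fun l => F (l.map (true :: ·)))
    | e =>
      change D (ct κ (pr (false :: ·) (true :: ·) F)) = ct κ (pr (false :: ·) (true :: ·)
        (fun l => D (F l)))
      rw [ih]
      congr 1
      funext l
      exact map_pr D _ _ F l

end Vale.Agent.P093.Hom
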