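import Mathlib
import Vale.Agent.P093.Hom.Cubes
import Vale.Agent.P093.Hom.Transfer

/-!
TASK HOM-G2b: triangulated cubes with labelled vertices (`w S` is the label of the vertex `S`).
-/

namespace Vale.Agent.P093.Hom

variable {V : Type*}

/-- the labelled simplex -/
noncomputable def lsx (w : List Bool → V) (L : List (List Bool)) : OChain V :=
  if L = [] then 0 else Finsupp.single (L.map w) 1

theorem lsx_ne (w : List Bool → V) {L : List (List Bool)} (hL : L ≠ []) :
    lsx w L = Finsupp.single (L.map w) 1 := if_neg hL

theorem simplexBoundary_nil (s : List V) : simplexBoundary s [] = 0 := by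
  unfold simplexBoundary
  split_ifs with h
  · rfl
  · rw [Finsupp.finsetSum_apply]
    refine Finset.sum_eq_zero fun i _ => ?_
    have h1 : s.eraseIdx i ≠ [] := by
      intro h2
      have h4 := congrArg List.length h2
      rw [List.length_eraseIdx] at h4
      simp only [List.length_nil] at h4
      split_ifs at h4 <;> omega
    rw [Finsupp.smul_apply, Finsupp.single_eq_of_ne' h1, smul_zero]

theorem bd_lsx (w : List Bool → V) (L : List (List Bool)) : bd (lsx w L) = dl (lsx w) L := by
  let G : List V → OChain V := fun s => if s = [] then 0 else Finsupp.single s 1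
  have h1 : ∀ L : List (List Bool), lsx w L = G (L.map w) := by
    intro L
    simp only [G, lsx, List.map_eq_nil_iff]
  have h2 : dl (lsx w) L = dl G (L.map w) := by
    rw [← dl_comp w G L]
    congr 1
    funext L
    exact h1 L
  rw [h2, ← extend_boundary G (if_pos rfl)]
  by_cases hL : L = []
  · subst hL
    have h3 : simplexBoundary ([] : List V) = 0 := by
      unfold simplexBoundary
      exact if_pos (Nat.zero_le 1)
    rw [List.map_nil, h3, lsx, if_pos rfl, map_zero]
    simp [extend]
  · rw [lsx_ne w hL, bd_single]
    rw [extend]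
    conv_lhs => rw [← Finsupp.sum_single (simplexBoundary (L.map w))]
    refine Finsupp.sum_congr fun s hs => ?_
    have h3 : s ≠ [] := by
      rintro rfl
      exact (Finsupp.mem_support_iff.mp hs) (simplexBoundary_nil _)
    simp only [G]
    rw [if_neg h3, Finsupp.smul_single, smul_eq_mul, mul_one]

theorem TW_bd' (w : List Bool → V) (κ : List Cell) :
    bd (ct κ fun L => if L = [] then 0 else Finsupp.single (L.map w) 1) =
      cb (fun κ' => ct κ' fun L => if L = [] then 0 else Finsupp.single (L.map w) 1) κ := by
  rw [map_ct, ← ct_dl (fun L => if L = [] then 0 else Finsupp.single (L.map w) 1) (if_pos rfl)]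
  congr 1
  funext L
  exact bd_lsx w L

theorem TW_aug' (w : List Bool → V) (κ : List Cell) (hκ : ecount κ = 0) :
    aug (ct κ fun L => if L = [] then 0 else Finsupp.single (L.map w) 1) = 1 := by
  obtain ⟨S, -, hS⟩ := ct_zero κ hκ
    (fun L => if L = [] then (0 : OChain V) else Finsupp.single (L.map w) 1)
  rw [hS, if_neg (List.cons_ne_nil _ _)]
  simp [aug]

theorem TW_support' (w : List Bool → V) (κ : List Cell) (s : List V)
    (hs : s ∈ (ct κ fun L => if L = [] then (0 : OChain V) else
      Finsupp.single (L.map w) 1).support) :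
    s.length = ecount κ + 1 ∧ ∀ v ∈ s, ∃ S, VertexOf S κ ∧ v = w S := by
  by_contra hcon
  have h1 : (ct κ fun L => if L = [] then (0 : OChain V) else Finsupp.single (L.map w) 1) ∈
      (Finsupp.applyAddHom s : OChain V →+ ℤ).ker := by
    refine ct_mem _ κ _ fun L hL hL' => ?_
    have hne : L ≠ [] := by
      rintro rfl
      simp at hL
    rw [AddMonoidHom.mem_ker, Finsupp.applyAddHom_apply, if_neg hne]
    refine Finsupp.single_eq_of_ne' fun h => hcon ?_
    rw [← h]
    refine ⟨by rw [List.length_map, hL], fun v hv => ?_⟩
    obtain ⟨S, hS, rfl⟩ := List.mem_map.1 hv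
    exact ⟨S, hL' S hS, rfl⟩
  rw [AddMonoidHom.mem_ker, Finsupp.applyAddHom_apply] at h1
  exact (Finsupp.mem_support_iff.1 hs) h1

theorem TW_congr' (w w' : List Bool → V) (κ : List Cell)
    (h : ∀ S, VertexOf S κ → w S = w' S) :
    (ct κ fun L => if L = [] then (0 : OChain V) else Finsupp.single (L.map w) 1) =
      ct κ fun L => if L = [] then (0 : OChain V) else Finsupp.single (L.map w') 1 := by
  refine ct_congr κ _ _ fun L _ hL' => ?_
  have h1 : L.map w = L.map w' := List.map_congr_left fun S hS => h S (hL' S hS)
  rw [h1]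

end Vale.Agent.P093.Hom
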