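import Mathlib
import Vale.Agent.P093.MeanDim

/-!
TASK HOM-H1: colour functions of a finite open cover.

Proof. Let `n = coverDim 𝒰` (the infimum is attained: the set is nonempty since `𝒰` itself is a finite
open refinement of finite order), `𝒱` a finite open refinement of order `≤ n`. Take a partition of unity
`(p_V)_{V ∈ 𝒱}`, `p_V > 0` only inside `V` (for instance `p_V = d(x, Vᶜ) / ∑`, with `d(x, ∅) = 1`).
For `c ≥ 0` and `S ⊆ 𝒱` with `c + 1` elements let
`q_S x = max 0 (min_{V ∈ S} p_V x - max_{V ∉ S} p_V x)` (`max` over the empty set `= 0`). For different `S, S'`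
of the same cardinality `q_S x > 0` and `q_S' x > 0` is impossible. `ψ c = min 1 ((n+1)^2 max_S q_S)`
(`0` if there is no such `S`); `P c x` = a member of `𝒰` containing a `V ∈ S`, for the unique `S` with
`q_S x > 0` (anything if there is none). If `ψ c x > 0` then `p_V x > 0` for all `V ∈ S`, so `x ∈ V`.
For every `x` there is `c ≤ n` with `ψ c x = 1`: sort the values `p_(0) ≥ p_(1) ≥ …`; at most `n+1` are
nonzero, `p_(0) ≥ 1/(n+1)`, so `∑_{c ≤ n} (p_(c) - p_(c+1)) = p_(0) ≥ 1/(n+1)` and one of the differences is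
`≥ 1/(n+1)^2`; take `S` = the `c+1` largest.
Local constancy: on the compact set `{ψ c ≥ ε}` the index `S` is locally constant (the sets
`{q_S > 0}` are open and disjoint, and `{ψ c ≥ ε}` is covered by them); the sets
`{x | ψ c x ≥ ε, q_S x > 0}` are closed, hence compact, and contained in the open set `{q_S > 0}`; so there
is `δ` with: `ε ≤ ψ c x`, `dist x x' < δ` imply `q_S x' > 0` for the same `S`.
-/

open Set

namespace Vale.Agent.P093.Hom

/-- a gap in the values of a partition of unity -/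
private theorem hc_gap {ι : Type*} [Fintype ι] (n : ℕ) (p : ι → ℝ) (h0 : ∀ i, 0 ≤ p i)
    (hs : ∑ i, p i = 1) (hA : ((Finset.univ : Finset ι).filter fun i => 0 < p i).card ≤ n + 1) :
    ∃ S : Finset ι, S.Nonempty ∧ S.card ≤ n + 1 ∧ (∀ i ∈ S, 1 / ((n : ℝ) + 1) ^ 2 ≤ p i) ∧
      ∀ i ∈ S, ∀ j ∉ S, 1 / ((n : ℝ) + 1) ^ 2 ≤ p i - p j := by
  classical
  have hne : (Finset.univ : Finset ι).Nonempty := by
    rw [Finset.univ_nonempty_iff]
    by_contra h
    rw [not_nonempty_iff] at h
    simp at hs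
  obtain ⟨i0, _, hi0⟩ := Finset.exists_max_image Finset.univ p hne
  have hn : (0 : ℝ) < (n : ℝ) + 1 := by positivity
  set A := (Finset.univ : Finset ι).filter fun i => 0 < p i with hAdef
  have hsA : ∑ i ∈ A, p i = 1 := by
    rw [← hs]
    refine Finset.sum_subset (Finset.subset_univ _) fun i _ hi => ?_
    by_contra h
    exact hi (Finset.mem_filter.2 ⟨Finset.mem_univ _, lt_of_le_of_ne (h0 i) (Ne.symm h)⟩)
  have hm : 1 ≤ ((n : ℝ) + 1) * p i0 := by
    have h1 : ∑ i ∈ A, p i ≤ ∑ _i ∈ A, p i0 :=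
      Finset.sum_le_sum fun i _ => hi0 i (Finset.mem_univ _)
    rw [hsA, Finset.sum_const, nsmul_eq_mul] at h1
    have h2 : (A.card : ℝ) ≤ (n : ℝ) + 1 := by exact_mod_cast hA
    exact h1.trans (mul_le_mul_of_nonneg_right h2 (h0 i0))
  set δ : ℝ := p i0 / ((n : ℝ) + 1) with hδ
  have hδm : ((n : ℝ) + 1) * δ = p i0 := by
    rw [hδ]
    field_simp
  have hδ1 : 1 / ((n : ℝ) + 1) ^ 2 ≤ δ := by
    rw [div_le_iff₀ (by positivity)]
    have h3 : δ * ((n : ℝ) + 1) ^ 2 = ((n : ℝ) + 1) * p i0 := by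
      rw [← hδm]
      ring
    rw [h3]
    exact hm
  have hδ0 : 0 < δ := lt_of_lt_of_le (by positivity) hδ1
  have hi0A : i0 ∈ A := by
    refine Finset.mem_filter.2 ⟨Finset.mem_univ _, ?_⟩
    rw [← hδm]
    positivity
  obtain ⟨k, hk, hgap⟩ : ∃ k ≤ n, ∀ i, ¬ ((k : ℝ) * δ < p i ∧ p i < ((k : ℝ) + 1) * δ) := by
    by_contra hcon
    push Not at hcon
    have hιne : Nonempty ι := ⟨i0⟩
    choose! f hf using hcon
    have h1 : (Finset.range (n + 1)).card ≤ (A.erase i0).card := by
      refine Finset.card_le_card_of_injOn f ?_ ?_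
      · intro k hk
        have hk' : k ≤ n := by
          have := Finset.mem_range.1 hk
          omega
        obtain ⟨h2, h3⟩ := hf k hk'
        refine Finset.mem_erase.2 ⟨?_, Finset.mem_filter.2 ⟨Finset.mem_univ _, ?_⟩⟩
        · intro h4
          rw [h4, ← hδm] at h3
          have h5 : ((k : ℝ) + 1) * δ ≤ ((n : ℝ) + 1) * δ := by
            refine mul_le_mul_of_nonneg_right ?_ hδ0.le
            have : (k : ℝ) ≤ n := by exact_mod_cast hk'
            linarith
          linarith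
        · exact lt_of_le_of_lt (by positivity) h2
      · have key : ∀ k l : ℕ, k ≤ n → l ≤ n → k < l → f k ≠ f l := by
          intro k l hk hl hkl h
          obtain ⟨_, h3⟩ := hf k hk
          obtain ⟨h4, _⟩ := hf l hl
          rw [h] at h3
          have h5 : ((k : ℝ) + 1) * δ ≤ (l : ℝ) * δ := by
            refine mul_le_mul_of_nonneg_right ?_ hδ0.le
            exact_mod_cast hkl
          linarith
        intro k hk l hl h
        have hk' : k ≤ n := by
          have := Finset.mem_range.1 hk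
          omega
        have hl' : l ≤ n := by
          have := Finset.mem_range.1 hl
          omega
        rcases lt_trichotomy k l with h6 | h6 | h6
        · exact absurd h (key k l hk' hl' h6)
        · exact h6
        · exact absurd h.symm (key l k hl' hk' h6)
    rw [Finset.card_range, Finset.card_erase_of_mem hi0A] at h1
    have h2 : 0 < A.card := Finset.card_pos.2 ⟨i0, hi0A⟩
    omega
  have hkn : ((k : ℝ) + 1) * δ ≤ p i0 := by
    rw [← hδm]
    refine mul_le_mul_of_nonneg_right ?_ hδ0.le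
    have : (k : ℝ) ≤ n := by exact_mod_cast hk
    linarith
  have hk0 : (0 : ℝ) ≤ (k : ℝ) * δ := by positivity
  refine ⟨Finset.univ.filter fun i => ((k : ℝ) + 1) * δ ≤ p i,
    ⟨i0, Finset.mem_filter.2 ⟨Finset.mem_univ _, hkn⟩⟩, ?_, ?_, ?_⟩
  · refine (Finset.card_le_card fun i hi => ?_).trans hA
    have h1 := (Finset.mem_filter.1 hi).2
    refine Finset.mem_filter.2 ⟨Finset.mem_univ _, ?_⟩
    linarith
  · intro i hi
    have h1 := (Finset.mem_filter.1 hi).2
    linarith
  · intro i hi j hj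
    have h1 := (Finset.mem_filter.1 hi).2
    have h2 : p j < ((k : ℝ) + 1) * δ := by
      by_contra h
      exact hj (Finset.mem_filter.2 ⟨Finset.mem_univ _, not_lt.1 h⟩)
    have h3 : p j ≤ (k : ℝ) * δ := by
      by_contra h
      exact hgap j ⟨not_le.1 h, h2⟩
    linarith

theorem exists_colours {X : Type*} [MetricSpace X] [CompactSpace X] (𝒰 : Set (Set X))
    (h𝒰 : IsFinOpenCover 𝒰) :
    ∃ (ψ : ℕ → C(X, ℝ)) (P : ℕ → X → Set X), (∀ c x, 0 ≤ ψ c x ∧ ψ c x ≤ 1) ∧
      (∀ x, ∃ c ≤ coverDim 𝒰, ψ c x = 1) ∧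
      (∀ c x, 0 < ψ c x → P c x ∈ 𝒰 ∧ x ∈ P c x) ∧
      ∀ c, ∀ ε > 0, ∃ δ > 0, ∀ x x', dist x x' < δ → ε ≤ ψ c x → P c x' = P c x ∧ x' ∈ P c x := by
  classical
  rcases isEmpty_or_nonempty X with hX | hX
  · exact ⟨fun _ => 0, fun _ _ => ∅, fun _ x => isEmptyElim x, fun x => isEmptyElim x,
      fun _ x => isEmptyElim x, fun _ _ _ => ⟨1, one_pos, fun x => isEmptyElim x⟩⟩
  -- a refinement of minimal order
  have hmem : coverDim 𝒰 ∈ {d : ℕ | ∃ 𝒱 : Set (Set X), IsFinOpenCover 𝒱 ∧
      (∀ V ∈ 𝒱, ∃ U ∈ 𝒰, V ⊆ U) ∧ ∀ S ⊆ 𝒱, (⋂₀ S).Nonempty → S.encard ≤ d + 1} := by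
    refine Nat.sInf_mem ⟨𝒰.ncard, 𝒰, h𝒰, fun V hV => ⟨V, hV, Subset.rfl⟩, fun S hS _ => ?_⟩
    refine (Set.encard_le_encard hS).trans ?_
    rw [← h𝒰.1.cast_ncard_eq]
    exact le_self_add
  obtain ⟨𝒱, h𝒱, href, hord⟩ := hmem
  set n := coverDim 𝒰 with hn
  have : Finite 𝒱 := h𝒱.1.to_subtype
  have : Fintype 𝒱 := Fintype.ofFinite 𝒱
  obtain ⟨f, hf⟩ := PartitionOfUnity.exists_isSubordinate_of_locallyFinite (s := (Set.univ : Set X))
    isClosed_univ (fun v : 𝒱 => (v : Set X)) (fun v => h𝒱.2.1 v v.2) (locallyFinite_of_finite _)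
    (by
      intro x _
      have : x ∈ ⋃₀ 𝒱 := by rw [h𝒱.2.2]; trivial
      obtain ⟨v, hv, hxv⟩ := this
      exact Set.mem_iUnion.mpr ⟨⟨v, hv⟩, hxv⟩)
  have hsum : ∀ x, ∑ v, f v x = 1 := by
    intro x
    have := f.sum_eq_one (x := x) (Set.mem_univ x)
    rwa [finsum_eq_sum_of_fintype] at this
  have hf0 : ∀ v x, 0 ≤ f v x := fun v x => f.nonneg v x
  have hfm : ∀ (i : 𝒱) x, 0 < f i x → x ∈ (i : Set X) := by
    intro i x h
    apply hf i
    apply subset_tsupport
    exact h.ne'
  have hcard : ∀ x, ((Finset.univ : Finset 𝒱).filter fun v => 0 < f v x).card ≤ n + 1 := by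
    intro x
    have h1 := hord (Subtype.val '' (((Finset.univ : Finset 𝒱).filter fun v => 0 < f v x) : Set 𝒱))
      (by rintro V ⟨v, _, rfl⟩; exact v.2)
      ⟨x, by
        rintro V ⟨v, hv, rfl⟩
        exact hfm v x (Finset.mem_filter.1 (Finset.mem_coe.1 hv)).2⟩
    rw [Subtype.val_injective.encard_image, Set.encard_coe_eq_coe_finsetCard] at h1
    exact_mod_cast h1
  have huniv : (Finset.univ : Finset 𝒱).Nonempty := by
    rw [Finset.univ_nonempty_iff]
    by_contra h
    rw [not_nonempty_iff] at h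
    have := hsum hX.some
    simp at this
  -- the functions `q_S`
  let mS : Finset 𝒱 → X → ℝ := fun S x => Finset.univ.inf' huniv fun i => if i ∈ S then f i x else 1
  let MS : Finset 𝒱 → X → ℝ := fun S x => Finset.univ.sup' huniv fun i => if i ∈ S then 0 else f i x
  let qS : Finset 𝒱 → X → ℝ := fun S x => max 0 (mS S x - MS S x)
  have hmc : ∀ S, Continuous (mS S) := by
    intro S
    refine Continuous.finset_inf'_apply huniv fun i _ => ?_
    by_cases h : i ∈ S
    · simp only [h, if_true]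
      exact (f i).continuous
    · simp only [h, if_false]
      exact continuous_const
  have hMc : ∀ S, Continuous (MS S) := by
    intro S
    refine Continuous.finset_sup'_apply huniv fun i _ => ?_
    by_cases h : i ∈ S
    · simp only [h, if_true]
      exact continuous_const
    · simp only [h, if_false]
      exact (f i).continuous
  have hqc : ∀ S, Continuous (qS S) := fun S => continuous_const.max ((hmc S).sub (hMc S))
  have hq0 : ∀ S x, 0 ≤ qS S x := fun S x => le_max_left _ _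
  have hm1 : ∀ S x, ∀ i ∈ S, mS S x ≤ f i x := by
    intro S x i hi
    have h := Finset.inf'_le (fun i => if i ∈ S then f i x else 1) (Finset.mem_univ i)
    simp only [hi, if_true] at h
    exact h
  have hM1 : ∀ S x, ∀ i ∉ S, f i x ≤ MS S x := by
    intro S x i hi
    have h := Finset.le_sup' (fun i => if i ∈ S then 0 else f i x) (Finset.mem_univ i)
    simp only [hi, if_false] at h
    exact h
  have hM0 : ∀ S x, 0 ≤ MS S x := by
    intro S x
    obtain ⟨i, _⟩ := huniv
    refine le_trans ?_ (Finset.le_sup' (fun i => if i ∈ S then 0 else f i x) (Finset.mem_univ i))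
    split_ifs
    · exact le_rfl
    · exact hf0 i x
  have hqpos : ∀ S x, 0 < qS S x → MS S x < mS S x := by
    intro S x h
    rcases lt_max_iff.1 h with h1 | h1
    · exact absurd h1 (lt_irrefl _)
    · linarith
  have hqi : ∀ S x, 0 < qS S x → ∀ i ∈ S, 0 < f i x := by
    intro S x h i hi
    have h1 := hqpos S x h
    have h2 := hm1 S x i hi
    have h3 := hM0 S x
    linarith
  -- uniqueness
  have huniq : ∀ S T x, S.card = T.card → 0 < qS S x → 0 < qS T x → S = T := by
    intro S T x hST hS hT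
    by_contra hne
    have h1 : ∃ i ∈ S, i ∉ T := by
      by_contra hcon
      push Not at hcon
      exact hne (Finset.eq_of_subset_of_card_le hcon hST.ge)
    have h2 : ∃ i ∈ T, i ∉ S := by
      by_contra hcon
      push Not at hcon
      exact hne (Finset.eq_of_subset_of_card_le hcon hST.le).symm
    obtain ⟨i, hiS, hiT⟩ := h1
    obtain ⟨j, hjT, hjS⟩ := h2
    have a1 := hqpos S x hS
    have a2 := hqpos T x hT
    have a3 := hm1 S x i hiS
    have a4 := hM1 S x j hjS
    have a5 := hm1 T x j hjT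
    have a6 := hM1 T x i hiT
    linarith
  -- lower bound for `q_S`
  have hqlow : ∀ S x (r : ℝ), r ≤ 1 → (∀ i ∈ S, r ≤ f i x) →
      (∀ i ∈ S, ∀ j ∉ S, r ≤ f i x - f j x) → S.Nonempty → r ≤ qS S x := by
    intro S x r hr1 h1 h2 hS
    refine le_trans ?_ (le_max_right _ _)
    obtain ⟨i, _, hi⟩ := Finset.exists_mem_eq_inf' huniv fun i => if i ∈ S then f i x else 1
    obtain ⟨j, _, hj⟩ := Finset.exists_mem_eq_sup' huniv fun i => if i ∈ S then 0 else f i x
    change r ≤ (Finset.univ.inf' huniv fun i => if i ∈ S then f i x else 1) -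
      Finset.univ.sup' huniv fun i => if i ∈ S then 0 else f i x
    obtain ⟨s, hs⟩ := hS
    have hmle := hm1 S x s hs
    change (Finset.univ.inf' huniv fun i => if i ∈ S then f i x else 1) ≤ f s x at hmle
    rw [hj]
    by_cases hjS : j ∈ S
    · rw [hi]
      simp only [hjS, if_true, sub_zero]
      split_ifs with hiS
      · exact h1 i hiS
      · exact hr1
    · simp only [hjS, if_false]
      rw [hi] at hmle ⊢
      by_cases hiS : i ∈ S
      · simp only [hiS, if_true]
        exact h2 i hiS j hjS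
      · simp only [hiS, if_false] at hmle ⊢
        have h3 := h2 s hs j hjS
        have h4 : f s x ≤ 1 := by
          rw [← hsum x]
          exact Finset.single_le_sum (f := fun v => f v x) (fun v _ => hf0 v x) (Finset.mem_univ s)
        linarith
  set K : ℝ := ((n : ℝ) + 1) ^ 2 with hK
  have hK0 : 0 < K := by positivity
  -- a member of the cover for every `S`
  have hUf : ∀ S : Finset 𝒱, ∃ U : Set X, S.Nonempty → U ∈ 𝒰 ∧ ∃ i ∈ S, (i : Set X) ⊆ U := by
    intro S
    by_cases hS : S.Nonempty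
    · obtain ⟨i, hi⟩ := hS
      obtain ⟨U, hU, hiU⟩ := href i i.2
      exact ⟨U, fun _ => ⟨hU, i, hi, hiU⟩⟩
    · exact ⟨∅, fun h => absurd h hS⟩
  choose Uf hUf using hUf
  let Q : ℕ → X → ℝ := fun c x => ∑ S ∈ Finset.powersetCard (c + 1) (Finset.univ : Finset 𝒱), qS S x
  have hQc : ∀ c, Continuous (Q c) := fun c => continuous_finsetSum _ fun S _ => hqc S
  have hQ0 : ∀ c x, 0 ≤ Q c x := fun c x => Finset.sum_nonneg fun S _ => hq0 S x
  let P : ℕ → X → Set X := fun c x =>
    if h : ∃ S : Finset 𝒱, S.card = c + 1 ∧ 0 < qS S x then Uf h.choose else ∅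
  have hP : ∀ c x (S : Finset 𝒱), S.card = c + 1 → 0 < qS S x → P c x = Uf S := by
    intro c x S hS hq
    have h : ∃ S : Finset 𝒱, S.card = c + 1 ∧ 0 < qS S x := ⟨S, hS, hq⟩
    have h1 := h.choose_spec
    have h2 : h.choose = S := huniq _ _ x (by rw [h1.1, hS]) h1.2 hq
    change (if h : ∃ S : Finset 𝒱, S.card = c + 1 ∧ 0 < qS S x then Uf h.choose else ∅) = Uf S
    rw [dif_pos h, h2]
  have hPx : ∀ x (S : Finset 𝒱), S.Nonempty → 0 < qS S x → Uf S ∈ 𝒰 ∧ x ∈ Uf S := by
    intro x S hS hq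
    obtain ⟨h1, i, hi, h2⟩ := hUf S hS
    exact ⟨h1, h2 (hfm i x (hqi S x hq i hi))⟩
  have hne : ∀ (c : ℕ) (S : Finset 𝒱), S.card = c + 1 → S.Nonempty := by
    intro c S hS
    rw [← Finset.card_pos, hS]
    omega
  -- `Q c x` is the value of one `q_S`
  have hQS : ∀ c x, 0 < Q c x → ∃ S : Finset 𝒱, S.card = c + 1 ∧ qS S x = Q c x := by
    intro c x h
    obtain ⟨S, hS, hS2⟩ : ∃ S ∈ Finset.powersetCard (c + 1) (Finset.univ : Finset 𝒱),
        0 < qS S x := by
      by_contra hcon
      push Not at hcon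
      have : Q c x ≤ 0 := Finset.sum_nonpos hcon
      linarith
    have hSc := (Finset.mem_powersetCard.1 hS).2
    refine ⟨S, hSc, ?_⟩
    symm
    refine Finset.sum_eq_single S (fun T hT hTS => ?_) fun h => absurd hS h
    have hTc := (Finset.mem_powersetCard.1 hT).2
    by_contra h3
    exact hTS (huniq T S x (by rw [hTc, hSc]) (lt_of_le_of_ne (hq0 T x) (Ne.symm h3)) hS2)
  refine ⟨fun c => ⟨fun x => min 1 (K * Q c x),
    continuous_const.min (continuous_const.mul (hQc c))⟩, P, ?_, ?_, ?_, ?_⟩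
  · intro c x
    exact ⟨le_min zero_le_one (mul_nonneg hK0.le (hQ0 c x)), min_le_left _ _⟩
  · intro x
    obtain ⟨S, hS, hSc, h1, h2⟩ := hc_gap n (fun v => f v x) (fun v => hf0 v x) (hsum x) (hcard x)
    have hS0 : 0 < S.card := Finset.card_pos.2 hS
    refine ⟨S.card - 1, by omega, ?_⟩
    change min 1 (K * Q (S.card - 1) x) = 1
    refine min_eq_left ?_
    have hr : 1 / ((n : ℝ) + 1) ^ 2 ≤ 1 := by
      rw [div_le_one (by positivity)]
      have : (1 : ℝ) ≤ (n : ℝ) + 1 := by
        have : (0 : ℝ) ≤ n := by positivity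
        linarith
      exact one_le_pow₀ this
    have h3 := hqlow S x _ hr h1 h2 hS
    have h4 : qS S x ≤ Q (S.card - 1) x := by
      refine Finset.single_le_sum (f := fun S => qS S x) (fun T _ => hq0 T x) ?_
      rw [Finset.mem_powersetCard]
      exact ⟨Finset.subset_univ _, by omega⟩
    have h5 : 1 / K ≤ Q (S.card - 1) x := h3.trans h4
    rw [div_le_iff₀ hK0] at h5
    linarith
  · intro c x h
    have h1 : 0 < K * Q c x := lt_of_lt_of_le h (min_le_right _ _)
    have h2 : 0 < Q c x := (mul_pos_iff_of_pos_left hK0).1 h1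
    obtain ⟨S, hS, hSq⟩ := hQS c x h2
    rw [← hSq] at h2
    rw [hP c x S hS h2]
    exact hPx x S (hne c S hS) h2
  · intro c ε hε
    let Φ : X → (Finset 𝒱 → ℝ) := fun x S => qS S x
    have hΦ : UniformContinuous Φ :=
      CompactSpace.uniformContinuous_of_continuous (continuous_pi fun S => hqc S)
    obtain ⟨δ, hδ, h⟩ := Metric.uniformContinuous_iff.1 hΦ (ε / K) (by positivity)
    refine ⟨δ, hδ, fun x x' hxx' hψ => ?_⟩
    have h1 : ε ≤ K * Q c x := le_trans hψ (min_le_right _ _)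
    have h2 : ε / K ≤ Q c x := by
      rw [div_le_iff₀ hK0]
      linarith
    have h3 : 0 < Q c x := lt_of_lt_of_le (by positivity) h2
    obtain ⟨S, hS, hSq⟩ := hQS c x h3
    have h4 : dist (qS S x) (qS S x') < ε / K :=
      lt_of_le_of_lt (dist_le_pi_dist (Φ x) (Φ x') S) (h hxx')
    rw [Real.dist_eq] at h4
    have h5 := (abs_lt.1 h4).2
    have h6 : 0 < qS S x' := by
      rw [← hSq] at h2
      linarith
    have h7 : 0 < qS S x := by rw [hSq]; exact h3
    rw [hP c x S hS h7, hP c x' S hS h6]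
    exact ⟨rfl, (hPx x' S (hne c S hS) h6).2⟩

end Vale.Agent.P093.Hom
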