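import Mathlib
import Vale.Agent.P093.Hom.BlocksDef

/-!
TASK HOM-A1: the product of block chain maps is a chain map.

Proof. Everything is a formal identity, for all lists `l`; use the calculus in `Hom/Cochain.lean`
(`dl_cup'`, `cup_assoc` etc.).
* `dl (cz v) = - ce v`, `dl (co v) = ce v`, `dl (ce v) = 0`, `sg (cz v) = cz v`,
  `sg (co v) = co v`, `sg (ce v) = - ce v`; all vanish at `[]`. Also `cp vs S [] = 0` when
  `S κ [] = 0` for all `κ`.
* `cp_dl`: if `S κ [] = 0` for all `κ` then for all `l`
  `dl (cp vs S) l = cp vs (fun κ l' => cb (fun κ' => S κ' l') κ) l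
     + cp vs (fun κ l' => (-1) ^ ecount κ • dl (S κ) l') l`,
  by induction on `vs`, with the Leibniz rule (`cp` is additive in `S`; with `κ` ranging over lists
  of length `vs.length`, note that `cp vs S` only uses `S κ` with `κ.length = vs.length`).
* the same for `bp B S` instead of `cp B.vs S`: the two correction terms. Put `g = B.vs.length`;
  `h` has degree `g - 1`, so `sg h = (-1)^(g-1) h`, `sg (dl h) = (-1)^g dl h`, `dl (dl h) = 0`,
  `cb (cb T) = 0` and `cb (fun κ => (-1) ^ ecount κ • U κ) (top g) = (-1)^(g-1) cb U (top g)`: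
  `dl [h ∪ (cb S)(top) + dl h ∪ S(top)]
    = dl h ∪ (cb S)(top) + (-1)^(g-1) h ∪ dl((cb S)(top)) + (-1)^g dl h ∪ dl (S(top))`.
* `cb_append`: `cb T (κ ++ κ') = cb (fun κ'' => T (κ'' ++ κ')) κ
    + (-1) ^ ecount κ • cb (fun κ'' => T (κ ++ κ'')) κ'`.
* induction on the list of blocks.
-/

namespace Vale.Agent.P093.Hom

variable {Y : Type*} {M : Type*} [AddCommGroup M]

/-! ### the coordinate cochains -/

theorem dl_cz (v : Y → ℤ) (l : List Y) : dl (cz v) l = - ce v l := by
  rcases l with _ | ⟨y, _ | ⟨y', _ | ⟨y'', l⟩⟩⟩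
  · simp [ce]
  · simp [dl_cons, cz, ce]
  · simp [dl_cons, cz, ce]
  · have h : (fun l' => cz v (y :: y' :: l')) = fun _ => (0 : ℤ) := by
      funext l'; simp [cz]
    simp only [dl_cons, h, dl_zero]
    simp [cz, ce]

theorem dl_co (v : Y → ℤ) (l : List Y) : dl (co v) l = ce v l := by
  rcases l with _ | ⟨y, _ | ⟨y', _ | ⟨y'', l⟩⟩⟩
  · simp [ce]
  · simp [dl_cons, co, ce]
  · simp [dl_cons, co, ce]
  · have h : (fun l' => co v (y :: y' :: l')) = fun _ => (0 : ℤ) := by
      funext l'; simp [co]
    simp only [dl_cons, h, dl_zero]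
    simp [co, ce]

theorem dl_ce (v : Y → ℤ) (l : List Y) : dl (ce v) l = 0 := by
  have h : ce v = dl (co v) := by funext l; rw [dl_co]
  rw [h, dl_dl]

theorem sg_cz (v : Y → ℤ) : sg (cz v) = cz v := by
  funext l
  rcases l with _ | ⟨y, _ | ⟨y', l⟩⟩ <;> simp [sg, cz]

theorem sg_co (v : Y → ℤ) : sg (co v) = co v := by
  funext l
  rcases l with _ | ⟨y, _ | ⟨y', l⟩⟩ <;> simp [sg, co]

theorem sg_ce (v : Y → ℤ) : sg (ce v) = fun l => - ce v l := by
  funext l
  rcases l with _ | ⟨y, _ | ⟨y', _ | ⟨y'', l⟩⟩⟩ <;> simp [sg, ce]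

/-! ### the cubical boundary -/

theorem cb_add (T U : List Cell → M) (κ : List Cell) :
    cb (fun κ' => T κ' + U κ') κ = cb T κ + cb U κ := by
  induction κ generalizing T U with
  | nil => simp [cb]
  | cons c κ ih =>
    cases c
    · simp only [cb]; rw [ih]
    · simp only [cb]; rw [ih]
    · simp only [cb]; rw [ih]; abel

theorem cb_neg (T : List Cell → M) (κ : List Cell) :
    cb (fun κ' => - T κ') κ = - cb T κ := by
  induction κ generalizing T with
  | nil => simp [cb]
  | cons c κ ih =>
    cases c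
    · simp only [cb]; rw [ih]
    · simp only [cb]; rw [ih]
    · simp only [cb]; rw [ih]; abel

theorem cb_sub (T U : List Cell → M) (κ : List Cell) :
    cb (fun κ' => T κ' - U κ') κ = cb T κ - cb U κ := by
  simp only [sub_eq_add_neg]
  rw [cb_add, cb_neg]

theorem map_cb {N : Type*} [AddCommGroup N] (D : M →+ N) (T : List Cell → M) (κ : List Cell) :
    D (cb T κ) = cb (fun κ' => D (T κ')) κ := by
  induction κ generalizing T with
  | nil => simp [cb]
  | cons c κ ih =>
    cases c
    · simp only [cb]; rw [ih]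
    · simp only [cb]; rw [ih]
    · simp only [cb]; rw [map_sub, map_sub, ih]

theorem cb_cb (T : List Cell → M) (κ : List Cell) : cb (cb T) κ = 0 := by
  induction κ generalizing T with
  | nil => simp [cb]
  | cons c κ ih =>
    cases c
    · simp only [cb]; exact ih _
    · simp only [cb]; exact ih _
    · simp only [cb]
      rw [cb_sub, cb_sub]
      have h1 : cb (fun κ' => cb (fun κ'' => T (Cell.e :: κ'')) κ') κ = 0 := ih _
      rw [h1]
      abel

theorem cb_append (T : List Cell → M) (κ κ' : List Cell) :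
    cb T (κ ++ κ') = cb (fun κ'' => T (κ'' ++ κ')) κ +
      (-1 : ℤ) ^ ecount κ • cb (fun κ'' => T (κ ++ κ'')) κ' := by
  induction κ generalizing T with
  | nil => simp [cb, ecount]
  | cons c κ ih =>
    cases c
    · simp only [List.cons_append, cb, ecount]; rw [ih]
    · simp only [List.cons_append, cb, ecount]; rw [ih]
    · simp only [List.cons_append, cb, ecount]; rw [ih, pow_succ]
      simp only [mul_neg, mul_one, neg_smul]
      abel

theorem cb_sign (U : List Cell → M) (κ : List Cell) :
    cb (fun κ' => (-1 : ℤ) ^ ecount κ' • U κ') κ = - ((-1 : ℤ) ^ ecount κ • cb U κ) := by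
  induction κ generalizing U with
  | nil => simp [cb]
  | cons c κ ih =>
    cases c
    · simp only [cb, ecount]; rw [ih]
    · simp only [cb, ecount]; rw [ih]
    · simp only [cb, ecount, pow_succ, mul_neg, mul_one, neg_smul]
      rw [cb_neg, ih]
      simp only [smul_sub]
      abel

theorem cb_dl (S : List Cell → List Y → M) (κ : List Cell) (l : List Y) :
    cb (fun κ' => dl (S κ') l) κ = dl (fun l' => cb (fun κ' => S κ' l') κ) l := by
  induction κ generalizing S with
  | nil => simp only [cb]; rw [dl_zero]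
  | cons c κ ih =>
    cases c
    · simp only [cb]; rw [ih (fun κ' => S (.z :: κ'))]
    · simp only [cb]; rw [ih (fun κ' => S (.o :: κ'))]
    · simp only [cb]; rw [ih (fun κ' => S (.e :: κ')), dl_sub, dl_sub]

theorem ecount_top (g : ℕ) : ecount (top g) = g := by
  induction g with
  | zero => rfl
  | succ g ih =>
    change ecount (top g) + 1 = g + 1
    rw [ih]

/-! ### products of coordinates -/

theorem cp_add (vs : List (Y → ℤ)) (S S' : List Cell → List Y → M) (l : List Y) :
    cp vs (fun κ l => S κ l + S' κ l) l = cp vs S l + cp vs S' l := by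
  induction vs generalizing S S' l with
  | nil => rfl
  | cons v vs ih =>
    have h : ∀ c : Cell, cp vs (fun κ l => S (c :: κ) l + S' (c :: κ) l) =
        fun l => cp vs (fun κ => S (c :: κ)) l + cp vs (fun κ => S' (c :: κ)) l := by
      intro c; funext l; exact ih _ _ l
    simp only [cp]
    rw [h, h, h, cup_add_right, cup_add_right, cup_add_right]
    abel

theorem cp_neg (vs : List (Y → ℤ)) (S : List Cell → List Y → M) (l : List Y) :
    cp vs (fun κ l => - S κ l) l = - cp vs S l := by
  induction vs generalizing S l with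
  | nil => rfl
  | cons v vs ih =>
    have h : ∀ c : Cell, cp vs (fun κ l => - S (c :: κ) l) =
        fun l => - cp vs (fun κ => S (c :: κ)) l := by
      intro c; funext l; exact ih _ l
    simp only [cp]
    rw [h, h, h, cup_neg_right, cup_neg_right, cup_neg_right]
    abel

theorem cp_sub (vs : List (Y → ℤ)) (S S' : List Cell → List Y → M) (l : List Y) :
    cp vs (fun κ l => S κ l - S' κ l) l = cp vs S l - cp vs S' l := by
  simp only [sub_eq_add_neg]
  rw [cp_add, cp_neg]

theorem map_cp {N : Type*} [AddCommGroup N] (D : M →+ N) (vs : List (Y → ℤ))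
    (S : List Cell → List Y → M) (l : List Y) :
    D (cp vs S l) = cp vs (fun κ l => D (S κ l)) l := by
  induction vs generalizing S l with
  | nil => rfl
  | cons v vs ih =>
    have h : ∀ c : Cell, (fun l => D (cp vs (fun κ => S (c :: κ)) l)) =
        cp vs (fun κ l => D (S (c :: κ) l)) := by
      intro c; funext l; exact ih _ l
    simp only [cp]
    rw [map_add, map_add, map_cup, map_cup, map_cup, h, h, h]

theorem cp_nil' (vs : List (Y → ℤ)) (S : List Cell → List Y → M) (hS : ∀ κ, S κ [] = 0) :
    cp vs S [] = 0 := by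
  cases vs with
  | nil => exact hS []
  | cons v vs => simp [cp]

theorem cp_dl (vs : List (Y → ℤ)) (S : List Cell → List Y → M) (hS : ∀ κ, S κ [] = 0)
    (l : List Y) :
    dl (cp vs S) l = cp vs (fun κ l' => cb (fun κ' => S κ' l') κ) l +
      cp vs (fun κ l' => (-1 : ℤ) ^ ecount κ • dl (S κ) l') l := by
  induction vs generalizing S l with
  | nil =>
    change dl (S []) l = cb (fun κ' => S κ' l) [] + (-1 : ℤ) ^ ecount [] • dl (S []) l
    simp [cb, ecount]
  | cons v vs ih =>
    have hc : ∀ c : Cell, cp vs (fun κ => S (c :: κ)) [] = 0 := fun c =>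
      cp_nil' vs _ fun κ => hS _
    have h1 : cp (v :: vs) S = fun l => cup (cz v) (cp vs fun κ => S (.z :: κ)) l +
      cup (co v) (cp vs fun κ => S (.o :: κ)) l + cup (ce v) (cp vs fun κ => S (.e :: κ)) l := rfl
    rw [h1, dl_add, dl_add]
    have e1 : dl (cup (cz v) (cp vs fun κ => S (.z :: κ))) l =
        - cup (ce v) (cp vs fun κ => S (.z :: κ)) l +
          cup (cz v) (dl (cp vs fun κ => S (.z :: κ))) l := by
      rw [dl_cup' _ _ (by simp [cz]) (hc _), sg_cz, ← cup_neg_left]
      congr 2
      funext l; exact dl_cz v l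
    have e2 : dl (cup (co v) (cp vs fun κ => S (.o :: κ))) l =
        cup (ce v) (cp vs fun κ => S (.o :: κ)) l +
          cup (co v) (dl (cp vs fun κ => S (.o :: κ))) l := by
      rw [dl_cup' _ _ (by simp [co]) (hc _), sg_co]
      congr 2
      funext l; exact dl_co v l
    have e3 : dl (cup (ce v) (cp vs fun κ => S (.e :: κ))) l =
        - cup (ce v) (dl (cp vs fun κ => S (.e :: κ))) l := by
      rw [dl_cup' _ _ (by simp [ce]) (hc _), sg_ce, cup_neg_left]
      have : dl (ce v) = fun _ => 0 := by funext l; exact dl_ce v l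
      rw [this, cup_zero_left, zero_add]
    rw [e1, e2, e3]
    have i : ∀ c : Cell, dl (cp vs fun κ => S (c :: κ)) = fun l =>
        cp vs (fun κ l' => cb (fun κ' => S (c :: κ') l') κ) l +
          cp vs (fun κ l' => (-1 : ℤ) ^ ecount κ • dl (S (c :: κ)) l') l := by
      intro c; funext l; exact ih _ (fun κ => hS _) l
    rw [i, i, i, cup_add_right, cup_add_right, cup_add_right]
    have j1 : cp (v :: vs) (fun κ l' => cb (fun κ' => S κ' l') κ) l =
        cup (cz v) (cp vs fun κ l' => cb (fun κ' => S (.z :: κ') l') κ) l +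
        cup (co v) (cp vs fun κ l' => cb (fun κ' => S (.o :: κ') l') κ) l +
        (cup (ce v) (cp vs fun κ => S (.o :: κ)) l - cup (ce v) (cp vs fun κ => S (.z :: κ)) l -
          cup (ce v) (cp vs fun κ l' => cb (fun κ' => S (.e :: κ') l') κ) l) := by
      simp only [cp, cb]
      rw [← cup_sub_right, ← cup_sub_right]
      congr 2
      funext l'
      rw [cp_sub, cp_sub]
    have j2 : cp (v :: vs) (fun κ l' => (-1 : ℤ) ^ ecount κ • dl (S κ) l') l =
        cup (cz v) (cp vs fun κ l' => (-1 : ℤ) ^ ecount κ • dl (S (.z :: κ)) l') l +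
        cup (co v) (cp vs fun κ l' => (-1 : ℤ) ^ ecount κ • dl (S (.o :: κ)) l') l +
        - cup (ce v) (cp vs fun κ l' => (-1 : ℤ) ^ ecount κ • dl (S (.e :: κ)) l') l := by
      simp only [cp, ecount]
      rw [← cup_neg_right]
      congr 2
      funext l'
      rw [← cp_neg]
      congr 1
      funext κ l''
      rw [pow_succ]; simp
    rw [j1, j2]
    abel

/-! ### blocks -/

theorem support_dl (g : ℕ) (F : List Y → ℤ) (hF : ∀ l, F l ≠ 0 → l.length = g) (l : List Y)
    (hl : dl F l ≠ 0) : l.length = g + 1 := by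
  induction l generalizing F g with
  | nil => simp at hl
  | cons y l ih =>
    by_cases h : F l = 0
    · rw [dl_cons, h] at hl
      have h' : dl (fun l' => F (y :: l')) l ≠ 0 := fun h0 => hl (by rw [h0]; simp)
      cases g with
      | zero =>
        exfalso
        apply h'
        have : (fun l' => F (y :: l')) = fun _ => 0 := by
          funext l'
          by_contra hne
          have := hF _ hne
          simp at this
        rw [this, dl_zero]
      | succ g =>
        have := ih g (fun l' => F (y :: l')) (fun l' hl' => by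
          have := hF _ hl'
          simpa using this) h'
        simp [this]
    · simp [hF l h]

theorem sg_of_support (g : ℕ) (F : List Y → ℤ) (hF : ∀ l, F l ≠ 0 → l.length = g) :
    sg F = fun l => (-1 : ℤ) ^ (g + 1) * F l := by
  funext l
  by_cases h : F l = 0
  · simp [sg, h]
  · simp [sg, hF l h]

theorem bp_nil' (B : Blk Y) (S : List Cell → List Y → M) (hS : ∀ κ, S κ [] = 0) :
    bp B S [] = 0 := by
  simp [bp, cp_nil' _ _ hS]

theorem bp_add (B : Blk Y) (S S' : List Cell → List Y → M) (l : List Y) :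
    bp B (fun κ l => S κ l + S' κ l) l = bp B S l + bp B S' l := by
  simp only [bp]
  rw [cp_add, cup_add_right]
  have : (fun l' => cb (fun κ => S κ l' + S' κ l') (top B.vs.length)) = fun l' =>
      cb (fun κ => S κ l') (top B.vs.length) + cb (fun κ => S' κ l') (top B.vs.length) := by
    funext l'; rw [cb_add]
  rw [this, cup_add_right]
  abel

theorem map_bp {N : Type*} [AddCommGroup N] (D : M →+ N) (B : Blk Y)
    (S : List Cell → List Y → M) (l : List Y) :
    D (bp B S l) = bp B (fun κ l => D (S κ l)) l := by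
  simp only [bp]
  rw [map_sub, map_sub, map_cp, map_cup, map_cup]
  congr 3
  funext l'
  rw [map_cb]

theorem bp_dl (B : Blk Y) (hB : B.Good) (S : List Cell → List Y → M) (hS : ∀ κ, S κ [] = 0)
    (l : List Y) :
    dl (bp B S) l = bp B (fun κ l' => cb (fun κ' => S κ' l') κ) l +
      bp B (fun κ l' => (-1 : ℤ) ^ ecount κ • dl (S κ) l') l := by
  set g := B.vs.length with hg
  have hh0 : B.h [] = 0 := by
    by_contra h
    have := (hB [] h).2
    simp at this
  have hsup : ∀ l, B.h l ≠ 0 → l.length = g := fun l hl => (hB l hl).1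
  have h1 : bp B S = fun l => cp B.vs S l - cup B.h (fun l' => cb (fun κ => S κ l') (top g)) l -
    cup (dl B.h) (S (top g)) l := rfl
  have hC0 : (fun l' => cb (fun κ => S κ l') (top g)) [] = 0 := by
    have : (fun κ => S κ []) = fun _ => (0 : M) := by funext κ; exact hS κ
    change cb (fun κ => S κ []) (top g) = 0
    rw [this]
    have := map_cb (0 : M →+ M) (fun _ => (0 : M)) (top g)
    simpa using this.symm
  rw [h1, dl_sub, dl_sub, cp_dl _ _ hS, dl_cup' _ _ hh0 hC0, dl_cup' _ _ (dl_nil _) (hS _),
    sg_of_support g _ hsup, sg_of_support (g + 1) (dl B.h) (support_dl g _ hsup),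
    cup_zsmul_left, cup_zsmul_left]
  have hdd : dl (dl B.h) = fun _ => 0 := by funext l; exact dl_dl _ l
  rw [hdd, cup_zero_left]
  simp only [bp]
  rw [← hg]
  have k1 : cup B.h (fun l' => cb (fun κ => cb (fun κ' => S κ' l') κ) (top g)) l = 0 := by
    have : (fun l' => cb (fun κ => cb (fun κ' => S κ' l') κ) (top g)) = fun _ => (0 : M) := by
      funext l'; exact cb_cb _ _
    rw [this, cup_zero_right]
  have k2 : cup B.h (fun l' => cb (fun κ => (-1 : ℤ) ^ ecount κ • dl (S κ) l') (top g)) l =
      - ((-1 : ℤ) ^ g • cup B.h (dl fun l' => cb (fun κ => S κ l') (top g)) l) := by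
    rw [← cup_zsmul_right, ← cup_neg_right]
    congr 1
    funext l'
    rw [cb_sign, cb_dl, ecount_top]
  have k3 : cup (dl B.h) (fun l' => (-1 : ℤ) ^ ecount (top g) • dl (S (top g)) l') l =
      (-1 : ℤ) ^ g • cup (dl B.h) (dl (S (top g))) l := by
    rw [ecount_top, ← cup_zsmul_right]
  rw [k1, k2, k3]
  simp only [pow_succ, mul_neg, mul_one, neg_smul, neg_neg]
  abel

theorem unit_map {N : Type*} [AddCommGroup N] (D : M →+ N) (m : M) (l : List Y) :
    D (unit m l) = unit (D m) l := by
  rcases l with _ | ⟨y, _ | ⟨y', l⟩⟩ <;> simp [unit]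

theorem dl_unit (m : M) (l : List Y) : dl (unit m) l = 0 := by
  rcases l with _ | ⟨y, _ | ⟨y', _ | ⟨y'', l⟩⟩⟩
  · simp
  · simp [dl_cons, unit]
  · simp [dl_cons, unit]
  · have h : (fun l' => unit m (y :: y' :: l')) = fun _ => (0 : M) := by
      funext l'; simp [unit]
    simp only [dl_cons, h, dl_zero]
    simp [unit]

theorem blkProd_nil' (Bs : List (Blk Y)) (T : List Cell → M) : blkProd Bs T [] = 0 := by
  induction Bs generalizing T with
  | nil => rfl
  | cons B Bs ih => exact bp_nil' _ _ fun κ => ih _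

/-- linearity in `T` -/
theorem map_blkProd_aux {N : Type*} [AddCommGroup N] (D : M →+ N) (Bs : List (Blk Y))
    (T : List Cell → M) (l : List Y) :
    D (blkProd Bs T l) = blkProd Bs (fun κ => D (T κ)) l := by
  induction Bs generalizing T l with
  | nil => exact unit_map D _ _
  | cons B Bs ih =>
    have h : (fun κ l => D (blkProd Bs (fun κ' => T (κ ++ κ')) l)) =
        fun κ => blkProd Bs fun κ' => D (T (κ ++ κ')) := by
      funext κ l; exact ih _ l
    simp only [blkProd]
    rw [map_bp, h]

theorem blkProd_add (Bs : List (Blk Y)) (T U : List Cell → M) (l : List Y) :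
    blkProd Bs (fun κ => T κ + U κ) l = blkProd Bs T l + blkProd Bs U l := by
  have h1 := map_blkProd_aux (AddMonoidHom.fst M M) Bs (fun κ => (T κ, U κ)) l
  have h2 := map_blkProd_aux (AddMonoidHom.snd M M) Bs (fun κ => (T κ, U κ)) l
  have h3 := map_blkProd_aux (AddMonoidHom.fst M M + AddMonoidHom.snd M M) Bs
    (fun κ => (T κ, U κ)) l
  simp only [AddMonoidHom.coe_fst, AddMonoidHom.coe_snd, AddMonoidHom.add_apply] at h1 h2 h3
  rw [← h3, h1, h2]

theorem cb_blkProd (Bs : List (Blk Y)) (U : List Cell → List Cell → M) (κ : List Cell)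
    (l : List Y) :
    cb (fun κ'' => blkProd Bs (U κ'') l) κ =
      blkProd Bs (fun κ' => cb (fun κ'' => U κ'' κ') κ) l := by
  let D : (List Cell → M) →+ M :=
    { toFun := fun F => cb F κ
      map_zero' := by
        have := map_cb (0 : M →+ M) (fun _ => (0 : M)) κ
        change cb (fun _ => (0 : M)) κ = 0
        simpa using this.symm
      map_add' := fun F G => cb_add F G κ }
  have h1 := map_blkProd_aux D Bs (fun κ' κ'' => U κ'' κ') l
  have h2 : blkProd Bs (fun κ' κ'' => U κ'' κ') l = fun κ'' => blkProd Bs (U κ'') l := by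
    funext κ''
    exact map_blkProd_aux (Pi.evalAddMonoidHom (fun _ : List Cell => M) κ'') Bs
      (fun κ' κ'' => U κ'' κ') l
  rw [h2] at h1
  exact h1

theorem dl_blkProd (Bs : List (Blk Y)) (hB : ∀ B ∈ Bs, B.Good) (T : List Cell → M) (l : List Y) :
    dl (blkProd Bs T) l = blkProd Bs (cb T) l := by
  induction Bs generalizing T l with
  | nil =>
    change dl (unit (T [])) l = unit (cb T []) l
    rw [dl_unit]
    rcases l with _ | ⟨y, _ | ⟨y', l⟩⟩ <;> simp [unit, cb]
  | cons B Bs ih =>
    change dl (bp B fun κ => blkProd Bs fun κ' => T (κ ++ κ')) l =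
      bp B (fun κ => blkProd Bs fun κ' => cb T (κ ++ κ')) l
    rw [bp_dl B (hB B (by simp)) _ (fun κ => blkProd_nil' _ _), ← bp_add]
    congr 1
    funext κ l'
    rw [ih (fun B' hB' => hB B' (by simp [hB'])) (fun κ' => T (κ ++ κ')) l',
      cb_blkProd Bs (fun κ'' κ' => T (κ'' ++ κ')) κ l']
    have h1 := map_blkProd_aux (zsmulAddGroupHom ((-1 : ℤ) ^ ecount κ) : M →+ M) Bs
      (cb fun κ' => T (κ ++ κ')) l'
    simp only [zsmulAddGroupHom_apply] at h1
    rw [h1, ← blkProd_add]
    congr 1
    funext κ'
    rw [cb_append]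

/-- linearity in `T` -/
theorem map_blkProd {N : Type*} [AddCommGroup N] (D : M →+ N) (Bs : List (Blk Y))
    (T : List Cell → M) (l : List Y) :
    D (blkProd Bs T l) = blkProd Bs (fun κ => D (T κ)) l :=
  map_blkProd_aux D Bs T l

end Vale.Agent.P093.Hom
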