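import Mathlib
import Vale.Agent.P093.Hom.BlocksDef

/-!
TASK HOM-A2: the support of the product of block chain maps.

Proof. Expand `cp vs S l = ∑_{κ, κ.length = vs.length} cup (φ vs κ) (S κ) l` where `φ vs κ` is the
iterated cup product of the one-coordinate cochains `cz v`, `co v`, `ce v` (with `unit 1` at the
end). `φ vs κ` is homogeneous of degree `ecount κ` (nonzero only on lists of length
`ecount κ + 1`), and is nonzero on a list `l'` only if `Compat vs l' κ`. The coefficient of
`S (top g)` in `bp B S` is `tau B.vs - dl B.h`, the coefficient of the codimension one faces of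
the top cube is changed by `± B.h`. A term `cup f G l` is a sum of `f (l.take (k+1)) • G (l.drop k)`
(`l.take (k+1)` is a sublist of `l`, `l.drop k` is a suffix); if `f` is homogeneous of degree `m`
only `k = m` contributes. `Compat` and `Allowed` are monotone in `l` (for sublists).
-/

namespace Vale.Agent.P093.Hom

variable {Y : Type*} {M : Type*} [AddCommGroup M]

theorem bm_cup_zero {f : List Y → ℤ} (hf : ∀ l, l ≠ [] → f l = 0) (G : List Y → M)
    (l : List Y) : cup f G l = 0 := by
  induction l generalizing f with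
  | nil => rfl
  | cons y l ih =>
    rw [cup_cons, hf [y] (List.cons_ne_nil _ _), zero_smul, zero_add]
    exact ih fun l' _ => hf _ (List.cons_ne_nil _ _)

theorem bm_cup_cz (v : Y → ℤ) (G : List Y → M) (y : Y) (l : List Y) :
    cup (cz v) G (y :: l) = (1 - v y) • G (y :: l) := by
  rw [cup_cons, bm_cup_zero, add_zero]
  · rfl
  · intro l' hl'
    cases l' with
    | nil => exact absurd rfl hl'
    | cons _ _ => rfl

theorem bm_cup_co (v : Y → ℤ) (G : List Y → M) (y : Y) (l : List Y) :
    cup (co v) G (y :: l) = v y • G (y :: l) := by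
  rw [cup_cons, bm_cup_zero, add_zero]
  · rfl
  · intro l' hl'
    cases l' with
    | nil => exact absurd rfl hl'
    | cons _ _ => rfl

theorem bm_cup_unit (G : List Y → M) (y : Y) (l : List Y) :
    cup (unit (1 : ℤ)) G (y :: l) = G (y :: l) := by
  rw [cup_cons, bm_cup_zero, add_zero]
  · exact one_smul ℤ _
  · intro l' hl'
    cases l' with
    | nil => exact absurd rfl hl'
    | cons _ _ => rfl

theorem bm_cup_ce_single (v : Y → ℤ) (G : List Y → M) (y : Y) : cup (ce v) G [y] = 0 := by
  rw [cup_cons, cup_nil, add_zero]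
  exact zero_smul ℤ _

theorem bm_cup_ce (v : Y → ℤ) (G : List Y → M) (y y' : Y) (l : List Y) :
    cup (ce v) G (y :: y' :: l) = (v y' - v y) • G (y' :: l) := by
  rw [cup_cons, cup_cons, bm_cup_zero, add_zero]
  · have h1 : ce v [y] = 0 := rfl
    have h2 : ce v [y, y'] = v y' - v y := rfl
    rw [h1, h2, zero_smul, zero_add]
  · intro l' hl'
    cases l' with
    | nil => exact absurd rfl hl'
    | cons _ _ => rfl

theorem bm_compat_mono {vs : List (Y → ℤ)} {l l' : List Y} (h : ∀ y ∈ l', y ∈ l)
    {κ : List Cell} (hc : Compat vs l' κ) : Compat vs l κ := by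
  refine List.Forall₂.imp ?_ hc
  rintro v c ⟨h1, h2, h3⟩
  refine ⟨fun hz => ?_, fun ho => ?_, fun he => ?_⟩
  · obtain ⟨y, hy, h4⟩ := h1 hz
    exact ⟨y, h y hy, h4⟩
  · obtain ⟨y, hy, h4⟩ := h2 ho
    exact ⟨y, h y hy, h4⟩
  · obtain ⟨y, hy, y', hy', h4⟩ := h3 he
    exact ⟨y, h y hy, y', h y' hy', h4⟩

theorem bm_allowed_mono {B : Blk Y} {l l' : List Y} (h : l'.Sublist l) {κ : List Cell}
    (hc : B.Allowed l' κ) : B.Allowed l κ := by
  obtain ⟨h1, h2, h3⟩ := hc
  refine ⟨h1, ?_, fun h4 => h3 fun l'' hl'' => h4 l'' (hl''.trans h)⟩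
  rcases h2 with h2 | ⟨l'', h4, h5⟩
  · exact Or.inl (bm_compat_mono (fun y hy => h.subset hy) h2)
  · exact Or.inr ⟨l'', h4.trans h, h5⟩

theorem bm_allowedL_mono {l l' : List Y} (h : l'.Sublist l) :
    ∀ (Bs : List (Blk Y)) (κ : List Cell), AllowedL Bs l' κ → AllowedL Bs l κ
  | [], _, hc => hc
  | _ :: Bs, _, ⟨κ₁, κ₂, h1, h2, h3⟩ =>
    ⟨κ₁, κ₂, h1, bm_allowed_mono h h2, bm_allowedL_mono h Bs κ₂ h3⟩

theorem bm_ecount_append (κ κ' : List Cell) : ecount (κ ++ κ') = ecount κ + ecount κ' := by
  induction κ with
  | nil => simp [ecount]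
  | cons c κ ih =>
    cases c with
    | z => simpa only [List.cons_append, ecount] using ih
    | o => simpa only [List.cons_append, ecount] using ih
    | e =>
      simp only [List.cons_append, ecount, ih]
      omega

theorem bm_top_succ (n : ℕ) : top (n + 1) = Cell.e :: top n := rfl

theorem bm_ecount_top (n : ℕ) : ecount (top n) = n := by
  induction n with
  | zero => rfl
  | succ n ih => rw [bm_top_succ, ecount, ih]

theorem bm_cp_mem (vs : List (Y → ℤ)) : ∀ (S : List Cell → List Y → M) (l : List Y)
    (H : AddSubgroup M), (∀ κ, Compat vs l κ → ∀ l', l' <:+ l →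
      l'.length + ecount κ = l.length → S κ l' ∈ H) → cp vs S l ∈ H := by
  induction vs with
  | nil =>
    intro S l H h
    exact h [] List.Forall₂.nil l (List.suffix_refl _) rfl
  | cons v vs ih =>
    intro S l H h
    rw [cp]
    cases l with
    | nil =>
      simp only [cup_nil, add_zero]
      exact H.zero_mem
    | cons y l =>
      refine H.add_mem (H.add_mem ?_ ?_) ?_
      · rw [bm_cup_cz]
        by_cases hv : 1 - v y = 0
        · rw [hv, zero_smul]
          exact H.zero_mem
        · refine H.zsmul_mem (ih _ _ H fun κ hκ l' hl' hlen => h (.z :: κ) ?_ l' hl' hlen) _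
          refine List.Forall₂.cons ⟨fun _ => ⟨y, List.mem_cons_self, fun h' => hv ?_⟩,
            fun h' => ?_, fun h' => ?_⟩ hκ
          · rw [h', sub_self]
          · cases h'
          · cases h'
      · rw [bm_cup_co]
        by_cases hv : v y = 0
        · rw [hv, zero_smul]
          exact H.zero_mem
        · refine H.zsmul_mem (ih _ _ H fun κ hκ l' hl' hlen => h (.o :: κ) ?_ l' hl' hlen) _
          refine List.Forall₂.cons ⟨fun h' => ?_, fun _ => ⟨y, List.mem_cons_self, hv⟩,
            fun h' => ?_⟩ hκ
          · cases h'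
          · cases h'
      · cases l with
        | nil =>
          rw [bm_cup_ce_single]
          exact H.zero_mem
        | cons y' l =>
          rw [bm_cup_ce]
          by_cases hv : v y' - v y = 0
          · rw [hv, zero_smul]
            exact H.zero_mem
          · refine H.zsmul_mem (ih _ _ H fun κ hκ l' hl' hlen => h (.e :: κ) ?_ l'
              (hl'.trans (List.suffix_cons _ _)) ?_) _
            · refine List.Forall₂.cons ⟨fun h' => ?_, fun h' => ?_, fun _ =>
                ⟨y, List.mem_cons_self, y', List.mem_cons_of_mem _ List.mem_cons_self,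
                  fun h' => hv ?_⟩⟩ (bm_compat_mono (fun z hz => List.mem_cons_of_mem _ hz) hκ)
              · cases h'
              · cases h'
              · rw [h', sub_self]
            · rw [ecount, List.length_cons, ← hlen]
              omega

theorem bm_cp_split (vs : List (Y → ℤ)) : ∀ (S : List Cell → List Y → M) (y : Y) (l : List Y),
    cp vs S (y :: l) =
      cp vs (fun κ l' => if κ = top vs.length then 0 else S κ l') (y :: l) +
        cup (tau vs) (S (top vs.length)) (y :: l) := by
  induction vs with
  | nil =>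
    intro S y l
    rw [cp, cp, tau, bm_cup_unit]
    have : top (([] : List (Y → ℤ)).length) = [] := rfl
    rw [this, if_pos rfl, zero_add]
  | cons v vs ih =>
    intro S y l
    have hl : (v :: vs).length = vs.length + 1 := rfl
    have hz : (fun (κ : List Cell) (l' : List Y) =>
        if Cell.z :: κ = top (v :: vs).length then 0 else S (.z :: κ) l') =
        fun κ => S (.z :: κ) := by
      funext κ l'
      rw [if_neg]
      rw [hl, bm_top_succ]
      intro h
      cases h
    have ho : (fun (κ : List Cell) (l' : List Y) =>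
        if Cell.o :: κ = top (v :: vs).length then 0 else S (.o :: κ) l') =
        fun κ => S (.o :: κ) := by
      funext κ l'
      rw [if_neg]
      rw [hl, bm_top_succ]
      intro h
      cases h
    have he : (fun (κ : List Cell) (l' : List Y) =>
        if Cell.e :: κ = top (v :: vs).length then 0 else S (.e :: κ) l') =
        fun κ l' => if κ = top vs.length then 0 else (fun κ => S (.e :: κ)) κ l' := by
      funext κ l'
      rw [hl, bm_top_succ]
      by_cases h : κ = top vs.length
      · rw [if_pos h, if_pos (by rw [h])]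
      · rw [if_neg h, if_neg]
        intro h'
        exact h (List.cons.inj h').2
    rw [cp, cp, hz, ho, he, tau, cup_assoc, hl, bm_top_succ]
    have key : cup (ce v) (cp vs fun κ => S (.e :: κ)) (y :: l) =
        cup (ce v) (cp vs fun κ l' => if κ = top vs.length then 0 else
          (fun κ => S (.e :: κ)) κ l') (y :: l) +
        cup (ce v) (cup (tau vs) (S (.e :: top vs.length))) (y :: l) := by
      cases l with
      | nil => rw [bm_cup_ce_single, bm_cup_ce_single, bm_cup_ce_single, add_zero]
      | cons y' l =>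
        rw [bm_cup_ce, bm_cup_ce, bm_cup_ce, ← smul_add, ih (fun κ => S (.e :: κ)) y' l]
    rw [key, ← add_assoc]

theorem bm_cup_mem {H : AddSubgroup M} {G : List Y → M} : ∀ (l : List Y) (f : List Y → ℤ) (n : ℕ),
    (∀ l, f l ≠ 0 → l.length = n + 1) →
    (∀ l₁ l', f l₁ ≠ 0 → l₁ <+: l → l' <:+ l → l'.length + n = l.length → G l' ∈ H) →
    cup f G l ∈ H := by
  intro l
  induction l with
  | nil =>
    intro f n _ _
    exact H.zero_mem
  | cons y l ih =>
    intro f n hf h
    rw [cup_cons]
    refine H.add_mem ?_ ?_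
    · by_cases h0 : f [y] = 0
      · rw [h0, zero_smul]
        exact H.zero_mem
      · refine H.zsmul_mem (h [y] (y :: l) h0 ?_ (List.suffix_refl _) ?_) _
        · rw [List.cons_prefix_cons]
          exact ⟨rfl, List.nil_prefix⟩
        · have := hf _ h0
          rw [List.length_singleton] at this
          omega
    · cases n with
      | zero =>
        rw [bm_cup_zero]
        · exact H.zero_mem
        · intro l' hl'
          by_contra h0
          have := hf _ h0
          rw [List.length_cons, zero_add, Nat.add_eq_right] at this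
          exact hl' (List.length_eq_zero_iff.1 this)
      | succ n =>
        refine ih _ n (fun l' hl' => ?_) fun l₁ l' h0 h1 h2 h3 => h (y :: l₁) l' h0 ?_
          (h2.trans (List.suffix_cons _ _)) ?_
        · have := hf _ hl'
          rw [List.length_cons] at this
          omega
        · rw [List.cons_prefix_cons]
          exact ⟨rfl, h1⟩
        · rw [List.length_cons]
          omega

theorem bm_dl_supp : ∀ (l : List Y) (f : List Y → ℤ) (n : ℕ), (∀ l, f l ≠ 0 → l.length = n) →
    dl f l ≠ 0 → l.length = n + 1 ∧ ∃ l', l'.Sublist l ∧ f l' ≠ 0 := by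
  intro l
  induction l with
  | nil =>
    intro f n _ h
    exact absurd rfl h
  | cons y l ih =>
    intro f n hf h
    by_cases h0 : f l = 0
    · rw [dl_cons, h0, zero_sub, neg_ne_zero] at h
      cases n with
      | zero =>
        exfalso
        apply h
        have : (fun l' => f (y :: l')) = fun _ => (0 : ℤ) := by
          funext l'
          by_contra h1
          have := hf _ h1
          rw [List.length_cons] at this
          omega
        rw [this, dl_zero]
      | succ n =>
        obtain ⟨h1, l', h2, h3⟩ := ih (fun l' => f (y :: l')) n (fun l' hl' => by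
          have := hf _ hl'
          rw [List.length_cons] at this
          omega) h
        exact ⟨by rw [List.length_cons, h1], y :: l', h2.cons_cons y, h3⟩
    · exact ⟨by rw [List.length_cons, hf l h0], l, List.sublist_cons_self _ _, h0⟩

theorem bm_cb_mem (H : AddSubgroup M) : ∀ (n : ℕ) (T : List Cell → M),
    (∀ κ, κ.length = n → ecount κ + 1 = n → κ ≠ top n → T κ ∈ H) → cb T (top n) ∈ H := by
  intro n
  induction n with
  | zero =>
    intro T _
    exact H.zero_mem
  | succ n ih =>
    intro T h
    rw [bm_top_succ, cb]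
    refine H.sub_mem (H.sub_mem (h _ ?_ ?_ ?_) (h _ ?_ ?_ ?_)) (ih _ fun κ h1 h2 h3 => h _ ?_ ?_ ?_)
    · rw [List.length_cons, top, List.length_replicate]
    · rw [ecount, bm_ecount_top]
    · rw [bm_top_succ]
      intro h'
      cases h'
    · rw [List.length_cons, top, List.length_replicate]
    · rw [ecount, bm_ecount_top]
    · rw [bm_top_succ]
      intro h'
      cases h'
    · rw [List.length_cons, h1]
    · rw [ecount, h2]
    · rw [bm_top_succ]
      intro h'
      exact h3 (List.cons.inj h').2

theorem bm_bp_mem {B : Blk Y} (hB : B.Good) (S : List Cell → List Y → M) (y : Y) (l : List Y)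
    (H : AddSubgroup M) (hS : ∀ κ, B.Allowed (y :: l) κ → ∀ l', l' <:+ y :: l →
      l'.length + ecount κ = (y :: l).length → S κ l' ∈ H) : bp B S (y :: l) ∈ H := by
  have h2 : cup B.h (fun l' => cb (fun κ => S κ l') (top B.vs.length)) (y :: l) ∈ H := by
    refine bm_cup_mem _ _ (B.vs.length - 1) (fun l' hl' => ?_) fun l₁ l' h0 h1 h2 h3 => ?_
    · have := hB l' hl'
      omega
    · refine bm_cb_mem H _ _ fun κ h4 h5 h6 => hS κ ⟨h4, Or.inr ⟨l₁, h1.sublist, h0⟩,
        fun _ => h6⟩ l' h2 ?_
      have := hB l₁ h0
      omega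
  rw [bp]
  by_cases hA : ∀ l', l'.Sublist (y :: l) → tau B.vs l' = dl B.h l'
  · have h3 : cup (tau B.vs) (S (top B.vs.length)) (y :: l) =
        cup (dl B.h) (S (top B.vs.length)) (y :: l) := by
      refine cup_congr (S := {l' | l'.Sublist (y :: l)}) ?_ (fun l' hl' => hA l' hl')
        (fun _ _ => rfl) (List.Sublist.refl _)
      intro l₁ h1 l₂ h2
      exact h2.trans h1
    rw [bm_cp_split, h3, sub_right_comm, add_sub_cancel_right]
    refine H.sub_mem (bm_cp_mem _ _ _ H fun κ hκ l' hl' hlen => ?_) h2
    by_cases h4 : κ = top B.vs.length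
    · rw [if_pos h4]
      exact H.zero_mem
    · rw [if_neg h4]
      exact hS κ ⟨hκ.length_eq.symm, Or.inl hκ, fun _ => h4⟩ l' hl' hlen
  · refine H.sub_mem (H.sub_mem ?_ h2) ?_
    · exact bm_cp_mem _ _ _ H fun κ hκ l' hl' hlen =>
        hS κ ⟨hκ.length_eq.symm, Or.inl hκ, fun h => absurd h hA⟩ l' hl' hlen
    · refine bm_cup_mem _ _ B.vs.length (fun l' hl' => ?_) fun l₁ l' h0 h1 h2 h3 => ?_
      · exact (bm_dl_supp l' B.h B.vs.length (fun l'' hl'' => (hB l'' hl'').1) hl').1
      · obtain ⟨-, l'', h4, h5⟩ := bm_dl_supp l₁ B.h B.vs.length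
          (fun l'' hl'' => (hB l'' hl'').1) h0
        refine hS _ ⟨?_, Or.inr ⟨l'', h4.trans h1.sublist, h5⟩, fun h => absurd h hA⟩ l' h2 ?_
        · rw [top, List.length_replicate]
        · rw [bm_ecount_top, h3]

theorem bm_cp_nil (vs : List (Y → ℤ)) (S : List Cell → List Y → M) (hS : ∀ κ, S κ [] = 0) :
    cp vs S [] = 0 := by
  cases vs with
  | nil => exact hS []
  | cons v vs => rw [cp, cup_nil, cup_nil, cup_nil, add_zero, add_zero]

theorem bm_blkProd_nil : ∀ (Bs : List (Blk Y)) (T : List Cell → M), blkProd Bs T [] = 0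
  | [], _ => rfl
  | B :: Bs, T => by
    rw [blkProd, bp, cup_nil, cup_nil, sub_zero, sub_zero]
    exact bm_cp_nil _ _ fun κ => bm_blkProd_nil Bs _

theorem blkProd_mem (Bs : List (Blk Y)) (hB : ∀ B ∈ Bs, B.Good) (l : List Y) (H : AddSubgroup M)
    (T : List Cell → M) (hT : ∀ κ, AllowedL Bs l κ → ecount κ + 1 = l.length → T κ ∈ H) :
    blkProd Bs T l ∈ H := by
  induction Bs generalizing l T with
  | nil =>
    rw [blkProd]
    match l, hT with
    | [], _ => exact H.zero_mem
    | [y], hT => exact hT [] rfl rfl
    | _ :: _ :: _, _ => exact H.zero_mem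
  | cons B Bs ih =>
    cases l with
    | nil =>
      rw [bm_blkProd_nil]
      exact H.zero_mem
    | cons y l =>
      rw [blkProd]
      refine bm_bp_mem (hB B List.mem_cons_self) _ _ _ H fun κ hκ l' hl' hlen =>
        ih (fun B' hB' => hB B' (List.mem_cons_of_mem _ hB')) l' _ fun κ' h1 h2 => ?_
      refine hT (κ ++ κ') ⟨κ, κ', rfl, hκ, bm_allowedL_mono hl'.sublist _ _ h1⟩ ?_
      rw [bm_ecount_append, add_assoc, h2, ← hlen, add_comm]

theorem bm_cp_map {N : Type*} [AddCommGroup N] (D : M →+ N) (vs : List (Y → ℤ)) :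
    ∀ (S : List Cell → List Y → M) (l : List Y), D (cp vs S l) = cp vs (fun κ l' => D (S κ l')) l := by
  induction vs with
  | nil => intro S l; rfl
  | cons v vs ih =>
    intro S l
    rw [cp, cp, map_add, map_add, map_cup, map_cup, map_cup]
    simp only [ih]

theorem bm_cb_map {N : Type*} [AddCommGroup N] (D : M →+ N) (κ : List Cell) :
    ∀ (T : List Cell → M), D (cb T κ) = cb (fun κ => D (T κ)) κ := by
  induction κ with
  | nil => intro T; exact map_zero D
  | cons c κ ih =>
    intro T
    cases c with
    | z => rw [cb, cb, ih]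
    | o => rw [cb, cb, ih]
    | e => rw [cb, cb, map_sub, map_sub, ih]

theorem bm_blkProd_map {N : Type*} [AddCommGroup N] (D : M →+ N) (Bs : List (Blk Y)) :
    ∀ (T : List Cell → M) (l : List Y),
      D (blkProd Bs T l) = blkProd Bs (fun κ => D (T κ)) l := by
  induction Bs with
  | nil =>
    intro T l
    rw [blkProd, blkProd]
    match l with
    | [] => exact map_zero D
    | [y] => rfl
    | _ :: _ :: _ => exact map_zero D
  | cons B Bs ih =>
    intro T l
    rw [blkProd, blkProd, bp, bp, map_sub, map_sub, bm_cp_map, map_cup, map_cup]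
    simp only [ih, bm_cb_map]

/-- two functions on cubes which agree on the relevant cubes give the same value -/
theorem blkProd_congr (Bs : List (Blk Y)) (hB : ∀ B ∈ Bs, B.Good) (l : List Y)
    (T T' : List Cell → M)
    (hT : ∀ κ, AllowedL Bs l κ → ecount κ + 1 = l.length → T κ = T' κ) :
    blkProd Bs T l = blkProd Bs T' l := by
  let H : AddSubgroup (M × M) := AddMonoidHom.eqLocus (AddMonoidHom.fst M M) (AddMonoidHom.snd M M)
  have h := blkProd_mem Bs hB l H (fun κ => (T κ, T' κ)) fun κ h1 h2 => by
    change T κ = T' κ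
    exact hT κ h1 h2
  have h1 : (blkProd Bs (fun κ => (T κ, T' κ)) l).1 = blkProd Bs T l :=
    bm_blkProd_map (AddMonoidHom.fst M M) Bs (fun κ => (T κ, T' κ)) l
  have h2 : (blkProd Bs (fun κ => (T κ, T' κ)) l).2 = blkProd Bs T' l :=
    bm_blkProd_map (AddMonoidHom.snd M M) Bs (fun κ => (T κ, T' κ)) l
  rw [← h1, ← h2]
  exact h

theorem bm_cp_single (y : Y) (m : M) (vs : List (Y → ℤ)) : ∀ (S : List Cell → List Y → M),
    (∀ κ, ecount κ = 0 → S κ [y] = m) → cp vs S [y] = m := by
  induction vs with
  | nil => intro S h; exact h [] rfl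
  | cons v vs ih =>
    intro S h
    rw [cp, bm_cup_cz, bm_cup_co, bm_cup_ce_single, add_zero, ih _ fun κ hκ => h (.z :: κ) hκ,
      ih _ fun κ hκ => h (.o :: κ) hκ, ← add_smul, sub_add_cancel, one_smul]

/-- the augmentation: all zero-dimensional cubes together have weight one -/
theorem blkProd_singleton (Bs : List (Blk Y)) (hB : ∀ B ∈ Bs, B.Good) (y : Y) (m : M)
    (T : List Cell → M) (hT : ∀ κ, ecount κ = 0 → T κ = m) :
    blkProd Bs T [y] = m := by
  induction Bs generalizing T with
  | nil => exact hT [] rfl
  | cons B Bs ih =>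
    have hG := hB B List.mem_cons_self
    have h1 : B.h [y] = 0 := by
      by_contra h
      have := (hG _ h).2
      rw [List.length_singleton] at this
      omega
    have h2 : B.h [] = 0 := by
      by_contra h
      have := (hG _ h).2
      rw [List.length_nil] at this
      omega
    rw [blkProd, bp, cup_cons B.h, cup_cons (dl B.h), cup_nil, cup_nil, dl_singleton, h1, h2,
      zero_smul, zero_smul, add_zero, sub_zero, sub_zero]
    refine bm_cp_single y m _ _ fun κ hκ => ih (fun B' hB' => hB B' (List.mem_cons_of_mem _ hB'))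
      _ fun κ' hκ' => hT _ ?_
    rw [bm_ecount_append, hκ, hκ']

end Vale.Agent.P093.Hom
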