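import Mathlib
import Vale.Agent.P093.Hom.Blocks
import Vale.Agent.P093.Hom.BlocksMem
import Vale.Agent.P093.Hom.Cubes
import Vale.Agent.P093.Hom.Transfer
import Vale.Agent.P093.Hom.AllowedDef
import Vale.Agent.P093.Hom.PhiTW

/-!
TASK HOM-G2: the chain map on the product of `X` with the parameter grid.

Proof of `exists_Phi`. `Φ [] = 0`, `Φ (y :: l) = blkProd Bs (T y.1) (y :: l)`.
* `bd (Φ l) = dl Φ l` for `l = y₀ :: l' ∈ SY SX`: `bd (Φ l) = blkProd Bs (bd ∘ T y₀.1) l`
  (`map_blkProd`) `= blkProd Bs (cb (T y₀.1)) l = dl (blkProd Bs (T y₀.1)) l` (`dl_blkProd`). In `dl` the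
  value at each sublist `l''` of `l` (nonempty) is `blkProd Bs (T y₀.1) l'' = blkProd Bs (T y'.1) l'' =
  Φ l''` where `y'` is the head of `l''`: by `blkProd_congr`, since `AllowedL Bs l'' κ` implies
  `AllowedL Bs l κ` (monotone in `l`), and `hloc`. (`dl_congr` with the hereditary set of sublists of
  `l`; both functions vanish at `[]`, `blkProd_nil'`.)
* `aug (Φ [y]) = blkProd Bs (aug ∘ T y.1) [y] = 1` (`blkProd_singleton`).
* invariance: `blkProd Bs T (l.map σ) = blkProd Bs T l` if `v ∘ σ = v` for the coordinates and `h` is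
  invariant: induction over the blocks (`cup_comp`, `dl_comp`); `(act σ y).1 = y.1`.
* support: `blkProd_mem` with `H = {c | c s = 0}`.

Proof of `TW` statements: `F L = if L = [] then 0 else single (L.map w) 1`, then `bd (F L) = dl F L`
for all `L` (`bd_single`; alternating sum over `eraseIdx`; compare with `extend_boundary`), and
`map_ct`, `ct_dl`; `ct_zero`; `ct_mem` with `H = {c | c s = 0}`; `ct_congr`.
-/

namespace Vale.Agent.P093.Hom

variable {X V C : Type*} {p ℓ : ℕ}

section Comp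

variable {Y M : Type*} [AddCommGroup M]

private theorem phi_cz_comp {a : Y → Y} {v : Y → ℤ} (hv : ∀ y, v (a y) = v y) (l : List Y) :
    cz v (l.map a) = cz v l := by
  match l with
  | [] => rfl
  | [y] => simp [cz, hv]
  | _ :: _ :: _ => rfl

private theorem phi_co_comp {a : Y → Y} {v : Y → ℤ} (hv : ∀ y, v (a y) = v y) (l : List Y) :
    co v (l.map a) = co v l := by
  match l with
  | [] => rfl
  | [y] => simp [co, hv]
  | _ :: _ :: _ => rfl

private theorem phi_ce_comp {a : Y → Y} {v : Y → ℤ} (hv : ∀ y, v (a y) = v y) (l : List Y) :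
    ce v (l.map a) = ce v l := by
  match l with
  | [] => rfl
  | [y] => rfl
  | [y, y'] => simp [ce, hv]
  | _ :: _ :: _ :: _ => rfl

private theorem phi_cup_comp (a : Y → Y) {f : List Y → ℤ} {G : List Y → M}
    (hf : ∀ l, f (l.map a) = f l) (hG : ∀ l, G (l.map a) = G l) (l : List Y) :
    cup f G (l.map a) = cup f G l := by
  rw [← cup_comp a f G l]
  simp only [hf, hG]

private theorem phi_cp_comp (a : Y → Y) (vs : List (Y → ℤ)) (hv : ∀ v ∈ vs, ∀ y, v (a y) = v y) :
    ∀ (S : List Cell → List Y → M), (∀ κ l, S κ (l.map a) = S κ l) → ∀ l,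
      cp vs S (l.map a) = cp vs S l := by
  induction vs with
  | nil => intro S hS l; exact hS [] l
  | cons v vs ih =>
    intro S hS l
    have hv' := hv v List.mem_cons_self
    have ih' := ih fun v' h' => hv v' (List.mem_cons_of_mem _ h')
    rw [cp, cp, phi_cup_comp a (phi_cz_comp hv') (ih' _ fun κ => hS _),
      phi_cup_comp a (phi_co_comp hv') (ih' _ fun κ => hS _),
      phi_cup_comp a (phi_ce_comp hv') (ih' _ fun κ => hS _)]

private theorem phi_blkProd_comp (a : Y → Y) (Bs : List (Blk Y))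
    (hv : ∀ B ∈ Bs, (∀ v ∈ B.vs, ∀ y, v (a y) = v y) ∧ ∀ l, B.h (l.map a) = B.h l) :
    ∀ (T : List Cell → M) (l : List Y), blkProd Bs T (l.map a) = blkProd Bs T l := by
  induction Bs with
  | nil =>
    intro T l
    match l with
    | [] => rfl
    | [y] => rfl
    | _ :: _ :: _ => rfl
  | cons B Bs ih =>
    intro T l
    obtain ⟨h1, h2⟩ := hv B List.mem_cons_self
    have ih' := ih fun B' h' => hv B' (List.mem_cons_of_mem _ h')
    have h3 : ∀ l, dl B.h (l.map a) = dl B.h l := by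
      intro l
      rw [← dl_comp a B.h l]
      simp only [h2]
    rw [blkProd, bp, bp, phi_cp_comp a B.vs h1 _ fun κ l => ih' _ l,
      phi_cup_comp a h2 (fun l => by simp only [ih']), phi_cup_comp a h3 (fun l => ih' _ l)]

end Comp

/-- the chain map -/
private noncomputable def phiF (Bs : List (Blk (YY X p ℓ))) (T : X → List Cell → OChain V) :
    List (YY X p ℓ) → OChain V
  | [] => 0
  | y :: l => blkProd Bs (T y.1) (y :: l)

theorem exists_Phi (Bs : List (Blk (YY X p ℓ))) (hB : ∀ B ∈ Bs, B.Good)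
    (T : X → List Cell → OChain V) (hT : ∀ x κ, bd (T x κ) = cb (T x) κ)
    (hT1 : ∀ x κ, ecount κ = 0 → aug (T x κ) = 1) {SX : Set (List X)} (hSX : Full SX)
    (hloc : ∀ l ∈ SY SX, ∀ y ∈ l, ∀ y' ∈ l, ∀ κ, AllowedL Bs l κ → T y.1 κ = T y'.1 κ)
    (hinv : ∀ (σ : Equiv.Perm (Fin p)), ∀ B ∈ Bs, (∀ v ∈ B.vs, ∀ y, v (act σ y) = v y) ∧
      ∀ l, B.h (l.map (act σ)) = B.h l) :
    ∃ Φ : List (YY X p ℓ) → OChain V, Φ [] = 0 ∧ (∀ l ∈ SY SX, bd (Φ l) = dl Φ l) ∧
      (∀ y, aug (Φ [y]) = 1) ∧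
      (∀ (σ : Equiv.Perm (Fin p)) l, Φ (l.map (act σ)) = Φ l) ∧
      ∀ l ∈ SY SX, ∀ s ∈ (Φ l).support, ∃ y ∈ l, ∃ κ, AllowedL Bs l κ ∧ ecount κ + 1 = l.length ∧
          s ∈ (T y.1 κ).support := by
  refine ⟨phiF Bs T, rfl, fun l hl => ?_, fun y => ?_, fun σ l => ?_, fun l hl s hs => ?_⟩
  · cases l with
    | nil => exact map_zero _
    | cons y₀ l =>
      change bd (blkProd Bs (T y₀.1) (y₀ :: l)) = _
      rw [map_blkProd]
      simp only [hT]
      change blkProd Bs (cb (T y₀.1)) (y₀ :: l) = _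
      rw [← dl_blkProd Bs hB]
      refine dl_congr (S := {l' | l'.Sublist (y₀ :: l)}) (fun l₁ h₁ l₂ h₂ => h₂.trans h₁)
        (fun l₁ h₁ => ?_) (List.Sublist.refl _)
      cases l₁ with
      | nil => exact blkProd_nil' _ _
      | cons y₁ l₁ =>
        change _ = blkProd Bs (T y₁.1) (y₁ :: l₁)
        refine blkProd_congr Bs hB _ _ _ fun κ h₂ _ => ?_
        exact hloc _ hl y₀ List.mem_cons_self y₁ (h₁.subset List.mem_cons_self) κ
          (bm_allowedL_mono h₁ Bs κ h₂)
  · change aug (blkProd Bs (T y.1) [y]) = 1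
    rw [map_blkProd]
    exact blkProd_singleton Bs hB y 1 _ fun κ hκ => hT1 _ κ hκ
  · cases l with
    | nil => rfl
    | cons y l =>
      change blkProd Bs (T (act σ y).1) ((y :: l).map (act σ)) = blkProd Bs (T y.1) (y :: l)
      rw [phi_blkProd_comp (act σ) Bs (hinv σ)]
      rfl
  · cases l with
    | nil => simp [phiF] at hs
    | cons y l =>
      by_contra hcon
      push Not at hcon
      have h1 : blkProd Bs (T y.1) (y :: l) ∈ (Finsupp.applyAddHom s : OChain V →+ ℤ).ker := by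
        refine blkProd_mem Bs hB _ _ _ fun κ h2 h3 => ?_
        rw [AddMonoidHom.mem_ker, Finsupp.applyAddHom_apply]
        exact Finsupp.notMem_support_iff.1 (hcon y List.mem_cons_self κ h2 h3)
      rw [AddMonoidHom.mem_ker, Finsupp.applyAddHom_apply] at h1
      exact (Finsupp.mem_support_iff.1 hs) h1

/-- the chain of the triangulated cube `κ` whose vertices are labelled by `W` -/
noncomputable def TW (cs : List C) (W : Set C → V) (κ : List Cell) : OChain V :=
  ct κ fun L => if L = [] then 0 else Finsupp.single (L.map fun S => W (onS cs S)) 1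

theorem TW_bd (cs : List C) (W : Set C → V) (κ : List Cell) :
    bd (TW cs W κ) = cb (TW cs W) κ :=
  TW_bd' (fun S => W (onS cs S)) κ

theorem TW_aug (cs : List C) (W : Set C → V) (κ : List Cell) (hκ : ecount κ = 0) :
    aug (TW cs W κ) = 1 :=
  TW_aug' (fun S => W (onS cs S)) κ hκ

theorem TW_support (cs : List C) (W : Set C → V) (κ : List Cell) (s : List V)
    (hs : s ∈ (TW cs W κ).support) :
    s.length = ecount κ + 1 ∧ ∀ v ∈ s, ∃ S, VertexOf S κ ∧ v = W (onS cs S) :=
  TW_support' (fun S => W (onS cs S)) κ s hs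

theorem TW_congr (cs : List C) (W W' : Set C → V) (κ : List Cell)
    (h : ∀ S, VertexOf S κ → W (onS cs S) = W' (onS cs S)) : TW cs W κ = TW cs W' κ :=
  TW_congr' (fun S => W (onS cs S)) (fun S => W' (onS cs S)) κ h

end Vale.Agent.P093.Hom
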