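import Mathlib
import Vale.Agent.P093.Hom.Phi
import Vale.Agent.P093.Hom.Allowed
import Vale.Agent.P093.Hom.Colour

/-!
TASK HOM-G4: the homological order is at most the topological order.

Proof of `static_zero`: as in the proof of `static` (see the docstring of `Hom/Static.lean`), but without
groups (`m = 0`, `crd : Fin 0 → ℕ → C` arbitrary, `h` arbitrary) and without parameters (`p = 0`, e.g.
`ℓ = 3`, `YY X 0 3`; every list of `YY X 0 3` is `GridSmall`): `δ` from uniform continuity of the `χ c`,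
`c ∈ ss`, and `δ₁`; `SX = {l | ∀ x ∈ l, ∀ x' ∈ l, dist x x' < δ}`; `Bs = blks 0 χ' crd ss h`,
`T x κs = TW (coords 0 crd ss) (W x) κs`, `exists_Phi` gives `Φ`, and `Ψ l = Φ (l.map fun x => (x, 0))`
(`dl_comp`); `𝒢` = finitely many open balls of radius `δ/2`; `bd_eq_extend`, `extend_boundary`,
`aug_eq_sum`, `TW_support`, `allowed_vertex`, `allowed_count` (with `good = ∅`).

Proof of `homOrderLE_coverDim`: `exists_colours 𝒲` gives `ψ, P`; `C = ℕ`, `ss = List.range (d+1)` with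
`d = coverDim 𝒲`, `χ c = ψ c`, `W x A = P c x` for `c` the least element of `A` (anything if `A` is empty).
Condition `hW`: `δ₁` from the last property of `exists_colours` for `ε = 1/8`, `c ≤ d`; some `c ≤ d` has
`ψ c x = 1 > 7/8`, so `A` is nonempty and its least element `c` has `1/8 < ψ c x`.
Count: at each `x` one of the `d + 1` colours has the value `1`, so at most `d` are in `(1/8, 7/8)`.
-/

open Set

namespace Vale.Agent.P093.Hom

theorem sz_uniform {X : Type*} [MetricSpace X] [CompactSpace X] {C : Type*} (χ : C → X → ℝ)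
    (hχ : ∀ c, Continuous (χ c)) (ss : List C) :
    ∃ δ > 0, ∀ c ∈ ss, ∀ x x', dist x x' < δ → |χ c x - χ c x'| ≤ 1 / 8 := by
  induction ss with
  | nil => exact ⟨1, one_pos, fun c hc => absurd hc List.not_mem_nil⟩
  | cons c ss ih =>
    obtain ⟨δ, hδ, h⟩ := ih
    obtain ⟨δ', hδ', h'⟩ := Metric.uniformContinuous_iff.1
      (CompactSpace.uniformContinuous_of_continuous (hχ c)) (1 / 8) (by norm_num)
    refine ⟨min δ δ', lt_min hδ hδ', fun c' hc' x x' hx => ?_⟩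
    rcases List.mem_cons.1 hc' with rfl | hc'
    · have h1 := h' (hx.trans_le (min_le_right _ _))
      rw [Real.dist_eq] at h1
      exact h1.le
    · exact h c' hc' x x' (hx.trans_le (min_le_left _ _))

theorem sz_cover {X : Type*} [MetricSpace X] [CompactSpace X] {δ : ℝ} (hδ : 0 < δ) :
    ∃ 𝒢 : Set (Set X), IsFinOpenCover 𝒢 ∧
      ∀ G ∈ 𝒢, ∀ y ∈ G, ∀ y' ∈ G, dist y y' < δ := by
  obtain ⟨t, ht, h⟩ := (Metric.totallyBounded_iff.1
    (isCompact_univ (X := X)).totallyBounded) (δ / 2) (half_pos hδ)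
  refine ⟨(fun x => Metric.ball x (δ / 2)) '' t, ⟨ht.image _, ?_, ?_⟩, ?_⟩
  · rintro _ ⟨x, _, rfl⟩
    exact Metric.isOpen_ball
  · refine eq_univ_of_univ_subset fun x hx => ?_
    obtain ⟨y, hy, hxy⟩ := mem_iUnion₂.1 (h hx)
    exact mem_sUnion.2 ⟨_, ⟨y, hy, rfl⟩, hxy⟩
  · rintro _ ⟨x, _, rfl⟩ y hy y' hy'
    have h1 := Metric.mem_ball.1 hy
    have h2 := Metric.mem_ball'.1 hy'
    calc dist y y' ≤ dist y x + dist x y' := dist_triangle _ _ _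
      _ < δ := by linarith

open scoped Classical in
theorem static_zero {X : Type*} [MetricSpace X] [CompactSpace X] {C : Type*}
    (χ : C → X → ℝ) (hχ : ∀ c, Continuous (χ c)) (ss : List C)
    (𝒲 : Set (Set X)) (W : X → Set C → Set X) {δ₁ : ℝ} (hδ₁ : 0 < δ₁)
    (hW : ∀ x x', dist x x' < δ₁ → ∀ A : Set C, (∀ c ∈ A, c ∈ ss ∧ 1 / 8 < χ c x) →
      (∀ c ∈ ss, 7 / 8 < χ c x → c ∈ A) → W x A ∈ 𝒲 ∧ x' ∈ W x A ∧ W x' A = W x A)
    {D : ℕ} (hD : ∀ x, (ss.filter fun c => 1 / 8 < χ c x ∧ χ c x < 7 / 8).length ≤ D) :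
    HomOrderLE 𝒲 D := by
  obtain ⟨δ₂, hδ₂, hun⟩ := sz_uniform χ hχ ss
  obtain ⟨δ, hδe⟩ : ∃ δ, δ = min δ₁ δ₂ := ⟨_, rfl⟩
  have hδ : 0 < δ := hδe ▸ lt_min hδ₁ hδ₂
  have hd1 : δ ≤ δ₁ := hδe ▸ min_le_left _ _
  have hd2 : δ ≤ δ₂ := hδe ▸ min_le_right _ _
  obtain ⟨SX, hSXe⟩ : ∃ SX : Set (List X), SX = {l | ∀ x ∈ l, ∀ x' ∈ l, dist x x' < δ} :=
    ⟨_, rfl⟩
  have hSXm : ∀ l, l ∈ SX ↔ ∀ x ∈ l, ∀ x' ∈ l, dist x x' < δ := fun l => by rw [hSXe]; rfl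
  have hSX : Full SX := fun l hl l' hl' =>
    (hSXm l').2 fun x hx x' hx' => (hSXm l).1 hl x (hl' x hx) x' (hl' x' hx')
  obtain ⟨χ', hχ'⟩ : ∃ χ' : C → YY X 0 3 → ℝ, χ' = fun c y => χ c y.1 := ⟨_, rfl⟩
  obtain ⟨crd, -⟩ : ∃ _ : Fin 0 → ℕ → C, True := ⟨fun γ => γ.elim0, trivial⟩
  obtain ⟨h, -⟩ : ∃ _ : Fin 0 → List (YY X 0 3) → ℤ, True := ⟨fun γ => γ.elim0, trivial⟩
  have hcs : coords 0 crd ss = ss := by simp [coords]
  obtain ⟨Bs, hBse⟩ : ∃ Bs, Bs = blks 0 χ' crd ss h := ⟨_, rfl⟩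
  have hBm : ∀ B ∈ Bs, ∃ c, B = ⟨[Hv fun y => χ' c y - 1 / 2], fun _ => 0⟩ := by
    intro B hB
    rw [hBse, blks] at hB
    rcases List.mem_append.1 hB with hB | hB
    · simp at hB
    · obtain ⟨c, -, rfl⟩ := List.mem_map.1 hB
      exact ⟨c, rfl⟩
  have hvar : ∀ l ∈ SY (p := 0) (ℓ := 3) SX, ∀ c ∈ coords 0 crd ss, ∀ y ∈ l, ∀ y' ∈ l,
      |χ' c y - χ' c y'| ≤ 1 / 8 := by
    intro l hl c hc y hy y' hy'
    rw [hcs] at hc
    rw [hχ']
    refine hun c hc y.1 y'.1 (lt_of_lt_of_le ?_ hd2)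
    exact (hSXm _).1 hl.1 _ (List.mem_map_of_mem hy) _ (List.mem_map_of_mem hy')
  have hdist : ∀ l ∈ SY (p := 0) (ℓ := 3) SX, ∀ y ∈ l, ∀ y' ∈ l, dist y.1 y'.1 < δ₁ := by
    intro l hl y hy y' hy'
    refine lt_of_lt_of_le ?_ hd1
    exact (hSXm _).1 hl.1 _ (List.mem_map_of_mem hy) _ (List.mem_map_of_mem hy')
  have hh : ∀ (l : List (YY X 0 3)) (γ : Fin 0) l', l'.Sublist l → h γ l' ≠ 0 → l' ≠ [] ∧
      ∀ y ∈ l', ∀ k ≤ 2 * 0, |χ' (crd γ k) y - 1 / 2| ≤ 1 / 8 := fun l γ => γ.elim0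
  have hvert : ∀ l ∈ SY (p := 0) (ℓ := 3) SX, ∀ κs, AllowedL Bs l κs → ∀ S, VertexOf S κs →
      ∀ y ∈ l, ∀ x', dist y.1 x' < δ₁ → W y.1 (onS (coords 0 crd ss) S) ∈ 𝒲 ∧
        x' ∈ W y.1 (onS (coords 0 crd ss) S) ∧
        W x' (onS (coords 0 crd ss) S) = W y.1 (onS (coords 0 crd ss) S) := by
    intro l hl κs hκs S hS y hy x' hx'
    obtain ⟨h1, h2⟩ := allowed_vertex χ' crd ss h l (hvar l hl) (hh l) (hBse ▸ hκs) hS hy
    rw [hcs] at h1 h2 ⊢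
    refine hW y.1 x' hx' _ (fun c hc => ?_) (fun c hc h7 => h2 c hc ?_)
    · have := h1 c hc
      rwa [hχ'] at this
    · rwa [hχ']
  obtain ⟨Φ, hΦ0, hΦc, hΦ1, -, hΦs⟩ := exists_Phi (V := Set X) Bs
    (fun B hB => by
      obtain ⟨c, rfl⟩ := hBm B hB
      intro l hl
      exact absurd rfl hl)
    (fun x κs => TW (coords 0 crd ss) (W x) κs) (fun x κs => TW_bd _ _ _)
    (fun x κs => TW_aug _ _ _) hSX
    (fun l hl y hy y' hy' κs hκs => TW_congr _ _ _ _ fun S hS =>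
      ((hvert l hl κs hκs S hS y hy y'.1 (hdist l hl y hy y' hy')).2.2).symm)
    (fun σ B hB => by
      obtain ⟨c, rfl⟩ := hBm B hB
      refine ⟨fun v hv y => ?_, fun _ => rfl⟩
      rw [List.mem_singleton] at hv
      subst hv
      rw [hχ']
      rfl)
  obtain ⟨𝒢, h𝒢, hsmall⟩ := sz_cover (X := X) hδ
  have hmap : ∀ x : List X, x ∈ SX → (x.map fun x => ((x, 0) : YY X 0 3)) ∈ SY SX := by
    intro x hx
    refine ⟨?_, 0, fun y _ c => c.1.elim0⟩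
    rw [List.map_map]
    have : (Prod.fst ∘ fun x => ((x, 0) : YY X 0 3)) = id := rfl
    rw [this, List.map_id]
    exact hx
  refine ⟨𝒢, fun x => Φ (x.map fun x => (x, 0)), h𝒢, fun x hx hxs => ?_⟩
  obtain ⟨G, hG, hxG⟩ := hxs
  have hxS : x ∈ SX := (hSXm x).2 fun y hy y' hy' => hsmall G hG y (hxG y hy) y' (hxG y' hy')
  have hL := hmap x hxS
  refine ⟨fun s hs => ?_, ?_, fun h1 => ?_, fun hlen => ?_⟩
  · obtain ⟨y, hy, κs, hκs, hec, hs'⟩ := hΦs _ hL s hs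
    obtain ⟨h1, h2⟩ := TW_support _ _ _ _ hs'
    refine ⟨by rw [h1, hec, List.length_map], fun V hV => ?_⟩
    obtain ⟨S, hS, rfl⟩ := h2 V hV
    refine ⟨(hvert _ hL κs hκs S hS y hy y.1 (by rw [dist_self]; exact hδ₁)).1, fun x' hx' => ?_⟩
    exact (hvert _ hL κs hκs S hS y hy x'
      (hdist _ hL y hy (x', 0) (List.mem_map.2 ⟨x', hx', rfl⟩))).2.1
  · rw [← bd_eq_extend, hΦc _ hL, ← dl_comp (fun x => ((x, 0) : YY X 0 3)) Φ x]
    exact (extend_boundary (fun x : List X => Φ (x.map fun x => (x, 0))) hΦ0 x).symm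
  · obtain ⟨x0, rfl⟩ := List.length_eq_one_iff.1 h1
    rw [← aug_eq_sum]
    exact hΦ1 (x0, 0)
  · by_contra hne
    obtain ⟨s, hs⟩ := Finsupp.support_nonempty_iff.2 hne
    obtain ⟨y, hy, κs, hκs, hec, -⟩ := hΦs _ hL s hs
    have hc := allowed_count χ' crd ss h _ (hvar _ hL) (hh _) (hBse ▸ hκs) hy (fun _ => True)
      (fun γ => γ.elim0) ∅ (fun γ => γ.elim0) (fun γ => γ.elim0)
    rw [hχ'] at hc
    have h2 := hD y.1
    rw [List.length_map] at hec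
    simp only [Finset.card_empty, Finset.univ_eq_empty, Finset.filter_empty] at hc
    have h3 := hc.trans (Nat.add_le_add_left h2 _)
    omega

/-- `D_ℤ ≤ D` -/
theorem homOrderLE_coverDim {X : Type*} [MetricSpace X] [CompactSpace X] (𝒲 : Set (Set X))
    (h𝒲 : IsFinOpenCover 𝒲) : HomOrderLE 𝒲 (coverDim 𝒲) := by
  classical
  obtain ⟨ψ, P, -, h1, hP, hloc⟩ := exists_colours 𝒲 h𝒲
  have hδ : ∀ n : ℕ, ∃ δ > 0, ∀ c ≤ n, ∀ x x', dist x x' < δ → 1 / 8 ≤ ψ c x →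
      P c x' = P c x ∧ x' ∈ P c x := by
    intro n
    induction n with
    | zero =>
      obtain ⟨δ, hδ, h⟩ := hloc 0 (1 / 8) (by norm_num)
      refine ⟨δ, hδ, fun c hc x x' hx h8 => ?_⟩
      obtain rfl : c = 0 := Nat.le_zero.1 hc
      exact h x x' hx h8
    | succ n ih =>
      obtain ⟨δ, hδ, h⟩ := ih
      obtain ⟨δ', hδ', h'⟩ := hloc (n + 1) (1 / 8) (by norm_num)
      refine ⟨min δ δ', lt_min hδ hδ', fun c hc x x' hx h8 => ?_⟩
      rcases Nat.lt_or_ge n c with h2 | h2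
      · obtain rfl : c = n + 1 := le_antisymm hc h2
        exact h' x x' (hx.trans_le (min_le_right _ _)) h8
      · exact h c h2 x x' (hx.trans_le (min_le_left _ _)) h8
  obtain ⟨δ₁, hδ₁, hloc'⟩ := hδ (coverDim 𝒲)
  refine static_zero (fun c x => ψ c x) (fun c => (ψ c).continuous)
    (List.range (coverDim 𝒲 + 1)) 𝒲 (fun x A => P (sInf A) x) hδ₁ ?_ ?_
  · intro x x' hx A hA1 hA2
    obtain ⟨c, hc, hc1⟩ := h1 x
    have hcA : c ∈ A := hA2 c (List.mem_range.2 (Nat.lt_succ_of_le hc)) (by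
      show 7 / 8 < ψ c x
      rw [hc1]; norm_num)
    have h0 : sInf A ∈ A := Nat.sInf_mem ⟨c, hcA⟩
    obtain ⟨h2, h3⟩ := hA1 _ h0
    obtain ⟨h4, h5⟩ := hloc' (sInf A) (Nat.lt_succ_iff.1 (List.mem_range.1 h2)) x x' hx h3.le
    exact ⟨(hP _ x (lt_trans (by norm_num) h3)).1, h5, h4⟩
  · intro x
    obtain ⟨c, hc, hc1⟩ := h1 x
    have hlt : ((List.range (coverDim 𝒲 + 1)).filter
        fun c => 1 / 8 < ψ c x ∧ ψ c x < 7 / 8).length <
        (List.range (coverDim 𝒲 + 1)).length := by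
      rw [List.length_filter_lt_length_iff_exists]
      refine ⟨c, List.mem_range.2 (Nat.lt_succ_of_le hc), ?_⟩
      rw [hc1]
      norm_num
    rw [List.length_range] at hlt
    exact Nat.lt_succ_iff.1 hlt

end Vale.Agent.P093.Hom
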