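import Mathlib
import Vale.Agent.P093.Hom.Homotopy
import Vale.Agent.P093.Hom.PhiTW
import Vale.Agent.P093.Hom.StaticZero
import Vale.Agent.P093.Hom.ClassDef

/-!
A nonzero (relative) Alexander-Spanier class which is pulled back from the nerve of a cover gives a
lower bound for the homological order of the cover.
-/

open Set

namespace Vale.Agent.P093.Hom

section

variable {Y V : Type*}

/-- the labelled simplex -/
noncomputable def lsy (w : Y → V) (L : List Y) : OChain V :=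
  if L = [] then 0 else Finsupp.single (L.map w) 1

theorem lsy_ne (w : Y → V) {L : List Y} (hL : L ≠ []) :
    lsy w L = Finsupp.single (L.map w) 1 := if_neg hL

theorem bd_lsy (w : Y → V) (L : List Y) : bd (lsy w L) = dl (lsy w) L := by
  let G : List V → OChain V := fun s => if s = [] then 0 else Finsupp.single s 1
  have h1 : ∀ L : List Y, lsy w L = G (L.map w) := by
    intro L
    simp only [G, lsy, List.map_eq_nil_iff]
  have h2 : dl (lsy w) L = dl G (L.map w) := by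
    rw [← dl_comp w G L]
    congr 1
    funext L
    exact h1 L
  rw [h2, ← extend_boundary G (if_pos rfl)]
  by_cases hL : L = []
  · subst hL
    have h3 : simplexBoundary ([] : List V) = 0 := by
      unfold simplexBoundary
      exact if_pos (Nat.zero_le 1)
    rw [List.map_nil, h3, lsy, if_pos rfl, map_zero]
    simp [extend]
  · rw [lsy_ne w hL, bd_single]
    rw [extend]
    conv_lhs => rw [← Finsupp.sum_single (simplexBoundary (L.map w))]
    refine Finsupp.sum_congr fun s hs => ?_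
    have h3 : s ≠ [] := by
      rintro rfl
      exact (Finsupp.mem_support_iff.mp hs) (simplexBoundary_nil _)
    simp only [G]
    rw [if_neg h3, Finsupp.smul_single, smul_eq_mul, mul_one]

theorem extend_congr' {M : Type*} [AddCommGroup M] {F G : List V → M} {c : OChain V}
    (h : ∀ s ∈ c.support, F s = G s) : extend F c = extend G c :=
  Finsupp.sum_congr fun s hs => by rw [h s hs]

/-- `extend F` as an additive map -/
noncomputable def ext {M : Type*} [AddCommGroup M] (F : List V → M) : OChain V →+ M :=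
  Finsupp.liftAddHom fun s => zmultiplesHom M (F s)

theorem ext_eq {M : Type*} [AddCommGroup M] (F : List V → M) (c : OChain V) :
    ext F c = extend F c := by
  rw [ext, Finsupp.liftAddHom_apply, extend]
  rfl

theorem extend_single' {M : Type*} [AddCommGroup M] (F : List V → M) (s : List V) :
    extend F (Finsupp.single s 1) = F s := by
  rw [← ext_eq, ext, Finsupp.liftAddHom_apply_single]
  simp

theorem cll_dl_eq_sum {M : Type*} [AddCommGroup M] (F : List Y → M) (l : List Y) :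
    dl F l = ∑ i ∈ Finset.range l.length, (-1 : ℤ) ^ i • F (l.eraseIdx i) := by
  induction l generalizing F with
  | nil => simp
  | cons y l ih =>
    rw [dl_cons, ih, List.length_cons, Finset.sum_range_succ', List.eraseIdx_cons_zero, pow_zero,
      one_smul, add_comm, sub_eq_add_neg, ← Finset.sum_neg_distrib]
    congr 1
    refine Finset.sum_congr rfl fun i _ => ?_
    rw [List.eraseIdx_cons_succ, pow_succ, mul_neg_one, neg_smul]

theorem dl_mem_of {M : Type*} [AddCommGroup M] (H : AddSubgroup M) (F : List Y → M) (l : List Y)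
    (hF : ∀ l' : List Y, l'.Sublist l → F l' ∈ H) : dl F l ∈ H := by
  rw [cll_dl_eq_sum]
  exact H.sum_mem fun i _ => H.zsmul_mem (hF _ (List.eraseIdx_sublist l i)) _

/-- the boundary preserves chains supported in a class closed under omission of vertices -/
theorem bd_mem_of {T : Set (List V)} (hT : ∀ s ∈ T, ∀ i, s.eraseIdx i ∈ T) {c : OChain V}
    (hc : ∀ s ∈ c.support, s ∈ T) : ∀ s ∈ (bd c).support, s ∈ T := by
  classical
  let H : AddSubgroup (OChain V) := (Finsupp.supported ℤ ℤ T).toAddSubgroup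
  have hm : ∀ c : OChain V, c ∈ H ↔ ∀ s ∈ c.support, s ∈ T := by
    intro c
    change c ∈ Finsupp.supported ℤ ℤ T ↔ _
    rw [Finsupp.mem_supported]
    exact Iff.rfl
  rw [← hm]
  have h1 : bd c = c.sum fun s n => n • simplexBoundary s := by
    rw [bd_eq_extend]
    rfl
  rw [h1]
  refine H.sum_mem fun s hs => H.zsmul_mem ?_ _
  rw [simplexBoundary]
  split_ifs with h
  · exact H.zero_mem
  · refine H.sum_mem fun i _ => H.zsmul_mem ?_ _
    rw [hm]
    intro s' hs'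
    rw [Finsupp.support_single _ one_ne_zero, Finset.mem_singleton] at hs'
    rw [hs']
    exact hT s (hc s hs) i

end

/-- the vertex of the cone -/
def cvx {X : Type*} (lam : X → Set X) : List X → Set X
  | [] => ∅
  | y :: _ => lam y

theorem class_lower {X : Type*} [TopologicalSpace X] {𝒲 : Set (Set X)} {n d : ℕ}
    (e : List (Set X) → ℤ) (B : Set X) (lam : X → Set X) {𝒢₀ : Set (Set X)}
    (h𝒢₀ : IsFinOpenCover 𝒢₀) (hlam : ∀ G ∈ 𝒢₀, ∀ y ∈ G, lam y ∈ 𝒲 ∧ G ⊆ lam y)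
    (he : ∀ s : List (Set X), s.length = n + 2 → (∃ y, ∀ W ∈ s, W ∈ 𝒲 ∧ y ∈ W) →
      extend e (simplexBoundary s) = 0)
    (heB : ∀ s : List (Set X), s.length = n + 1 → (∃ y ∈ B, ∀ W ∈ s, W ∈ 𝒲 ∧ y ∈ W) → e s = 0)
    (hne : ∀ 𝒢 : Set (Set X), IsFinOpenCover 𝒢 → ∀ b : List X → ℤ,
      (∀ x, (∀ y ∈ x, y ∈ B) → b x = 0) →
      ∃ x : List X, x.length = n + 1 ∧ (∃ G ∈ 𝒢, ∀ y ∈ x, y ∈ G) ∧
        e (x.map lam) ≠ extend b (simplexBoundary x))
    (hd : HomOrderLE 𝒲 d) : n ≤ d := by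
  classical
  by_contra hn
  push Not at hn
  obtain ⟨𝒢, Φ₀, h𝒢, hΦ⟩ := hd
  let Φ : List X → OChain (Set X) := fun l => if l = [] then 0 else Φ₀ l
  have hΦe : ∀ l, l ≠ [] → Φ l = Φ₀ l := fun l hl => if_neg hl
  have hΦ0 : Φ [] = 0 := if_pos rfl
  let S : Set (List X) := {l | ∃ G ∈ 𝒢, ∃ G₀ ∈ 𝒢₀, ∀ y ∈ l, y ∈ G ∧ y ∈ G₀}
  let C : List X → Set (Set X) := fun l =>
    {W | W ∈ 𝒲 ∧ ∀ G ∈ 𝒢, ∀ G₀ ∈ 𝒢₀, (∀ y ∈ l, y ∈ G ∧ y ∈ G₀) → G ∩ G₀ ⊆ W}
  have hS : ∀ l ∈ S, ∀ l' : List X, l'.Sublist l → l' ∈ S := by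
    rintro l ⟨G, hG, G₀, hG₀, h⟩ l' hl'
    exact ⟨G, hG, G₀, hG₀, fun y hy => h y (hl'.subset hy)⟩
  have hC : ∀ l ∈ S, ∀ l' : List X, l'.Sublist l → l' ≠ [] → C l' ⊆ C l := by
    rintro l _ l' hl' _ W ⟨hW, h⟩
    exact ⟨hW, fun G hG G₀ hG₀ h1 => h G hG G₀ hG₀ fun y hy => h1 y (hl'.subset hy)⟩
  have hlamC : ∀ l ∈ S, ∀ y ∈ l, lam y ∈ C l := by
    rintro l ⟨G, hG, G₀, hG₀, h⟩ y hy
    exact ⟨(hlam G₀ hG₀ y (h y hy).2).1, fun G' hG' G₀' hG₀' h' =>
      inter_subset_right.trans (hlam G₀' hG₀' y (h' y hy).2).2⟩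
  have hv : ∀ l ∈ S, l ≠ [] → cvx lam l ∈ C l := by
    rintro l hl hne
    rcases l with _ | ⟨y, l⟩
    · exact absurd rfl hne
    · exact hlamC _ hl y List.mem_cons_self
  have hsmall : ∀ l ∈ S, ∃ G ∈ 𝒢, ∀ y ∈ l, y ∈ G := by
    rintro l ⟨G, hG, G₀, hG₀, h⟩
    exact ⟨G, hG, fun y hy => (h y hy).1⟩
  have hΦc : ∀ l ∈ S, bd (Φ l) = dl Φ l := by
    intro l hl
    by_cases hl0 : l = []
    · subst hl0
      rw [hΦ0, map_zero, dl_nil]
    · have h1 := (hΦ l hl0 (hsmall l hl)).2.1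
      rw [hΦe l hl0, bd_eq_extend, h1, ← extend_boundary Φ hΦ0]
      refine extend_congr' fun s hs => ?_
      rw [hΦe]
      rintro rfl
      exact (Finsupp.mem_support_iff.mp hs) (simplexBoundary_nil _)
  have hΦ1 : ∀ y, [y] ∈ S → aug (Φ [y]) = 1 := by
    intro y hy
    rw [hΦe [y] (by simp), aug_eq_sum]
    exact (hΦ [y] (by simp) (hsmall _ hy)).2.2.1 rfl
  have hΦs : ∀ l ∈ S, l ≠ [] → ∀ s ∈ (Φ l).support, s.length = l.length ∧ ∀ w ∈ s, w ∈ C l := by
    intro l hl hl0 s hs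
    have h1 := (hΦ l hl0 (hsmall l hl)).1 s (by rwa [← hΦe l hl0])
    refine ⟨h1.1, fun W hW => ⟨(h1.2 W hW).1, fun G hG G₀ hG₀ h2 z hz => ?_⟩⟩
    -- enlarge the tuple by the point `z`
    let T : Set (List (Set X)) := {s | ∀ W ∈ s, z ∈ W}
    let H : AddSubgroup (OChain (Set X)) := (Finsupp.supported ℤ ℤ T).toAddSubgroup
    have hm : ∀ c : OChain (Set X), c ∈ H ↔ ∀ s ∈ c.support, s ∈ T := by
      intro c
      change c ∈ Finsupp.supported ℤ ℤ T ↔ _
      rw [Finsupp.mem_supported]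
      exact Iff.rfl
    have hmem : ∀ l' : List X, l'.Sublist l → z :: l' ∈ S := by
      intro l' hl'
      refine ⟨G, hG, G₀, hG₀, fun y hy => ?_⟩
      rcases List.mem_cons.1 hy with rfl | hy
      · exact hz
      · exact h2 y (hl'.subset hy)
    have hH : ∀ l' : List X, l'.Sublist l → Φ (z :: l') ∈ H := by
      intro l' hl'
      rw [hm, hΦe _ (by simp)]
      intro s hs W hW
      exact ((hΦ (z :: l') (by simp) (hsmall _ (hmem l' hl'))).1 s hs).2 W hW |>.2 z
        List.mem_cons_self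
    have h3 := hΦc (z :: l) (hmem l (List.Sublist.refl l))
    rw [dl_cons] at h3
    have h4 : Φ l = bd (Φ (z :: l)) + dl (fun l' => Φ (z :: l')) l := by rw [h3]; abel
    have h5 : Φ l ∈ H := by
      rw [h4]
      refine H.add_mem ?_ (dl_mem_of H _ l hH)
      rw [hm]
      exact bd_mem_of (T := T) (fun s hs i W hW => hs W ((List.eraseIdx_sublist s i).subset hW))
        ((hm _).1 (hH l (List.Sublist.refl l)))
    exact (hm _).1 h5 s hs W hW
  obtain ⟨H, hH0, hH⟩ := exists_homotopy hS hC (cvx lam) hv Φ (lsy lam) hΦ0 (if_pos rfl) hΦc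
    (fun l _ => bd_lsy lam l) hΦ1 (fun y _ => by
      rw [lsy_ne lam (by simp), aug_eq_sum]
      simp) hΦs (fun l hl hl0 s hs => by
      rw [lsy_ne lam hl0, Finsupp.support_single _ one_ne_zero,
        Finset.mem_singleton] at hs
      subst hs
      refine ⟨List.length_map _, fun w hw => ?_⟩
      obtain ⟨y, hy, rfl⟩ := List.mem_map.1 hw
      exact hlamC l hl y hy)
  let b : List X → ℤ := fun x => if x ∈ S ∧ x.length = n then - extend e (H x) else 0
  -- lists carried by `C x` contain the points of `x`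
  have hpt : ∀ x ∈ S, ∀ y ∈ x, ∀ W ∈ C x, W ∈ 𝒲 ∧ y ∈ W := by
    rintro x ⟨G, hG, G₀, hG₀, h⟩ y hy W ⟨hW, hW'⟩
    exact ⟨hW, hW' G hG G₀ hG₀ h (h y hy)⟩
  obtain ⟨x, hxn, ⟨G', hG', hxG⟩, hx⟩ := hne (image2 (· ∩ ·) 𝒢 𝒢₀) (by
    refine ⟨h𝒢.1.image2 _ h𝒢₀.1, ?_, ?_⟩
    · rintro _ ⟨G, hG, G₀, hG₀, rfl⟩
      exact (h𝒢.2.1 G hG).inter (h𝒢₀.2.1 G₀ hG₀)
    · refine eq_univ_of_forall fun y => ?_
      obtain ⟨G, hG, hy⟩ := mem_sUnion.1 (h𝒢.2.2 ▸ mem_univ y)
      obtain ⟨G₀, hG₀, hy₀⟩ := mem_sUnion.1 (h𝒢₀.2.2 ▸ mem_univ y)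
      exact mem_sUnion.2 ⟨_, ⟨G, hG, G₀, hG₀, rfl⟩, hy, hy₀⟩) b (by
    intro x hx
    simp only [b]
    split_ifs with h
    · obtain ⟨h1, h2⟩ := h
      rcases x with _ | ⟨y, x⟩
      · simp only [List.length_nil] at h2
        omega
      · rw [neg_eq_zero, extend]
        refine Finset.sum_eq_zero fun s hs => ?_
        have h3 := (hH _ h1 (by simp)).2 s hs
        change (H (y :: x)) s • e s = 0
        rw [heB s (by rw [h3.1, h2]) ⟨y, hx y List.mem_cons_self, fun W hW =>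
          hpt _ h1 y List.mem_cons_self W (h3.2 W hW)⟩, smul_zero]
    · rfl)
  obtain ⟨G, hG, G₀, hG₀, rfl⟩ := hG'
  have hxS : x ∈ S := ⟨G, hG, G₀, hG₀, fun y hy => hxG y hy⟩
  have hx0 : x ≠ [] := by
    rintro rfl
    simp at hxn
  obtain ⟨y, hy⟩ : ∃ y, y ∈ x := List.exists_mem_of_ne_nil x hx0
  obtain ⟨h1, h2⟩ := hH x hxS hx0
  have h3 : Φ x = 0 := by
    rw [hΦe x hx0]
    exact (hΦ x hx0 (hsmall x hxS)).2.2.2 (by omega)
  have h4 := congrArg (ext e) h1
  rw [h3, map_sub, map_sub, map_zero, lsy_ne lam hx0, ext_eq, ext_eq, extend_single',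
    ← dl_map] at h4
  have h5 : extend e (bd (H x)) = 0 := by
    have h6 : ∀ c : OChain (Set X), extend e (bd c) =
        extend (fun s => extend e (simplexBoundary s)) c := by
      intro c
      rw [← ext_eq, bd_eq_extend, extend, extend, Finsupp.sum, Finsupp.sum, map_sum]
      refine Finset.sum_congr rfl fun s _ => ?_
      rw [map_zsmul, ext_eq]
    rw [h6, extend]
    refine Finset.sum_eq_zero fun s hs => ?_
    have h7 := h2 s hs
    change (H x) s • extend e (simplexBoundary s) = 0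
    rw [he s (by rw [h7.1, hxn]) ⟨y, fun W hW => hpt x hxS y hy W (h7.2 W hW)⟩, smul_zero]
  rw [h5] at h4
  apply hx
  have hb0 : b [] = 0 := by
    simp only [b]
    split_ifs with h
    · rw [hH0, extend]
      simp
    · rfl
  rw [extend_boundary b hb0]
  have h8 : dl b x = - dl (fun l => ext e (H l)) x := by
    rw [cll_dl_eq_sum, cll_dl_eq_sum, ← Finset.sum_neg_distrib]
    refine Finset.sum_congr rfl fun i hi => ?_
    rw [Finset.mem_range] at hi
    have h9 : x.eraseIdx i ∈ S ∧ (x.eraseIdx i).length = n := by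
      refine ⟨hS x hxS _ (List.eraseIdx_sublist x i), ?_⟩
      rw [List.length_eraseIdx_of_lt hi, hxn]
      rfl
    simp only [b]
    rw [if_pos h9, ext_eq, smul_neg]
  rw [h8]
  linarith

theorem nerveClass_le {X : Type*} [TopologicalSpace X] [CompactSpace X]
    [TopologicalSpace.MetrizableSpace X] {𝒲 : Set (Set X)} (h𝒲 : IsFinOpenCover 𝒲) {B : Set X}
    {n : ℕ} (h : NerveClass 𝒲 B n) : n ≤ homOrder 𝒲 := by
  let _ := TopologicalSpace.metrizableSpaceMetric X
  obtain ⟨e, v, ⟨𝒢₀, h𝒢₀, hv⟩, he, heB, hne⟩ := h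
  exact le_csInf ⟨_, homOrderLE_coverDim 𝒲 h𝒲⟩ fun d hd =>
    class_lower e B v h𝒢₀ hv he heB hne hd

end Vale.Agent.P093.Hom
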