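import Mathlib
import Vale.Agent.P093.Hom.StaticZero

/-!
TASK HOM-I1: a cube in the space gives a lower bound for the homological order.

Proof of `le_of_cube`. Suppose `HomOrderLE 𝒲 d` with `𝒢, Φ` and `d < n`. Put `Φ' l = Φ l` for `l ≠ []`,
`Φ' [] = 0`. For `W : Set X` let `v j W = 0` if `∀ y, Ψ y ∈ W → y j ≠ 1` and `v j W = 1` otherwise (a
function to `ℤ`); on lists of sets let `e_k = tau [v k, …, v (n-1)]` (see `tau` in `Hom/BlocksDef.lean`;
`dl (tau vs) = 0` and `tau (v :: vs) = cup (ce v) (tau vs) = dl (cup (co v) (tau vs))`).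
For a cochain `e` on lists of sets let `Φ^* e l = extend e (Φ' (l.map Ψ))`, a cochain on lists of points
of the cube `Q = Fin n → unitInterval` (`extend` = linear extension, as in `Hom/OrderDef.lean`), for lists
which are small for the cover `Ψ⁻¹ 𝒢`. On small lists `Φ^* (dl e) = dl (Φ^* e)` (chain map property;
`extend_boundary`).
Choose `m` so large that every set of points of the cube with coordinates differing by at most `1/m`
lies in a member of `Ψ⁻¹ 𝒢` (Lebesgue number). For a coordinate `j` and a cochain `F` on lists of `Q` let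
`I_j F l = ∑_{g<m} pr (upd j (g/m)) (upd j ((g+1)/m)) F l`; by `pr_dl`
`I_j (dl F) l = F (l.map (upd j 1)) - F (l.map (upd j 0)) - dl (I_j F) l`.
Claim (downward induction on `k`): for every point `y` of the cube whose coordinates `< k` are arbitrary,
`I_{n-1} … I_k` (apply `I_k` first) of `Φ^* e_k`, evaluated at `[y]`, is `± 1`. For `k = n`: `e_n = unit 1`
and `Φ^* (unit 1) [y] = aug = 1`. Step: `Φ^* e_k = Φ^* (dl (cup (co (v k)) e_{k+1})) = dl (Φ^* G)`,
`G = cup (co (v k)) e_{k+1}`. `I_k (dl F) l = F (l.map (upd k 1)) - F (l.map (upd k 0)) - dl (I_k F) l`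
with `F = Φ^* G`. Every set `W` occurring in `Φ' (l.map (Ψ ∘ upd k 1))` contains a point `Ψ y` with
`y k = 1`, so `v k W = 1`, and every set occurring for `upd k 0` contains a point with `y k = 0`, so by
`hW` the alternative `y k ≠ 1` holds and `v k W = 0`. Hence `F (l.map (upd k 1)) = Φ^* e_{k+1}
(l.map (upd k 1))` and `F (l.map (upd k 0)) = 0`. The remaining term: `I_{n-1} … I_{k+1} (dl (I_k F))`:
move `dl` outside, `I_j (dl F') = F' (upd j 1) - F' (upd j 0) - dl (I_j F')`; the boundary terms
`F' = ` (iterated integral of `Φ^* G`) at `upd j 1`, `upd j 0` vanish for `j > k`, because `e_{k+1}` contains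
the factor `ce (v j)` and `v j` is constant (`1` resp. `0`) on all the sets occurring; and the last term
`dl (…) [y] = (…) [] = 0`. (It may be more convenient to prove: for a cochain `F` on lists of points, if
`F` vanishes on lists inside the faces `y j = 0` and `y j = 1` for all `j ∈ js`, then
`I_js (dl F) [y] = 0`.)
For `k = 0` this contradicts `Φ' l = 0` for `l.length = n + 1 > d + 1`.

Proof of `homMeanDim_ge`: let `𝒰` be the finite open cover of `X` by the sets
`{x | f x s < 1 for s ∈ A, f x s > 0 for s ∉ A}`, `A ⊆ Fin q`. For `p = (j,s) ∈ J k` and a member `W` of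
`iterCover h 𝒰 (N k)`, `W ⊆ h^{-j} U`, so `f (h^j ·) s` misses `1` or `0` on `W`. Enumerate
`J k` by `Fin n`, `n = (J k).card`, and apply `le_of_cube` to
`y ↦ Ψ k (extension of y by 0)`. So `n ≤ homOrder` (the infimum is over a nonempty set by
`homOrderLE_coverDim`; choose a metric), and the limsup over `N` is at least `μ - ε`.
-/

open Filter Topology Set
open scoped ENNReal

namespace Vale.Agent.P093.Hom

section Aux

variable {Y Z Z' : Type*}

private theorem cl_pr_comp_right (a b : Y → Z) (u : Z → Z') (F : List Z' → ℤ) (l : List Y) :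
    pr a b (fun L => F (L.map u)) l = pr (fun y => u (a y)) (fun y => u (b y)) F l := by
  induction l generalizing F with
  | nil => rfl
  | cons y l ih =>
    rw [pr_cons, pr_cons]
    have h := ih (fun L => F (u (a y) :: L))
    simp only [List.map_cons, List.map_map] at h ⊢
    rw [h]
    rfl

private theorem cl_pr_comp_left (w : Y → Z) (a b : Z → Z') (F : List Z' → ℤ) (l : List Y) :
    pr a b F (l.map w) = pr (fun y => a (w y)) (fun y => b (w y)) F l := by
  induction l generalizing F with
  | nil => rfl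
  | cons y l ih =>
    rw [List.map_cons, pr_cons, pr_cons, ih, List.map_map]
    rfl

private theorem cl_pr_zero (a b : Y → Z) (F : List Z → ℤ) (l : List Y)
    (hF : ∀ L : List Z, L.length = l.length + 1 → (∀ z ∈ L, ∃ y ∈ l, z = a y ∨ z = b y) →
      F L = 0) : pr a b F l = 0 := by
  induction l generalizing F with
  | nil => rfl
  | cons y l ih =>
    rw [pr_cons, hF _ (by simp) ?_, ih _ fun L hL hz => hF _ (by simp [hL]) ?_, sub_zero]
    · intro z hz'
      rw [List.mem_cons] at hz'
      rcases hz' with rfl | hz'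
      · exact ⟨y, by simp, Or.inl rfl⟩
      · obtain ⟨y', hy', h⟩ := hz z hz'
        exact ⟨y', by simp [hy'], h⟩
    · intro z hz
      rw [List.mem_cons, List.mem_cons, List.mem_map] at hz
      rcases hz with rfl | rfl | ⟨y', hy', rfl⟩
      · exact ⟨y, by simp, Or.inl rfl⟩
      · exact ⟨y, by simp, Or.inr rfl⟩
      · exact ⟨y', by simp [hy'], Or.inr rfl⟩

end Aux

section Cube

variable {n : ℕ}

/-- change of the coordinate `j` -/
private def cu (j : Fin n) (c : unitInterval) (y : Fin n → unitInterval) : Fin n → unitInterval :=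
  Function.update y j c

private theorem cu_self (j : Fin n) (c : unitInterval) (y : Fin n → unitInterval) :
    cu j c y j = c := Function.update_self _ _ _

private theorem cu_ne {j i : Fin n} (h : i ≠ j) (c : unitInterval) (y : Fin n → unitInterval) :
    cu j c y i = y i := Function.update_of_ne h _ _

private theorem cu_comm {j k : Fin n} (h : j ≠ k) (c c' : unitInterval)
    (y : Fin n → unitInterval) : cu k c' (cu j c y) = cu j c (cu k c' y) :=
  Function.update_comm h _ _ _

/-- integral in the direction `j` over the subdivision `t 0, …, t m` -/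
private def cI (t : ℕ → unitInterval) (m : ℕ) (j : Fin n)
    (F : List (Fin n → unitInterval) → ℤ) (l : List (Fin n → unitInterval)) : ℤ :=
  ∑ g ∈ Finset.range m, pr (cu j (t g)) (cu j (t (g + 1))) F l

/-- iterated integral (the first direction first) -/
private def cII (t : ℕ → unitInterval) (m : ℕ) : List (Fin n) →
    (List (Fin n → unitInterval) → ℤ) → List (Fin n → unitInterval) → ℤ
  | [], F => F
  | j :: js, F => cII t m js (cI t m j F)

/-- lists in one cell of the grid -/
private def cS (n : ℕ) (t : ℕ → unitInterval) : Set (List (Fin n → unitInterval)) :=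
  {l | ∀ i, ∃ g, ∀ y ∈ l, y i = t g ∨ y i = t (g + 1)}

private theorem cI_sub (t : ℕ → unitInterval) (m : ℕ) (j : Fin n)
    (F G : List (Fin n → unitInterval) → ℤ) (l : List (Fin n → unitInterval)) :
    cI t m j (fun l => F l - G l) l = cI t m j F l - cI t m j G l := by
  simp only [cI, pr_sub, Finset.sum_sub_distrib]

private theorem cI_nil (t : ℕ → unitInterval) (m : ℕ) (j : Fin n)
    (F : List (Fin n → unitInterval) → ℤ) : cI t m j F [] = 0 := by
  simp [cI]

private theorem cII_sub (t : ℕ → unitInterval) (m : ℕ) (js : List (Fin n))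
    (F G : List (Fin n → unitInterval) → ℤ) (l : List (Fin n → unitInterval)) :
    cII t m js (fun l => F l - G l) l = cII t m js F l - cII t m js G l := by
  induction js generalizing F G with
  | nil => rfl
  | cons j js ih =>
    have h : cI t m j (fun l => F l - G l) = fun l => cI t m j F l - cI t m j G l := by
      funext l
      exact cI_sub t m j F G l
    change cII t m js (cI t m j (fun l => F l - G l)) l = _
    rw [h, ih]
    rfl

private theorem cI_zero {t : ℕ → unitInterval} (m : ℕ) (j : Fin n)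
    (F : List (Fin n → unitInterval) → ℤ) {l : List (Fin n → unitInterval)} (hl : l ∈ cS n t)
    (h : ∀ L ∈ cS n t, L.length = l.length + 1 → (∀ z ∈ L, ∃ y ∈ l, ∀ i, i ≠ j → z i = y i) →
      F L = 0) : cI t m j F l = 0 := by
  refine Finset.sum_eq_zero fun g _ => cl_pr_zero _ _ _ _ fun L hL hz => h L ?_ hL ?_
  · intro i
    by_cases hi : i = j
    · subst hi
      refine ⟨g, fun z hz' => ?_⟩
      obtain ⟨y, _, rfl | rfl⟩ := hz z hz'
      · exact Or.inl (cu_self _ _ _)
      · exact Or.inr (cu_self _ _ _)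
    · obtain ⟨g', hg'⟩ := hl i
      refine ⟨g', fun z hz' => ?_⟩
      obtain ⟨y, hy, rfl | rfl⟩ := hz z hz'
      · rw [cu_ne hi]; exact hg' y hy
      · rw [cu_ne hi]; exact hg' y hy
  · intro z hz'
    obtain ⟨y, hy, rfl | rfl⟩ := hz z hz'
    · exact ⟨y, hy, fun i hi => cu_ne hi _ _⟩
    · exact ⟨y, hy, fun i hi => cu_ne hi _ _⟩

private theorem cII_zero {t : ℕ → unitInterval} (m : ℕ) (js : List (Fin n))
    (F : List (Fin n → unitInterval) → ℤ) {l : List (Fin n → unitInterval)} (hl : l ∈ cS n t)
    (h : ∀ L ∈ cS n t, L.length = l.length + js.length → F L = 0) : cII t m js F l = 0 := by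
  induction js generalizing F with
  | nil => exact h l hl (by simp)
  | cons j js ih =>
    refine ih (cI t m j F) fun L hL hlen => cI_zero m j F hL fun L' hL' hlen' _ => h L' hL' ?_
    rw [hlen', hlen, List.length_cons]
    ring

private theorem cII_congr {t : ℕ → unitInterval} (m : ℕ) (js : List (Fin n))
    {F G : List (Fin n → unitInterval) → ℤ} {l : List (Fin n → unitInterval)} (hl : l ∈ cS n t)
    (h : ∀ L ∈ cS n t, F L = G L) : cII t m js F l = cII t m js G l := by
  have h1 := cII_sub t m js F G l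
  rw [cII_zero m js (fun l => F l - G l) hl fun L hL _ => by rw [h L hL, sub_self]] at h1
  exact (sub_eq_zero.1 h1.symm)

private theorem cI_dl (t : ℕ → unitInterval) (m : ℕ) (j : Fin n)
    (F : List (Fin n → unitInterval) → ℤ) (l : List (Fin n → unitInterval)) :
    cI t m j (dl F) l = F (l.map (cu j (t m))) - F (l.map (cu j (t 0))) - dl (cI t m j F) l := by
  have h1 : dl (cI t m j F) l =
      ∑ g ∈ Finset.range m, dl (pr (cu j (t g)) (cu j (t (g + 1))) F) l := dl_sum _ _ _
  rw [h1, ← Finset.sum_range_sub (fun g => F (l.map (cu j (t g)))), ← Finset.sum_sub_distrib]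
  exact Finset.sum_congr rfl fun g _ => pr_dl _ _ _ _

private theorem cII_map (t : ℕ → unitInterval) (m : ℕ) (k : Fin n) (c : unitInterval)
    (js : List (Fin n)) (hk : k ∉ js) (F : List (Fin n → unitInterval) → ℤ)
    (l : List (Fin n → unitInterval)) :
    cII t m js (fun l => F (l.map (cu k c))) l = cII t m js F (l.map (cu k c)) := by
  induction js generalizing F with
  | nil => rfl
  | cons j js ih =>
    rw [List.mem_cons, not_or] at hk
    have h : cI t m j (fun l => F (l.map (cu k c))) = fun l => cI t m j F (l.map (cu k c)) := by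
      funext l
      refine Finset.sum_congr rfl fun g _ => ?_
      rw [cl_pr_comp_right, cl_pr_comp_left]
      congr 1
      · funext y
        exact cu_comm (Ne.symm hk.1) _ _ _
      · funext y
        exact cu_comm (Ne.symm hk.1) _ _ _
    change cII t m js (cI t m j (fun l => F (l.map (cu k c)))) l = _
    rw [h, ih hk.2]
    rfl

private theorem cS_map {t : ℕ → unitInterval} {l : List (Fin n → unitInterval)}
    (hl : l ∈ cS n t) (j : Fin n) (g : ℕ) : l.map (cu j (t g)) ∈ cS n t := by
  intro i
  by_cases hi : i = j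
  · subst hi
    refine ⟨g, fun y hy => ?_⟩
    obtain ⟨y', _, rfl⟩ := List.mem_map.1 hy
    exact Or.inl (cu_self _ _ _)
  · obtain ⟨g', hg'⟩ := hl i
    refine ⟨g', fun y hy => ?_⟩
    obtain ⟨y', hy', rfl⟩ := List.mem_map.1 hy
    rw [cu_ne hi]
    exact hg' y' hy'

/-- the integral of a coboundary of a cochain vanishing on the faces -/
private theorem cII_dl_zero {t : ℕ → unitInterval} {m : ℕ} (h0 : t 0 = 0) (h1 : t m = 1)
    (js : List (Fin n)) (hjs : js.Nodup) (H : List (Fin n → unitInterval) → ℤ) (hH0 : H [] = 0)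
    (hH : ∀ j ∈ js, ∀ l ∈ cS n t, l ≠ [] → ((∀ y ∈ l, y j = 0) ∨ (∀ y ∈ l, y j = 1)) → H l = 0)
    {y : Fin n → unitInterval} (hy : [y] ∈ cS n t) : cII t m js (dl H) [y] = 0 := by
  induction js generalizing H with
  | nil =>
    change dl H [y] = 0
    rw [dl_singleton, hH0]
  | cons j js ih =>
    have hH' : ∀ L ∈ cS n t, cI t m j (dl H) L = 0 - dl (cI t m j H) L := by
      intro L hL
      rw [cI_dl]
      cases L with
      | nil => simp
      | cons z L =>
        rw [hH j List.mem_cons_self _ (cS_map hL j m) (by simp) (Or.inr ?_),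
          hH j List.mem_cons_self _ (cS_map hL j 0) (by simp) (Or.inl ?_), sub_zero]
        · intro y' hy'
          obtain ⟨y'', _, rfl⟩ := List.mem_map.1 hy'
          rw [cu_self, h0]
        · intro y' hy'
          obtain ⟨y'', _, rfl⟩ := List.mem_map.1 hy'
          rw [cu_self, h1]
    change cII t m js (cI t m j (dl H)) [y] = 0
    rw [cII_congr m js hy hH', cII_sub t m js (fun _ => 0) (dl (cI t m j H)) [y],
      cII_zero m js (fun _ => 0) hy (fun _ _ _ => rfl),
      ih (List.nodup_cons.1 hjs).2 (cI t m j H) (cI_nil t m j H), sub_zero]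
    intro j' hj' l hl hne hface
    have hjj : j' ≠ j := by
      rintro rfl
      exact (List.nodup_cons.1 hjs).1 hj'
    refine cI_zero m j H hl fun L hL hlen hz => hH j' (List.mem_cons_of_mem _ hj') L hL ?_ ?_
    · intro h
      rw [h] at hlen
      simp at hlen
    · rcases hface with hf | hf
      · refine Or.inl fun z hz' => ?_
        obtain ⟨y', hy', e⟩ := hz z hz'
        rw [e j' hjj, hf y' hy']
      · refine Or.inr fun z hz' => ?_
        obtain ⟨y', hy', e⟩ := hz z hz'
        rw [e j' hjj, hf y' hy']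

end Cube

section Extend

variable {V M : Type*} [AddCommGroup M]

private theorem cl_extend_eq (F : List V → M) (c : OChain V) : extend F c =
    (Finsupp.liftAddHom fun s => zmultiplesHom M (F s) : OChain V →+ M) c := by
  rw [Finsupp.liftAddHom_apply, extend]
  rfl

private theorem cl_extend_sb_congr {F G : List V → M} (h : ∀ s, s ≠ [] → F s = G s) (l : List V) :
    extend F (simplexBoundary l) = extend G (simplexBoundary l) := by
  rw [cl_extend_eq, cl_extend_eq, simplexBoundary]
  split_ifs with hl
  · rw [map_zero, map_zero]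
  · rw [map_sum, map_sum]
    refine Finset.sum_congr rfl fun i hi => ?_
    rw [Finset.mem_range] at hi
    rw [map_zsmul, map_zsmul, Finsupp.liftAddHom_apply_single, Finsupp.liftAddHom_apply_single]
    simp only [zmultiplesHom_apply, one_smul]
    rw [h]
    intro h0
    have h2 := congrArg List.length h0
    rw [List.length_eraseIdx_of_lt hi] at h2
    simp at h2
    omega

private theorem cl_extend_extend {V' : Type*} (e : List V' → M) (Φ : List V → OChain V')
    (c : OChain V) : extend e (extend Φ c) = extend (fun s => extend e (Φ s)) c := by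
  rw [cl_extend_eq e]
  rw [extend, extend, Finsupp.sum, Finsupp.sum, map_sum]
  refine Finset.sum_congr rfl fun s _ => ?_
  rw [map_zsmul, ← cl_extend_eq]

private theorem cl_extend_congr {F G : List V → M} {c : OChain V}
    (h : ∀ s ∈ c.support, F s = G s) : extend F c = extend G c :=
  Finsupp.sum_congr fun s hs => by rw [h s hs]

end Extend

section Main

variable {X : Type*}

private theorem cl_tau_nil (vs : List (Set X → ℤ)) : tau vs [] = 0 := by
  cases vs <;> rfl

private theorem cl_tau_cons (v : Set X → ℤ) (vs : List (Set X → ℤ)) (l : List (Set X)) :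
    tau (v :: vs) l = dl (cup (co v) (tau vs)) l := by
  have h : ∀ l, dl (tau vs) l = 0 := by
    induction vs with
    | nil => exact fun l => dl_unit _ l
    | cons w ws ih =>
      intro l
      change dl (cup (ce w) (tau ws)) l = 0
      rw [dl_cup' _ _ rfl (cl_tau_nil ws)]
      have h1 : dl (ce w) = fun _ => 0 := by funext l; exact dl_ce w l
      have h2 : dl (tau ws) = fun _ => 0 := by funext l; exact ih l
      rw [h1, h2, cup_zero_left, cup_zero_right, add_zero]
  change cup (ce v) (tau vs) l = _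
  rw [dl_cup' _ _ rfl (cl_tau_nil vs)]
  have h1 : dl (co v) = ce v := by funext l; exact dl_co v l
  have h2 : dl (tau vs) = fun _ => 0 := by funext l; exact h l
  rw [h1, h2, cup_zero_right, add_zero]

/-- `tau` vanishes if one of the functions is constant -/
private theorem cl_tau_const (vs : List (Set X → ℤ)) {v : Set X → ℤ} (hv : v ∈ vs)
    {s : List (Set X)} {c : ℤ} (hs : ∀ W ∈ s, v W = c) : tau vs s = 0 := by
  induction vs generalizing s with
  | nil => simp at hv
  | cons w ws ih =>
    change cup (ce w) (tau ws) s = 0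
    rcases s with _ | ⟨W, _ | ⟨W', s⟩⟩
    · rfl
    · exact bm_cup_ce_single _ _ _
    · rw [bm_cup_ce]
      rcases List.mem_cons.1 hv with rfl | hv
      · rw [hs W (by simp), hs W' (by simp), sub_self, zero_smul]
      · rw [ih hv fun W'' hW'' => hs W'' (List.mem_cons_of_mem _ hW''), smul_zero]

variable {n : ℕ}

open Classical in
/-- pull-back of a cochain of the nerve to the cube -/
private noncomputable def PB (Φ : List X → OChain (Set X)) (Ψ : (Fin n → unitInterval) → X)
    (e : List (Set X) → ℤ) (l : List (Fin n → unitInterval)) : ℤ :=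
  if l = [] then 0 else extend e (Φ (l.map Ψ))

open Classical in
/-- the vertex function of the coordinate `j` -/
private noncomputable def vj (Ψ : (Fin n → unitInterval) → X) (j : Fin n) (W : Set X) : ℤ :=
  if ∀ y, Ψ y ∈ W → y j ≠ 1 then 0 else 1

end Main

theorem le_of_cube {X : Type*} [TopologicalSpace X] (𝒲 : Set (Set X)) {n : ℕ}
    (Ψ : (Fin n → unitInterval) → X) (hΨ : Continuous Ψ)
    (hW : ∀ W ∈ 𝒲, ∀ j, (∀ y, Ψ y ∈ W → y j ≠ 0) ∨ (∀ y, Ψ y ∈ W → y j ≠ 1)) {d : ℕ}
    (hd : HomOrderLE 𝒲 d) : n ≤ d := by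
  classical
  by_contra hn
  push Not at hn
  obtain ⟨𝒢, Φ, h𝒢, hΦ⟩ := hd
  -- the grid
  obtain ⟨t, m, h0, h1, hsmall⟩ : ∃ (t : ℕ → unitInterval) (m : ℕ), t 0 = 0 ∧ t m = 1 ∧
      ∀ l ∈ cS n t, l ≠ [] → ∃ G ∈ 𝒢, ∀ y ∈ l, Ψ y ∈ G := by
    obtain ⟨δ, hδ, hleb⟩ := lebesgue_number_lemma_of_metric_sUnion
      (s := (univ : Set (Fin n → unitInterval))) (c := (fun G => Ψ ⁻¹' G) '' 𝒢) isCompact_univ
      (by
        rintro _ ⟨G, hG, rfl⟩
        exact (h𝒢.2.1 G hG).preimage hΨ)
      (by
        intro y _
        have : Ψ y ∈ ⋃₀ 𝒢 := by rw [h𝒢.2.2]; exact mem_univ _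
        obtain ⟨G, hG, hy⟩ := mem_sUnion.1 this
        exact mem_sUnion.2 ⟨_, ⟨G, hG, rfl⟩, hy⟩)
    obtain ⟨m, hm⟩ := exists_nat_gt (1 / δ)
    have hm0 : (0 : ℝ) < m := lt_trans (by positivity) hm
    refine ⟨fun g => Set.projIcc 0 1 zero_le_one ((g : ℝ) / m), m, ?_, ?_, ?_⟩
    · simp only [Nat.cast_zero, zero_div]
      exact Set.projIcc_left _
    · simp only [div_self hm0.ne']
      exact Set.projIcc_right _
    · intro l hl hne
      obtain ⟨y0, hy0⟩ := List.exists_mem_of_ne_nil l hne
      obtain ⟨_, ⟨G, hG, rfl⟩, hball⟩ := hleb y0 (mem_univ _)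
      refine ⟨G, hG, fun y hy => hball ?_⟩
      rw [Metric.mem_ball, dist_pi_lt_iff hδ]
      intro i
      obtain ⟨g, hg⟩ := hl i
      have hstep : dist (Set.projIcc (0 : ℝ) 1 zero_le_one ((g : ℝ) / m))
          (Set.projIcc (0 : ℝ) 1 zero_le_one (((g + 1 : ℕ) : ℝ) / m)) < δ := by
        refine lt_of_le_of_lt (b := dist ((g : ℝ) / m) (((g + 1 : ℕ) : ℝ) / m)) ?_ ?_
        · rw [Subtype.dist_eq, Real.dist_eq, Real.dist_eq]
          exact Set.abs_projIcc_sub_projIcc zero_le_one
        · rw [Real.dist_eq]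
          have : (g : ℝ) / m - ((g + 1 : ℕ) : ℝ) / m = - (1 / m) := by
            push_cast
            field_simp
            ring
          rw [this, abs_neg, abs_of_pos (by positivity)]
          rw [div_lt_iff₀ hm0]
          rw [div_lt_iff₀ hδ] at hm
          linarith
      rcases hg y hy with e | e <;> rcases hg y0 hy0 with e' | e'
      · rw [e, e', dist_self]; exact hδ
      · rw [e, e']; exact hstep
      · rw [e, e', dist_comm]; exact hstep
      · rw [e, e', dist_self]; exact hδ
  -- the facts about `Φ`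
  have hΦl : ∀ l ∈ cS n t, l ≠ [] → ∃ G ∈ 𝒢, ∀ y ∈ l.map Ψ, y ∈ G := by
    intro l hl hne
    obtain ⟨G, hG, h⟩ := hsmall l hl hne
    refine ⟨G, hG, fun y hy => ?_⟩
    obtain ⟨y', hy', rfl⟩ := List.mem_map.1 hy
    exact h y' hy'
  have hne' : ∀ l : List (Fin n → unitInterval), l ≠ [] → l.map Ψ ≠ [] := by
    intro l hl h
    exact hl (List.map_eq_nil_iff.1 h)
  -- congruence for the pull-back
  have PB_congr : ∀ l ∈ cS n t, l ≠ [] → ∀ e e' : List (Set X) → ℤ,
      (∀ s : List (Set X), s.length = l.length → (∀ W ∈ s, W ∈ 𝒲 ∧ ∀ y ∈ l, Ψ y ∈ W) →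
        e s = e' s) → PB Φ Ψ e l = PB Φ Ψ e' l := by
    intro l hl hne e e' h
    rw [PB, PB, if_neg hne, if_neg hne]
    refine cl_extend_congr fun s hs => ?_
    obtain ⟨h2, h3⟩ := (hΦ _ (hne' l hne) (hΦl l hl hne)).1 s hs
    refine h s (by rw [h2, List.length_map]) fun W hWs => ⟨(h3 W hWs).1, fun y hy => ?_⟩
    exact (h3 W hWs).2 _ (List.mem_map_of_mem hy)
  have PB_zero : ∀ l, PB Φ Ψ (fun _ => 0) l = 0 := by
    intro l
    rw [PB]
    split_ifs
    · rfl
    · simp [extend]
  -- the pull-back is a chain map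
  have PB_dl : ∀ e : List (Set X) → ℤ, e [] = 0 → ∀ l ∈ cS n t,
      PB Φ Ψ (dl e) l = dl (PB Φ Ψ e) l := by
    intro e he l hl
    by_cases hne : l = []
    · subst hne
      simp [PB]
    · have h2 := (hΦ _ (hne' l hne) (hΦl l hl hne)).2.1
      have h3 : PB Φ Ψ (dl e) l = extend e (extend simplexBoundary (Φ (l.map Ψ))) := by
        rw [PB, if_neg hne, cl_extend_extend]
        refine cl_extend_congr fun s _ => ?_
        rw [extend_boundary e he]
      have h4 : extend e (extend Φ (simplexBoundary (l.map Ψ))) =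
          extend (fun s => if s = [] then 0 else extend e (Φ s)) (simplexBoundary (l.map Ψ)) := by
        rw [cl_extend_extend]
        refine cl_extend_sb_congr (fun s hs => ?_) _
        rw [if_neg hs]
      rw [h3, h2, h4, extend_boundary (fun s => if s = [] then 0 else extend e (Φ s))
        (if_pos rfl), ← dl_comp Ψ]
      congr 1
      funext l'
      rw [PB]
      by_cases h5 : l' = []
      · subst h5
        simp
      · rw [if_neg h5, if_neg (hne' l' h5)]
  -- values of the vertex functions
  have v1 : ∀ j (l : List (Fin n → unitInterval)), l ≠ [] → (∀ y ∈ l, y j = 1) →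
      ∀ W, (∀ y ∈ l, Ψ y ∈ W) → vj Ψ j W = 1 := by
    intro j l hne hl W hW'
    obtain ⟨y, hy⟩ := List.exists_mem_of_ne_nil l hne
    rw [vj, if_neg]
    intro h
    exact h y (hW' y hy) (hl y hy)
  have v0 : ∀ j (l : List (Fin n → unitInterval)), l ≠ [] → (∀ y ∈ l, y j = 0) →
      ∀ W ∈ 𝒲, (∀ y ∈ l, Ψ y ∈ W) → vj Ψ j W = 0 := by
    intro j l hne hl W hWW hW'
    obtain ⟨y, hy⟩ := List.exists_mem_of_ne_nil l hne
    rw [vj, if_pos]
    rcases hW W hWW j with h | h
    · exact absurd (hl y hy) (h y (hW' y hy))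
    · exact h
  have key : ∀ js : List (Fin n), js.Nodup → ∀ y, [y] ∈ cS n t →
      cII t m js (PB Φ Ψ (tau (js.map (vj Ψ)))) [y] = 1 := by
    intro js
    induction js with
    | nil =>
      intro _ y hy
      change PB Φ Ψ (unit 1) [y] = 1
      have h2 := hΦ _ (hne' [y] (by simp)) (hΦl [y] hy (by simp))
      rw [PB, if_neg (by simp)]
      refine Eq.trans (Finsupp.sum_congr fun s hs => ?_) (h2.2.2.1 (by simp))
      have h3 := (h2.1 s hs).1
      rw [List.length_map, List.length_singleton, List.length_eq_one_iff] at h3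
      obtain ⟨W, rfl⟩ := h3
      simp [unit]
    | cons k js ih =>
      intro hnd y hy
      obtain ⟨hk, hnd'⟩ := List.nodup_cons.1 hnd
      obtain ⟨F, hF⟩ : ∃ F, F = PB Φ Ψ (cup (co (vj Ψ k)) (tau (js.map (vj Ψ)))) := ⟨_, rfl⟩
      have e1 : ∀ L ∈ cS n t, cI t m k (PB Φ Ψ (tau ((k :: js).map (vj Ψ)))) L =
          cI t m k (dl F) L := by
        intro L hL
        have h2 := cI_sub t m k (PB Φ Ψ (tau ((k :: js).map (vj Ψ)))) (dl F) L
        rw [cI_zero m k _ hL] at h2
        · exact sub_eq_zero.1 h2.symm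
        · intro L' hL' _ _
          have h3 : tau ((k :: js).map (vj Ψ)) =
              dl (cup (co (vj Ψ k)) (tau (js.map (vj Ψ)))) := by
            funext s
            exact cl_tau_cons _ _ _
          rw [h3, PB_dl _ rfl L' hL', hF, sub_self]
      have e2 : ∀ L ∈ cS n t, cI t m k (dl F) L =
          PB Φ Ψ (tau (js.map (vj Ψ))) (L.map (cu k 1)) - dl (cI t m k F) L := by
        intro L hL
        rw [cI_dl]
        congr 1
        rw [h1, h0]
        cases L with
        | nil => simp [hF, PB]
        | cons z L =>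
          have hm := cS_map hL k m
          have hm0 := cS_map hL k 0
          rw [h1] at hm
          rw [h0] at hm0
          have h3 : F ((z :: L).map (cu k 0)) = 0 := by
            rw [hF, PB_congr _ hm0 (by simp) _ (fun _ => 0), PB_zero]
            intro s hs hsW
            cases s with
            | nil => rfl
            | cons W s =>
              rw [bm_cup_co, v0 k _ (by simp) ?_ W (hsW W (by simp)).1 (hsW W (by simp)).2,
                zero_smul]
              intro y' hy'
              obtain ⟨y'', _, rfl⟩ := List.mem_map.1 hy'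
              exact cu_self _ _ _
          have h4 : F ((z :: L).map (cu k 1)) =
              PB Φ Ψ (tau (js.map (vj Ψ))) ((z :: L).map (cu k 1)) := by
            rw [hF]
            refine PB_congr _ hm (by simp) _ _ ?_
            intro s hs hsW
            cases s with
            | nil => rw [cup_nil, cl_tau_nil]
            | cons W s =>
              rw [bm_cup_co, v1 k _ (by simp) ?_ W (hsW W (by simp)).2, one_smul]
              intro y' hy'
              obtain ⟨y'', _, rfl⟩ := List.mem_map.1 hy'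
              exact cu_self _ _ _
          rw [h3, h4, sub_zero]
      change cII t m js (cI t m k (PB Φ Ψ (tau ((k :: js).map (vj Ψ))))) [y] = 1
      rw [cII_congr m js hy e1, cII_congr m js hy e2, cII_sub, cII_map t m k 1 js hk]
      have e3 : cII t m js (dl (cI t m k F)) [y] = 0 := by
        refine cII_dl_zero h0 h1 js hnd' (cI t m k F) (cI_nil _ _ _ _) ?_ hy
        intro j hj l hl hne hface
        have hjk : j ≠ k := by
          rintro rfl
          exact hk hj
        refine cI_zero m k F hl fun L hL hlen hz => ?_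
        have hLne : L ≠ [] := by
          intro h
          rw [h] at hlen
          simp at hlen
        rw [hF, PB_congr L hL hLne _ (fun _ => 0), PB_zero]
        intro s hs hsW
        cases s with
        | nil => rfl
        | cons W s =>
          rw [bm_cup_co]
          have hvj : vj Ψ j ∈ js.map (vj Ψ) := List.mem_map_of_mem hj
          rcases hface with hf | hf
          · rw [cl_tau_const _ hvj (c := 0), smul_zero]
            intro W' hW'
            refine v0 j L hLne (fun z hz' => ?_) W' (hsW W' hW').1 (hsW W' hW').2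
            obtain ⟨y', hy', e⟩ := hz z hz'
            rw [e j hjk, hf y' hy']
          · rw [cl_tau_const _ hvj (c := 1), smul_zero]
            intro W' hW'
            refine v1 j L hLne (fun z hz' => ?_) W' (hsW W' hW').2
            obtain ⟨y', hy', e⟩ := hz z hz'
            rw [e j hjk, hf y' hy']
      rw [e3, sub_zero]
      have hy1 := cS_map hy k m
      rw [h1] at hy1
      exact ih hnd' (cu k 1 y) hy1
  have hy0 : [fun _ => t 0] ∈ cS n t := by
    intro i
    refine ⟨0, fun y hy => ?_⟩
    rw [List.mem_singleton] at hy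
    subst hy
    exact Or.inl rfl
  have h2 := key (List.finRange n) (List.nodup_finRange n) _ hy0
  rw [cII_zero m (List.finRange n) _ hy0 ?_] at h2
  · exact zero_ne_one h2
  · intro L hL hlen
    rw [List.length_singleton, List.length_finRange] at hlen
    have hLne : L ≠ [] := by
      intro h
      rw [h] at hlen
      simp at hlen
      omega
    rw [PB, if_neg hLne, (hΦ _ (hne' L hLne) (hΦl L hL hLne)).2.2.2 (by
      rw [List.length_map, hlen]; omega)]
    simp [extend]

section Dyn

private theorem cl_pow {X : Type*} [TopologicalSpace X] (h : X ≃ₜ X) (j : ℕ) (x : X) :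
    (h ^ j) x = h^[j] x := by
  induction j generalizing x with
  | zero => rfl
  | succ j ih =>
    rw [pow_succ, Function.iterate_succ]
    exact ih (h x)

private theorem cl_iterCover {X : Type*} [TopologicalSpace X] (h : X ≃ₜ X) {𝒰 : Set (Set X)}
    (h𝒰 : IsFinOpenCover 𝒰) (N : ℕ) : IsFinOpenCover (iterCover h 𝒰 N) := by
  refine ⟨?_, ?_, ?_⟩
  · have hfin : (Set.pi univ fun _ : Fin N => 𝒰).Finite := Set.Finite.pi fun _ => h𝒰.1
    refine (hfin.image fun g => ⋂ j : Fin N, (⇑(h ^ (j : ℕ))) ⁻¹' (g j)).subset ?_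
    rintro _ ⟨g, hg, rfl⟩
    refine ⟨fun j => g j, fun j _ => hg j, ?_⟩
    ext x
    simp only [mem_iInter, Finset.mem_range]
    exact ⟨fun hx j hj => hx ⟨j, hj⟩, fun hx j => hx j j.2⟩
  · rintro _ ⟨g, hg, rfl⟩
    exact isOpen_biInter_finset fun j _ => (h𝒰.2.1 _ (hg j)).preimage (h ^ j).continuous
  · refine eq_univ_of_forall fun x => ?_
    have hx : ∀ j : ℕ, ∃ U ∈ 𝒰, (h ^ j) x ∈ U := fun j => by
      have : (h ^ j) x ∈ ⋃₀ 𝒰 := by rw [h𝒰.2.2]; exact mem_univ _
      exact mem_sUnion.1 this
    choose g hg hgx using hx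
    exact mem_sUnion.2 ⟨_, ⟨g, hg, rfl⟩, mem_iInter₂.2 fun j _ => hgx j⟩

private theorem cl_limsup {a : ℕ → ℕ} {μ : ℝ}
    (ha : ∀ ε > 0, ∀ N₀ : ℕ, ∃ N, N₀ ≤ N ∧ (μ - ε) * N ≤ a N) :
    ENNReal.ofReal μ ≤ limsup (fun N : ℕ => (a N : ℝ≥0∞) / N) atTop := by
  refine ENNReal.le_of_forall_pos_le_add fun ε hε _ => ?_
  have h1 : ENNReal.ofReal μ ≤ ENNReal.ofReal (μ - ε) + ε := by
    have : ENNReal.ofReal μ = ENNReal.ofReal ((μ - ε) + ε) := by congr 1; ring
    rw [this]
    refine ENNReal.ofReal_add_le.trans ?_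
    rw [ENNReal.ofReal_coe_nnreal]
  refine h1.trans (add_le_add_left ?_ _)
  refine le_limsup_of_frequently_le (frequently_atTop.2 fun N₀ => ?_) (by isBoundedDefault)
  obtain ⟨N, hN, h2⟩ := ha ε (NNReal.coe_pos.2 hε) (N₀ + 1)
  refine ⟨N, by omega, ?_⟩
  have hN0 : (N : ℝ≥0∞) ≠ 0 := by
    rw [Nat.cast_ne_zero]
    omega
  rw [ENNReal.le_div_iff_mul_le (Or.inl hN0) (Or.inl (ENNReal.natCast_ne_top N))]
  rw [← ENNReal.ofReal_natCast N, ← ENNReal.ofReal_mul' (Nat.cast_nonneg N),
    ← ENNReal.ofReal_natCast (a N)]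
  exact ENNReal.ofReal_le_ofReal h2

end Dyn

/-- free cubes bound the homological mean dimension from below -/
theorem homMeanDim_ge {X : Type*} [TopologicalSpace X] [CompactSpace X]
    [TopologicalSpace.MetrizableSpace X] {h : X ≃ₜ X} {q : ℕ} {f : X → Fin q → unitInterval}
    (hf : Continuous f) {μ : ℝ} {Λ : Type*} {N : Λ → ℕ} {J : Λ → Finset (ℕ × Fin q)}
    {Ψ : Λ → (ℕ → Fin q → unitInterval) → X} (hJ : ∀ k, ∀ p ∈ J k, p.1 < N k)
    (hΨ : ∀ k, Continuous (Ψ k))
    (hfree : ∀ ε > 0, ∀ N₀ : ℕ, ∃ k, N₀ ≤ N k ∧ (μ - ε) * N k ≤ (J k).card)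
    (hΨJ : ∀ k, ∀ p ∈ J k, ∀ y, f (h^[p.1] (Ψ k y)) p.2 = y p.1 p.2) :
    ENNReal.ofReal μ ≤ homMeanDim h := by
  classical
  -- the cover
  let U : Finset (Fin q) → Set X := fun A => {x | ∀ s, (s ∈ A → f x s ≠ 1) ∧ (s ∉ A → f x s ≠ 0)}
  have hcs : ∀ s, Continuous fun x => f x s := fun s => (continuous_apply s).comp hf
  have h𝒰 : IsFinOpenCover (range U) := by
    refine ⟨Set.finite_range U, ?_, ?_⟩
    · rintro _ ⟨A, rfl⟩
      have : U A = ⋂ s, {x | (s ∈ A → f x s ≠ 1) ∧ (s ∉ A → f x s ≠ 0)} := by
        ext x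
        simp only [U, mem_iInter, mem_ofPred_eq]
      rw [this]
      refine isOpen_iInter_of_finite fun s => ?_
      by_cases hs : s ∈ A
      · simp only [hs, true_imp_iff, not_true_eq_false, false_imp_iff, and_true]
        exact isOpen_ne_fun (hcs s) continuous_const
      · simp only [hs, not_false_eq_true, true_imp_iff, false_imp_iff, true_and]
        exact isOpen_ne_fun (hcs s) continuous_const
    · refine eq_univ_of_forall fun x => mem_sUnion.2 ⟨_, ⟨Finset.univ.filter fun s => f x s ≠ 1,
        rfl⟩, fun s => ⟨fun hs => (Finset.mem_filter.1 hs).2, fun hs h0 => hs ?_⟩⟩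
      rw [Finset.mem_filter, h0]
      exact ⟨Finset.mem_univ _, zero_ne_one⟩
  -- the lower bound for one cube
  letI : MetricSpace X := TopologicalSpace.metrizableSpaceMetric X
  have hle : ∀ k, (J k).card ≤ homOrder (iterCover h (range U) (N k)) := by
    intro k
    have hne : homOrder (iterCover h (range U) (N k)) ∈
        {d | HomOrderLE (iterCover h (range U) (N k)) d} :=
      Nat.sInf_mem ⟨_, homOrderLE_coverDim _ (cl_iterCover h h𝒰 (N k))⟩
    let e := (J k).equivFin
    let ext : (Fin (J k).card → unitInterval) → ℕ → Fin q → unitInterval := fun y j s =>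
      if hp : (j, s) ∈ J k then y (e ⟨(j, s), hp⟩) else 0
    have hext : Continuous ext := by
      refine continuous_pi fun j => continuous_pi fun s => ?_
      by_cases hp : (j, s) ∈ J k
      · simp only [ext, hp, dif_pos]
        exact continuous_apply _
      · simp only [ext, hp, dif_neg, not_false_eq_true]
        exact continuous_const
    refine le_of_cube _ (fun y => Ψ k (ext y)) ((hΨ k).comp hext) ?_ hne
    rintro _ ⟨g, hg, rfl⟩ i
    obtain ⟨⟨⟨j, s⟩, hp⟩, rfl⟩ := e.surjective i
    have hjN : j ∈ Finset.range (N k) := Finset.mem_range.2 (hJ k _ hp)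
    obtain ⟨A, hA⟩ := hg j
    have hval : ∀ y, f (h^[j] (Ψ k (ext y))) s = y (e ⟨(j, s), hp⟩) := by
      intro y
      have h1 := hΨJ k _ hp (ext y)
      simp only [ext, hp, dif_pos] at h1
      exact h1
    have hmem : ∀ y, Ψ k (ext y) ∈ ⋂ j ∈ Finset.range (N k), (⇑(h ^ j)) ⁻¹' (g j) →
        h^[j] (Ψ k (ext y)) ∈ U A := by
      intro y hy
      have h1 := mem_iInter₂.1 hy j hjN
      rw [mem_preimage, cl_pow, ← hA] at h1
      exact h1
    by_cases hs : s ∈ A
    · refine Or.inr fun y hy => ?_
      rw [← hval y]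
      exact (hmem y hy s).1 hs
    · refine Or.inl fun y hy => ?_
      rw [← hval y]
      exact (hmem y hy s).2 hs
  refine (cl_limsup (a := fun N => homOrder (iterCover h (range U) N)) ?_).trans
    (le_iSup (fun 𝒰 : {𝒰 : Set (Set X) // IsFinOpenCover 𝒰} =>
      limsup (fun N : ℕ => (homOrder (iterCover h 𝒰.1 N) : ℝ≥0∞) / N) atTop) ⟨range U, h𝒰⟩)
  intro ε hε N₀
  obtain ⟨k, hk, hk2⟩ := hfree ε hε N₀
  exact ⟨N k, hk, hk2.trans (Nat.cast_le.2 (hle k))⟩

end Vale.Agent.P093.Hom
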