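import Mathlib
import Vale.Agent.P093.MeanDim

/-!
TASK HOM-H5a: counting windows.

Proofs. `count_windows`: the times `i ∈ [a,b)` with `ω (h^i x) ≠ 0` are at pairwise distance `≥ L`.
`count_uncovered`: the windows `[i, i+L)`, `0 ≤ i < N - L`, `ω (h^i x) = 1`, are pairwise disjoint (distance
`≥ L`), contained in `[0,N)`, their number is at least `(1-ε)(N-L)/L - C` (if `N ≥ L`), and no `j` in such a
window is counted (take this `i`). So the count is at most `N - L ((1-ε)(N-L)/L - C) ≤ ε N + L + L |C|`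
(for `0 < ε`; distinguish `ε ≤ 1` and `ε > 1`, in the latter case it is trivial).
-/

open Set

namespace Vale.Agent.P093.Hom

open scoped Classical in
theorem count_windows {X : Type*} [TopologicalSpace X] (h : X ≃ₜ X) {L : ℕ} (hL : 0 < L)
    (ω : C(X, ℝ))
    (hsep : ∀ x (i j : ℤ), i < j → ω ((h ^ i) x) ≠ 0 → ω ((h ^ j) x) ≠ 0 → (L : ℤ) ≤ j - i)
    (x : X) (a b : ℤ) (hab : a ≤ b) :
    (((Finset.Ico a b).filter fun i => ω ((h ^ i) x) ≠ 0).card : ℝ) ≤ (b - a : ℤ) / L + 1 := by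
  have hL' : (0 : ℤ) < L := by exact_mod_cast hL
  set S := (Finset.Ico a b).filter fun i => ω ((h ^ i) x) ≠ 0 with hS
  have hinj : ∀ i ∈ S, ∀ j ∈ S, (i - a) / (L : ℤ) = (j - a) / (L : ℤ) → i = j := by
    have key : ∀ i ∈ S, ∀ j ∈ S, i < j → (i - a) / (L : ℤ) ≠ (j - a) / (L : ℤ) := by
      intro i hi j hj hij heq
      have h1 := hsep x i j hij (Finset.mem_filter.1 hi).2 (Finset.mem_filter.1 hj).2
      have h2 : (i - a + L) / (L : ℤ) ≤ (j - a) / (L : ℤ) := Int.ediv_le_ediv hL' (by omega)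
      rw [Int.add_ediv_of_dvd_right (dvd_refl _), Int.ediv_self hL'.ne'] at h2
      omega
    intro i hi j hj heq
    rcases lt_trichotomy i j with h1 | h1 | h1
    · exact absurd heq (key i hi j hj h1)
    · exact h1
    · exact absurd heq.symm (key j hj i hi h1)
  have hmaps : ∀ i ∈ S, (i - a) / (L : ℤ) ∈ Finset.Ico (0 : ℤ) ((b - a) / (L : ℤ) + 1) := by
    intro i hi
    have h1 := Finset.mem_Ico.1 (Finset.mem_filter.1 hi).1
    rw [Finset.mem_Ico]
    refine ⟨Int.ediv_nonneg (by omega) hL'.le, ?_⟩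
    have h2 : (i - a) / (L : ℤ) ≤ (b - a) / (L : ℤ) := Int.ediv_le_ediv hL' (by omega)
    omega
  have hcard := Finset.card_le_card_of_injOn (fun i => (i - a) / (L : ℤ)) hmaps
    (fun i hi j hj heq => hinj i hi j hj heq)
  rw [Int.card_Ico] at hcard
  have h0 : 0 ≤ (b - a) / (L : ℤ) := Int.ediv_nonneg (by omega) hL'.le
  have h1 : ((b - a) / (L : ℤ)) * L ≤ b - a := Int.ediv_mul_le _ hL'.ne'
  have h2 : ((S.card : ℕ) : ℤ) ≤ (b - a) / (L : ℤ) + 1 := by omega
  have h3 : ((S.card : ℕ) : ℝ) ≤ (((b - a) / (L : ℤ) : ℤ) : ℝ) + 1 := by exact_mod_cast h2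
  have h4 : ((((b - a) / (L : ℤ) : ℤ) : ℝ)) ≤ ((b - a : ℤ) : ℝ) / L := by
    rw [le_div_iff₀ (by exact_mod_cast hL)]
    exact_mod_cast h1
  linarith

open scoped Classical in
theorem count_uncovered {X : Type*} [TopologicalSpace X] (h : X ≃ₜ X) {L : ℕ} (hL : 0 < L)
    (ω : C(X, ℝ))
    (hsep : ∀ x (i j : ℤ), i < j → ω ((h ^ i) x) ≠ 0 → ω ((h ^ j) x) ≠ 0 → (L : ℤ) ≤ j - i)
    {ε : ℝ} (hε : 0 < ε) (hcount : ∃ C : ℝ, ∀ x (N : ℕ), (1 - ε) * N / L - C ≤
        ((Finset.range N).filter fun i : ℕ => ω ((h ^ (i : ℤ)) x) = 1).card) :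
    ∃ C : ℝ, ∀ x (N : ℕ), (((Finset.range N).filter fun j : ℕ =>
      ∀ i : ℤ, (j : ℤ) - L < i → i ≤ j → ω ((h ^ i) x) < 3 / 4).card : ℝ) ≤ ε * N + C := by
  obtain ⟨C, hC⟩ := hcount
  have hL1 : (0 : ℝ) < L := by exact_mod_cast hL
  refine ⟨L + L * |C|, fun x N => ?_⟩
  set U := (Finset.range N).filter fun j : ℕ =>
      ∀ i : ℤ, (j : ℤ) - L < i → i ≤ j → ω ((h ^ i) x) < 3 / 4 with hU
  have habs : 0 ≤ (L : ℝ) * |C| := mul_nonneg hL1.le (abs_nonneg C)
  have hεN : 0 ≤ ε * (N : ℝ) := mul_nonneg hε.le (Nat.cast_nonneg N)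
  have hUN : U.card ≤ N := by
    have := Finset.card_le_card (Finset.filter_subset (fun j : ℕ =>
      ∀ i : ℤ, (j : ℤ) - L < i → i ≤ j → ω ((h ^ i) x) < 3 / 4) (Finset.range N))
    rwa [Finset.card_range] at this
  rcases Nat.lt_or_ge N L with hNL | hNL
  · have h1 : (U.card : ℝ) ≤ N := by exact_mod_cast hUN
    have h2 : (N : ℝ) ≤ L := by exact_mod_cast hNL.le
    linarith
  · set S := (Finset.range (N - L)).filter fun i : ℕ => ω ((h ^ (i : ℤ)) x) = 1 with hS
    have hdist : ∀ i ∈ S, ∀ i' ∈ S, i < i' → L ≤ i' - i := by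
      intro i hi i' hi' hlt
      have h1 := hsep x (i : ℤ) (i' : ℤ) (by exact_mod_cast hlt)
        (by rw [(Finset.mem_filter.1 hi).2]; exact one_ne_zero)
        (by rw [(Finset.mem_filter.1 hi').2]; exact one_ne_zero)
      omega
    have hinj : Set.InjOn (fun q : ℕ × ℕ => q.1 + q.2) (S ×ˢ Finset.range L : Finset (ℕ × ℕ)) := by
      rintro ⟨i, r⟩ hq ⟨i', r'⟩ hq' heq
      have hq1 := Finset.mem_product.1 (Finset.mem_coe.1 hq)
      have hq2 := Finset.mem_product.1 (Finset.mem_coe.1 hq')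
      have hr := Finset.mem_range.1 hq1.2
      have hr' := Finset.mem_range.1 hq2.2
      simp only at heq hr hr'
      rcases lt_trichotomy i i' with hlt | hlt | hlt
      · have := hdist i hq1.1 i' hq2.1 hlt
        omega
      · subst hlt
        have : r = r' := by omega
        rw [this]
      · have := hdist i' hq2.1 i hq1.1 hlt
        omega
    have hsub : (S ×ˢ Finset.range L).image (fun q : ℕ × ℕ => q.1 + q.2) ⊆
        Finset.range N \ U := by
      intro j hj
      obtain ⟨⟨i, r⟩, hq, rfl⟩ := Finset.mem_image.1 hj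
      have hq1 := Finset.mem_product.1 hq
      have hi := Finset.mem_filter.1 hq1.1
      have hi1 := Finset.mem_range.1 hi.1
      have hr := Finset.mem_range.1 hq1.2
      simp only at hi1 hr hi
      rw [Finset.mem_sdiff, Finset.mem_range]
      refine ⟨by simp only; omega, fun hu => ?_⟩
      have h1 := (Finset.mem_filter.1 hu).2 (i : ℤ) (by push_cast; omega) (by push_cast; omega)
      rw [hi.2] at h1
      norm_num at h1
    have hUsub : U ⊆ Finset.range N := Finset.filter_subset _ _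
    have h1 := Finset.card_le_card hsub
    rw [Finset.card_image_of_injOn hinj, Finset.card_product, Finset.card_range,
      Finset.card_sdiff_of_subset hUsub, Finset.card_range] at h1
    have h2 : S.card * L + U.card ≤ N := by omega
    have h3 : (S.card : ℝ) * L + U.card ≤ N := by exact_mod_cast h2
    have h4 := hC x (N - L)
    rw [Nat.cast_sub hNL] at h4
    have h5 : ((1 - ε) * ((N : ℝ) - L) / L - C) * L ≤ (S.card : ℝ) * L :=
      mul_le_mul_of_nonneg_right h4 hL1.le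
    have h6 : ((1 - ε) * ((N : ℝ) - L) / L - C) * L = (1 - ε) * ((N : ℝ) - L) - C * L := by
      rw [sub_mul, div_mul_cancel₀ _ hL1.ne']
    have h7 : C * L ≤ L * |C| := by
      rw [mul_comm]
      exact mul_le_mul_of_nonneg_left (le_abs_self C) hL1.le
    have h8 : 0 ≤ ε * (L : ℝ) := mul_nonneg hε.le hL1.le
    nlinarith

end Vale.Agent.P093.Hom
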