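import Mathlib
import Vale.Agent.P093.Hom.GridDef

/-!
TASK HOM-D4: quasi-periodicity on the grid.

Proofs.
* `wrap` facts for two points of a grid cube (`ℓ ≥ 3`): with `a = y₀.2 c`, `b = y₁.2 c` both in
  `{g, g+1}`: `b.val = a.val + (-1|0|1) - ℓ * wrap a b`, more precisely
  `|b.val/ℓ + wrap a b - a.val/ℓ| ≤ 1/ℓ`.
* `thc_coboundary`: `wrap(1,2) - wrap(0,2) + wrap(0,1) = 0` for three points in a grid cube, so the
  left side is `∑_j Y_j(0,1) (x_j(y₁) - x_j(y₂)) - Y_j(0,1) X_j(1,2)` and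
  `|x_j(y₁) - x_j(y₂) - X_j(1,2)| ≤ 1/ℓ`, `|Y_j| ≤ 1`.
* `qp_close`: let `q̃ j = ph (x_j(y₁) * Y_j(y₀,y₁)) • qq y₁ j`. By `MultiHom`,
  `F x₁ q̃ = ph (thc y₀ y₁) * F x₁ (qq y₁)` (`∏ ph = ph ∑`). And `‖q̃ j - qq y₀ j‖ ≤ 20/ℓ`: no wrap of
  the `y`-coordinate: `b₀, b₁` differ by at most `1/ℓ`, `a₀, a₁` by at most `1/ℓ` modulo 1, `ph` is
  `2π`-Lipschitz and 1-periodic; wrap `+1`: `b₀ = (ℓ-1)/ℓ`, `b₁ = 0`, `q̃ = (ph a₁, 0)`,
  `qq y₀ j = (1/ℓ + (1-1/ℓ) ph a₀, (1-1/ℓ)/ℓ)`; wrap `-1`: `b₀ = 0`, `b₁ = (ℓ-1)/ℓ`,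
  `q̃ = ph (-a₁) (1/ℓ + (1-1/ℓ) ph a₁, (1-1/ℓ)/ℓ)`, `qq y₀ j = (1, 0)`. All `q`'s are in a fixed
  compact ball; `F` is uniformly continuous on `X × ball`.
* `ktf_ne_zero`: if `b ∈ {0,1}` the first entry has absolute value `1`, otherwise the second is
  nonzero. `act` permutes: `qq (act σ y) j = qq y (σ j)`, `thc (act σ y₀) (act σ y₁) = thc y₀ y₁`.
-/

namespace Vale.Agent.P093.Hom

variable {X : Type*} {p ℓ : ℕ}

/-! ### wrap numbers -/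

theorem gc_neg_one_ne_zero (hℓ : 3 ≤ ℓ) : (-1 : ZMod ℓ) ≠ 0 := by
  have : Fact (1 < ℓ) := ⟨by omega⟩
  exact neg_ne_zero.2 one_ne_zero

theorem gc_one_ne_neg_one (hℓ : 3 ≤ ℓ) : (1 : ZMod ℓ) ≠ -1 := by
  intro h
  have h2 : ((2 : ℕ) : ZMod ℓ) = 0 := by
    have h3 : (1 : ZMod ℓ) + 1 = 0 := by
      nth_rewrite 2 [h]
      exact add_neg_cancel 1
    rw [Nat.cast_ofNat, ← one_add_one_eq_two]
    exact h3
  rw [ZMod.natCast_eq_zero_iff] at h2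
  have h4 := Nat.le_of_dvd two_pos h2
  omega

theorem gc_val_neg_one (hℓ : 3 ≤ ℓ) : ((-1 : ZMod ℓ).val : ℝ) = ℓ - 1 := by
  obtain ⟨n, rfl⟩ : ∃ n, ℓ = n + 1 := ⟨ℓ - 1, by omega⟩
  rw [ZMod.val_neg_one]
  push_cast
  ring

theorem gc_val_succ (hℓ : 3 ≤ ℓ) {g : ZMod ℓ} (hg : g ≠ -1) :
    ((g + 1).val : ℝ) = g.val + 1 := by
  have : NeZero ℓ := ⟨by omega⟩
  have h1 : (1 : ZMod ℓ).val = 1 := ZMod.val_one'' (by omega)
  have h2 : g.val + 1 < ℓ := by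
    have h3 := ZMod.val_lt g
    by_contra h4
    apply hg
    have h5 : g.val = ℓ - 1 := by omega
    have h6 : (-1 : ZMod ℓ).val = ℓ - 1 := by
      have h7 := gc_val_neg_one hℓ
      have h8 : (((-1 : ZMod ℓ).val + 1 : ℕ) : ℝ) = (ℓ : ℕ) := by
        push_cast
        linarith
      have h9 := Nat.cast_injective h8
      omega
    exact ZMod.val_injective ℓ (h5.trans h6.symm)
  rw [ZMod.val_add_of_lt (by rw [h1]; exact h2), h1]
  push_cast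
  ring

theorem gc_wrap_zero (hℓ : 3 ≤ ℓ) {g a b : ZMod ℓ} (hg : g ≠ -1) (ha : a = g ∨ a = g + 1)
    (hb : b = g ∨ b = g + 1) : wrap a b = 0 := by
  have key : ∀ x y : ZMod ℓ, (x = g ∨ x = g + 1) → (y = g ∨ y = g + 1) → ¬ (x = -1 ∧ y = 0) := by
    rintro x y hx hy ⟨rfl, rfl⟩
    rcases hy with h | h
    · rcases hx with h1 | h1
      · exact hg h1.symm
      · rw [← h, zero_add] at h1
        exact gc_one_ne_neg_one hℓ h1.symm
    · exact hg (eq_neg_of_add_eq_zero_left h.symm)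
  unfold wrap
  rw [if_neg (key a b ha hb), if_neg fun h => key b a hb ha ⟨h.2, h.1⟩]

theorem gc_wrap_self (hℓ : 3 ≤ ℓ) (a : ZMod ℓ) : wrap a a = 0 := by
  unfold wrap
  rw [if_neg fun h => gc_neg_one_ne_zero hℓ (h.1.symm.trans h.2),
    if_neg fun h => gc_neg_one_ne_zero hℓ (h.2.symm.trans h.1)]

theorem gc_wrap_one (ℓ : ℕ) : wrap (-1 : ZMod ℓ) 0 = 1 := by
  unfold wrap
  rw [if_pos ⟨rfl, rfl⟩]

theorem gc_wrap_neg_one (hℓ : 3 ≤ ℓ) : wrap (0 : ZMod ℓ) (-1) = -1 := by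
  unfold wrap
  rw [if_neg fun h => gc_neg_one_ne_zero hℓ h.2, if_pos ⟨rfl, rfl⟩]

/-- the wrap numbers in a grid cube are differences -/
theorem gc_wrap_diff (hℓ : 3 ≤ ℓ) (g : ZMod ℓ) : ∃ φ : ZMod ℓ → ℤ, ∀ a b : ZMod ℓ,
    (a = g ∨ a = g + 1) → (b = g ∨ b = g + 1) → wrap a b = φ b - φ a := by
  by_cases hg : g = -1
  · subst hg
    have h0 := gc_neg_one_ne_zero hℓ
    refine ⟨fun x => if x = 0 then 1 else 0, ?_⟩
    rintro a b ha hb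
    rw [neg_add_cancel] at ha hb
    show wrap a b = (if b = 0 then 1 else 0) - (if a = 0 then 1 else 0)
    rcases ha with rfl | rfl <;> rcases hb with rfl | rfl
    · rw [gc_wrap_self hℓ, sub_self]
    · rw [gc_wrap_one, if_pos rfl, if_neg h0, sub_zero]
    · rw [gc_wrap_neg_one hℓ, if_neg h0, if_pos rfl, zero_sub]
    · rw [gc_wrap_self hℓ, sub_self]
  · exact ⟨fun _ => 0, fun a b ha hb => by rw [gc_wrap_zero hℓ hg ha hb, sub_self]⟩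

theorem gc_wrap_close (hℓ : 3 ≤ ℓ) {g a b : ZMod ℓ} (ha : a = g ∨ a = g + 1)
    (hb : b = g ∨ b = g + 1) :
    |(b.val : ℝ) / ℓ + wrap a b - (a.val : ℝ) / ℓ| ≤ 1 / ℓ := by
  have hp : (0 : ℝ) < ℓ := by
    have h : 0 < ℓ := by omega
    exact_mod_cast h
  have hpos : (0 : ℝ) ≤ 1 / ℓ := by positivity
  by_cases hg : g = -1
  · subst hg
    rw [neg_add_cancel] at ha hb
    rcases ha with rfl | rfl <;> rcases hb with rfl | rfl
    · rw [gc_wrap_self hℓ, Int.cast_zero, add_zero, sub_self, abs_zero]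
      exact hpos
    · rw [gc_wrap_one, ZMod.val_zero, gc_val_neg_one hℓ, Nat.cast_zero, zero_div, Int.cast_one,
        zero_add, show (1 : ℝ) - (ℓ - 1) / ℓ = 1 / ℓ by field_simp; ring, abs_of_nonneg hpos]
    · rw [gc_wrap_neg_one hℓ, ZMod.val_zero, gc_val_neg_one hℓ, Nat.cast_zero, zero_div,
        Int.cast_neg, Int.cast_one, sub_zero,
        show ((ℓ : ℝ) - 1) / ℓ + -1 = -(1 / ℓ) by field_simp; ring, abs_neg, abs_of_nonneg hpos]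
    · rw [gc_wrap_self hℓ, Int.cast_zero, add_zero, sub_self, abs_zero]
      exact hpos
  · rw [gc_wrap_zero hℓ hg ha hb, Int.cast_zero, add_zero]
    have h1 := gc_val_succ hℓ hg
    rcases ha with rfl | rfl <;> rcases hb with rfl | rfl
    · rw [sub_self, abs_zero]
      exact hpos
    · rw [h1, show ((a.val : ℝ) + 1) / ℓ - a.val / ℓ = 1 / ℓ by ring, abs_of_nonneg hpos]
    · rw [h1, show (b.val : ℝ) / ℓ - ((b.val : ℝ) + 1) / ℓ = -(1 / ℓ) by ring, abs_neg,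
        abs_of_nonneg hpos]
    · rw [sub_self, abs_zero]
      exact hpos

theorem gc_wrap_cases (a b : ZMod ℓ) :
    wrap a b = 0 ∨ (a = -1 ∧ b = 0 ∧ wrap a b = 1) ∨ (a = 0 ∧ b = -1 ∧ wrap a b = -1) := by
  unfold wrap
  by_cases h1 : a = -1 ∧ b = 0
  · rw [if_pos h1]
    exact Or.inr (Or.inl ⟨h1.1, h1.2, rfl⟩)
  · rw [if_neg h1]
    by_cases h2 : a = 0 ∧ b = -1
    · rw [if_pos h2]
      exact Or.inr (Or.inr ⟨h2.1, h2.2, rfl⟩)
    · rw [if_neg h2]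
      exact Or.inl rfl

theorem gc_abs_wrap (a b : ZMod ℓ) : |(wrap a b : ℝ)| ≤ 1 := by
  rcases gc_wrap_cases a b with h | ⟨-, -, h⟩ | ⟨-, -, h⟩ <;> rw [h] <;> norm_num

theorem gc_tc (y₀ y₁ y₂ : YY X p ℓ) : tc [y₀, y₁, y₂] = ∑ j : Fin p,
    wrap (y₀.2 (j, false)) (y₁.2 (j, false)) * wrap (y₁.2 (j, true)) (y₂.2 (j, true)) := by
  unfold tc
  refine Finset.sum_congr rfl fun j _ => ?_
  rw [cup_cons, cup_cons, cup_cons, cup_nil]
  show (0 : ℤ) • (0 : ℤ) + (wrap (y₀.2 (j, false)) (y₁.2 (j, false)) •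
    wrap (y₁.2 (j, true)) (y₂.2 (j, true)) + ((0 : ℤ) • (0 : ℤ) + 0)) = _
  simp

theorem thc_coboundary (hℓ : 3 ≤ ℓ) (y₀ y₁ y₂ : YY X p ℓ) (h : GridSmall [y₀, y₁, y₂]) :
    |thc y₁ y₂ - thc y₀ y₂ + thc y₀ y₁ - tc [y₀, y₁, y₂]| ≤ p / ℓ := by
  obtain ⟨g, hg⟩ := h
  have h0 := hg y₀ (by simp)
  have h1 := hg y₁ (by simp)
  have h2 := hg y₂ (by simp)
  have key : thc y₁ y₂ - thc y₀ y₂ + thc y₀ y₁ - tc [y₀, y₁, y₂] =
      ∑ j : Fin p, -((wrap (y₀.2 (j, false)) (y₁.2 (j, false)) : ℝ) *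
        (xc y₂ (j, true) + wrap (y₁.2 (j, true)) (y₂.2 (j, true)) - xc y₁ (j, true))) := by
    rw [gc_tc, thc, thc, thc, Int.cast_sum, ← Finset.sum_sub_distrib, ← Finset.sum_add_distrib,
      ← Finset.sum_sub_distrib]
    refine Finset.sum_congr rfl fun j _ => ?_
    obtain ⟨φ, hφ⟩ := gc_wrap_diff hℓ (g (j, false))
    rw [hφ _ _ (h0 _) (h1 _), hφ _ _ (h0 _) (h2 _), hφ _ _ (h1 _) (h2 _)]
    push_cast
    ring
  rw [key]
  refine (Finset.abs_sum_le_sum_abs _ _).trans ?_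
  have h3 : ∀ j ∈ (Finset.univ : Finset (Fin p)),
      |-((wrap (y₀.2 (j, false)) (y₁.2 (j, false)) : ℝ) *
        (xc y₂ (j, true) + wrap (y₁.2 (j, true)) (y₂.2 (j, true)) - xc y₁ (j, true)))| ≤
      1 / (ℓ : ℝ) := by
    intro j _
    rw [abs_neg, abs_mul]
    have h4 := gc_wrap_close hℓ (h1 (j, true)) (h2 (j, true))
    have h5 := gc_abs_wrap (y₀.2 (j, false)) (y₁.2 (j, false))
    calc _ ≤ 1 * (1 / (ℓ : ℝ)) := mul_le_mul h5 h4 (abs_nonneg _) zero_le_one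
      _ = 1 / (ℓ : ℝ) := one_mul _
  refine (Finset.sum_le_sum h3).trans (le_of_eq ?_)
  rw [Finset.sum_const, Finset.card_univ, Fintype.card_fin, nsmul_eq_mul, mul_one_div]

theorem thc_act (σ : Equiv.Perm (Fin p)) (y₀ y₁ : YY X p ℓ) :
    thc (act σ y₀) (act σ y₁) = thc y₀ y₁ :=
  Equiv.sum_comp σ fun j : Fin p =>
    xc y₁ (j, true) * (wrap (y₀.2 (j, false)) (y₁.2 (j, false)) : ℝ)

theorem qq_act (σ : Equiv.Perm (Fin p)) (y : YY X p ℓ) (j : Fin p) :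
    qq (act σ y) j = qq y (σ j) := rfl

theorem gc_xc_mem (hℓ : 3 ≤ ℓ) (y : YY X p ℓ) (c : Crd p) : xc y c ∈ Set.Icc (0 : ℝ) 1 := by
  have : NeZero ℓ := ⟨by omega⟩
  have hp : (0 : ℝ) < ℓ := by
    have h : 0 < ℓ := by omega
    exact_mod_cast h
  unfold xc
  refine ⟨by positivity, ?_⟩
  rw [div_le_one hp]
  exact_mod_cast (ZMod.val_lt (y.2 c)).le

/-- the values of `qq` lie in the image of the unit square -/
theorem qq_mem (hℓ : 3 ≤ ℓ) (y : YY X p ℓ) (j : Fin p) :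
    ∃ a ∈ Set.Icc (0 : ℝ) 1, ∃ b ∈ Set.Icc (0 : ℝ) 1, qq y j = ktf a b :=
  ⟨_, gc_xc_mem hℓ y _, _, gc_xc_mem hℓ y _, rfl⟩

/-! ### phases -/

theorem gc_ph_add (x y : ℝ) : ph (x + y) = ph x * ph y := by
  unfold ph
  rw [← Complex.exp_add]
  congr 1
  push_cast
  ring

theorem gc_ph_int (n : ℤ) : ph n = 1 := by
  unfold ph
  rw [show (2 * (Real.pi : ℂ) * ((n : ℝ) : ℂ) * Complex.I) = n * (2 * Real.pi * Complex.I) by
    push_cast
    ring]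
  exact Complex.exp_int_mul_two_pi_mul_I n

theorem gc_ph_zero : ph 0 = 1 := by
  have h := gc_ph_int 0
  rwa [Int.cast_zero] at h

theorem gc_norm_ph (x : ℝ) : ‖ph x‖ = 1 := by
  unfold ph
  rw [show (2 * (Real.pi : ℂ) * (x : ℂ) * Complex.I) = ((2 * Real.pi * x : ℝ) : ℂ) * Complex.I by
    push_cast
    ring]
  exact Complex.norm_exp_ofReal_mul_I _

theorem gc_ph_sub_one (x : ℝ) : ‖ph x - 1‖ ≤ 7 * |x| := by
  have h1 : ph x = Complex.exp (Complex.I * ((2 * Real.pi * x : ℝ) : ℂ)) := by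
    unfold ph
    congr 1
    push_cast
    ring
  rw [h1]
  refine Real.norm_exp_I_mul_ofReal_sub_one_le.trans ?_
  rw [Real.norm_eq_abs, abs_mul, abs_of_pos Real.two_pi_pos]
  have h2 := Real.pi_lt_d2
  have h3 := abs_nonneg x
  nlinarith

theorem gc_ph_close {x y t : ℝ} {n : ℤ} (h : |x + n - y| ≤ t) : ‖ph x - ph y‖ ≤ 7 * t := by
  have h1 : ph x = ph (x + n - y) * ph y := by
    rw [← gc_ph_add, sub_add_cancel, gc_ph_add, gc_ph_int, mul_one]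
  rw [h1, show ph (x + n - y) * ph y - ph y = (ph (x + n - y) - 1) * ph y by ring, norm_mul,
    gc_norm_ph, mul_one]
  exact (gc_ph_sub_one _).trans (by linarith)

theorem ktf_ne_zero {a b : ℝ} (ha : a ∈ Set.Icc (0 : ℝ) 1) (hb : b ∈ Set.Icc (0 : ℝ) 1) :
    ktf a b ≠ 0 := by
  intro h
  have h0 : ((1 - b : ℝ) : ℂ) + b * ph a = 0 := congrFun h 0
  have h1 : ((b * (1 - b) : ℝ) : ℂ) = 0 := congrFun h 1
  rw [Complex.ofReal_eq_zero, mul_eq_zero] at h1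
  rcases h1 with h1 | h1
  · rw [h1] at h0
    norm_num at h0
  · have h2 : b = 1 := by linarith
    rw [h2] at h0
    have h3 : ph a = 0 := by
      rw [sub_self, Complex.ofReal_zero, zero_add, Complex.ofReal_one, one_mul] at h0
      exact h0
    have h4 := gc_norm_ph a
    rw [h3, norm_zero] at h4
    exact zero_ne_one h4

theorem gc_ph_continuous : Continuous ph := by
  unfold ph
  fun_prop

theorem ktf_continuous : Continuous fun z : ℝ × ℝ => ktf z.1 z.2 := by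
  have h := gc_ph_continuous
  refine continuous_pi fun i => ?_
  fin_cases i
  · show Continuous fun z : ℝ × ℝ => ((1 - z.2 : ℝ) : ℂ) + z.2 * ph z.1
    fun_prop
  · show Continuous fun z : ℝ × ℝ => ((z.2 * (1 - z.2) : ℝ) : ℂ)
    fun_prop

theorem gc_norm_ktf {a b : ℝ} (hb : b ∈ Set.Icc (0 : ℝ) 1) (i : Fin 2) : ‖ktf a b i‖ ≤ 1 := by
  obtain ⟨h0, h1⟩ := hb
  fin_cases i
  · show ‖((1 - b : ℝ) : ℂ) + b * ph a‖ ≤ 1
    refine (norm_add_le _ _).trans ?_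
    rw [norm_mul, gc_norm_ph, mul_one, Complex.norm_real, Complex.norm_real, Real.norm_eq_abs,
      Real.norm_eq_abs, abs_of_nonneg h0, abs_of_nonneg (sub_nonneg.2 h1)]
    linarith
  · show ‖((b * (1 - b) : ℝ) : ℂ)‖ ≤ 1
    rw [Complex.norm_real, Real.norm_eq_abs, abs_of_nonneg (mul_nonneg h0 (sub_nonneg.2 h1))]
    nlinarith

/-- The values of `q̃` and `qq` are close. -/
theorem gc_entry (hℓ : 3 ≤ ℓ) {y₀ y₁ : YY X p ℓ} (h : GridSmall [y₀, y₁]) (j : Fin p)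
    (e : Fin 2) :
    ‖ph (xc y₁ (j, true) * wrap (y₀.2 (j, false)) (y₁.2 (j, false))) * qq y₁ j e - qq y₀ j e‖ ≤
      9 / ℓ := by
  obtain ⟨g, hg⟩ := h
  have h0 := hg y₀ (by simp)
  have h1 := hg y₁ (by simp)
  have hp : (0 : ℝ) < ℓ := by
    have h : 0 < ℓ := by omega
    exact_mod_cast h
  obtain ⟨t, ht⟩ : ∃ t : ℝ, t = 1 / ℓ := ⟨_, rfl⟩
  have ht0 : 0 < t := by rw [ht]; positivity
  have ht1 : t ≤ 1 := by
    rw [ht, div_le_one hp]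
    have h : 1 ≤ ℓ := by omega
    exact_mod_cast h
  have h9 : (9 : ℝ) / ℓ = 9 * t := by rw [ht]; ring
  have hlt : ((ℓ : ℝ) - 1) / ℓ = 1 - t := by rw [ht]; field_simp
  have hph := gc_ph_close (gc_wrap_close hℓ (h0 (j, true)) (h1 (j, true)))
  change ‖ph (xc y₁ (j, true)) - ph (xc y₀ (j, true))‖ ≤ 7 * (1 / (ℓ : ℝ)) at hph
  rw [← ht] at hph
  have hb := gc_wrap_close hℓ (h0 (j, false)) (h1 (j, false))
  change |xc y₁ (j, false) + (wrap (y₀.2 (j, false)) (y₁.2 (j, false)) : ℝ) - xc y₀ (j, false)| ≤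
    1 / (ℓ : ℝ) at hb
  rw [← ht] at hb
  have hb0 := gc_xc_mem hℓ y₀ (j, false)
  have hb1 := gc_xc_mem hℓ y₁ (j, false)
  rw [h9]
  unfold qq
  obtain ⟨a₀, ha₀⟩ : ∃ x, x = xc y₀ (j, true) := ⟨_, rfl⟩
  obtain ⟨a₁, ha₁⟩ : ∃ x, x = xc y₁ (j, true) := ⟨_, rfl⟩
  obtain ⟨b₀, hb₀⟩ : ∃ x, x = xc y₀ (j, false) := ⟨_, rfl⟩
  obtain ⟨b₁, hb₁⟩ : ∃ x, x = xc y₁ (j, false) := ⟨_, rfl⟩
  rw [← ha₀, ← ha₁] at hph
  rw [← hb₀, ← hb₁] at hb
  rw [← hb₀] at hb0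
  rw [← hb₁] at hb1
  rw [← ha₀, ← ha₁, ← hb₀, ← hb₁]
  have hn1 : ‖(1 : ℂ) - ph a₁‖ ≤ 2 := by
    refine (norm_sub_le _ _).trans ?_
    rw [norm_one, gc_norm_ph]
    norm_num
  have hn0 : ‖ph a₀ - (1 : ℂ)‖ ≤ 2 := by
    refine (norm_sub_le _ _).trans ?_
    rw [norm_one, gc_norm_ph]
    norm_num
  rcases gc_wrap_cases (y₀.2 (j, false)) (y₁.2 (j, false)) with hw | ⟨hw0, hw1, hw⟩ |
    ⟨hw0, hw1, hw⟩
  · rw [hw, Int.cast_zero, add_zero] at hb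
    rw [hw, Int.cast_zero, mul_zero, gc_ph_zero, one_mul]
    fin_cases e
    · show ‖((1 - b₁ : ℝ) : ℂ) + b₁ * ph a₁ - (((1 - b₀ : ℝ) : ℂ) + b₀ * ph a₀)‖ ≤ 9 * t
      have h2 : ((1 - b₁ : ℝ) : ℂ) + b₁ * ph a₁ - (((1 - b₀ : ℝ) : ℂ) + b₀ * ph a₀) =
          -(((b₁ - b₀ : ℝ) : ℂ) * (1 - ph a₁)) + b₀ * (ph a₁ - ph a₀) := by
        push_cast
        ring
      rw [h2]
      refine (norm_add_le _ _).trans ?_
      rw [norm_neg, norm_mul, norm_mul, Complex.norm_real, Complex.norm_real, Real.norm_eq_abs,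
        Real.norm_eq_abs, abs_of_nonneg hb0.1]
      have h3 : |b₁ - b₀| * ‖(1 : ℂ) - ph a₁‖ ≤ t * 2 :=
        mul_le_mul hb hn1 (norm_nonneg _) ht0.le
      have h4 : b₀ * ‖ph a₁ - ph a₀‖ ≤ 1 * (7 * t) :=
        mul_le_mul hb0.2 hph (norm_nonneg _) zero_le_one
      linarith
    · show ‖((b₁ * (1 - b₁) : ℝ) : ℂ) - ((b₀ * (1 - b₀) : ℝ) : ℂ)‖ ≤ 9 * t
      rw [← Complex.ofReal_sub, Complex.norm_real, Real.norm_eq_abs,
        show b₁ * (1 - b₁) - b₀ * (1 - b₀) = (b₁ - b₀) * (1 - b₁ - b₀) by ring, abs_mul]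
      have h3 : |1 - b₁ - b₀| ≤ 1 := by
        rw [abs_le]
        constructor
        · linarith [hb0.2, hb1.2]
        · linarith [hb0.1, hb1.1]
      have h4 : |b₁ - b₀| * |1 - b₁ - b₀| ≤ t * 1 := mul_le_mul hb h3 (abs_nonneg _) ht0.le
      linarith
  · have hb0' : b₀ = 1 - t := by
      rw [hb₀, ← hlt]
      unfold xc
      rw [hw0, gc_val_neg_one hℓ]
    have hb1' : b₁ = 0 := by
      rw [hb₁]
      unfold xc
      rw [hw1, ZMod.val_zero, Nat.cast_zero, zero_div]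
    rw [hw, hb0', hb1', Int.cast_one, mul_one]
    fin_cases e
    · show ‖ph a₁ * (((1 - 0 : ℝ) : ℂ) + ((0 : ℝ) : ℂ) * ph a₁) -
        (((1 - (1 - t) : ℝ) : ℂ) + ((1 - t : ℝ) : ℂ) * ph a₀)‖ ≤ 9 * t
      have h2 : ph a₁ * (((1 - 0 : ℝ) : ℂ) + ((0 : ℝ) : ℂ) * ph a₁) -
          (((1 - (1 - t) : ℝ) : ℂ) + ((1 - t : ℝ) : ℂ) * ph a₀) =
          (ph a₁ - ph a₀) + (t : ℂ) * (ph a₀ - 1) := by
        push_cast
        ring
      rw [h2]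
      refine (norm_add_le _ _).trans ?_
      rw [norm_mul, Complex.norm_real, Real.norm_eq_abs, abs_of_pos ht0]
      have h3 : t * ‖ph a₀ - 1‖ ≤ t * 2 := mul_le_mul_of_nonneg_left hn0 ht0.le
      linarith
    · show ‖ph a₁ * ((0 * (1 - 0) : ℝ) : ℂ) - (((1 - t) * (1 - (1 - t)) : ℝ) : ℂ)‖ ≤ 9 * t
      rw [zero_mul, Complex.ofReal_zero, mul_zero, zero_sub, norm_neg, Complex.norm_real,
        Real.norm_eq_abs, abs_of_nonneg (by nlinarith)]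
      nlinarith
  · have hb0' : b₀ = 0 := by
      rw [hb₀]
      unfold xc
      rw [hw0, ZMod.val_zero, Nat.cast_zero, zero_div]
    have hb1' : b₁ = 1 - t := by
      rw [hb₁, ← hlt]
      unfold xc
      rw [hw1, gc_val_neg_one hℓ]
    rw [hw, hb0', hb1']
    have h3 : ph (a₁ * ((-1 : ℤ) : ℝ)) * ph a₁ = 1 := by
      rw [← gc_ph_add, Int.cast_neg, Int.cast_one, mul_neg, mul_one, neg_add_cancel, gc_ph_zero]
    fin_cases e
    · show ‖ph (a₁ * ((-1 : ℤ) : ℝ)) * (((1 - (1 - t) : ℝ) : ℂ) + ((1 - t : ℝ) : ℂ) * ph a₁) -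
        (((1 - 0 : ℝ) : ℂ) + ((0 : ℝ) : ℂ) * ph a₀)‖ ≤ 9 * t
      have h2 : ph (a₁ * ((-1 : ℤ) : ℝ)) *
          (((1 - (1 - t) : ℝ) : ℂ) + ((1 - t : ℝ) : ℂ) * ph a₁) -
          (((1 - 0 : ℝ) : ℂ) + ((0 : ℝ) : ℂ) * ph a₀) =
          (t : ℂ) * (ph (a₁ * ((-1 : ℤ) : ℝ)) - 1) := by
        have h4 : ph (a₁ * ((-1 : ℤ) : ℝ)) * (((1 - t : ℝ) : ℂ) * ph a₁) = ((1 - t : ℝ) : ℂ) := by
          rw [mul_left_comm, h3, mul_one]
        rw [mul_add, h4]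
        push_cast
        ring
      rw [h2, norm_mul, Complex.norm_real, Real.norm_eq_abs, abs_of_pos ht0]
      have h5 : ‖ph (a₁ * ((-1 : ℤ) : ℝ)) - 1‖ ≤ 2 := by
        refine (norm_sub_le _ _).trans ?_
        rw [norm_one, gc_norm_ph]
        norm_num
      have h6 := mul_le_mul_of_nonneg_left h5 ht0.le
      linarith
    · show ‖ph (a₁ * ((-1 : ℤ) : ℝ)) * (((1 - t) * (1 - (1 - t)) : ℝ) : ℂ) -
        ((0 * (1 - 0) : ℝ) : ℂ)‖ ≤ 9 * t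
      rw [zero_mul, Complex.ofReal_zero, sub_zero, norm_mul, gc_norm_ph, one_mul,
        Complex.norm_real, Real.norm_eq_abs, abs_of_nonneg (by nlinarith)]
      nlinarith

theorem qp_close {X : Type*} [MetricSpace X] [CompactSpace X]
    (F : X → (Fin p → Fin 2 → ℂ) → ℂ)
    (hF : Continuous fun z : X × (Fin p → Fin 2 → ℂ) => F z.1 z.2) (hom : ∀ x, MultiHom (F x))
    {ε : ℝ} (hε : 0 < ε) : ∃ δ > 0, ∃ ℓ₀ : ℕ, ∀ ℓ ≥ ℓ₀, ∀ y₀ y₁ : YY X p ℓ,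
      dist y₀.1 y₁.1 < δ → GridSmall [y₀, y₁] →
        ‖F y₁.1 (qq y₁) * ph (thc y₀ y₁) - F y₀.1 (qq y₀)‖ ≤ ε := by
  have hK : IsCompact ((Set.univ : Set X) ×ˢ
      (Metric.closedBall (0 : Fin p → Fin 2 → ℂ) 1)) :=
    isCompact_univ.prod (isCompact_closedBall _ _)
  have hu := hK.uniformContinuousOn_of_continuous hF.continuousOn
  rw [Metric.uniformContinuousOn_iff] at hu
  obtain ⟨δ, hδ, hδF⟩ := hu ε hε
  obtain ⟨n, hn⟩ := exists_nat_gt (9 / δ)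
  refine ⟨δ, hδ, max 3 n, fun ℓ hℓ y₀ y₁ hy hg => ?_⟩
  have hℓ3 : 3 ≤ ℓ := (le_max_left _ _).trans hℓ
  have hℓn : n ≤ ℓ := (le_max_right _ _).trans hℓ
  have hp : (0 : ℝ) < ℓ := by
    have h : 0 < ℓ := by omega
    exact_mod_cast h
  have h9 : 9 / (ℓ : ℝ) < δ := by
    rw [div_lt_iff₀ hp, mul_comm, ← div_lt_iff₀ hδ]
    exact hn.trans_le (by exact_mod_cast hℓn)
  obtain ⟨c, hc⟩ : ∃ c : Fin p → ℂ, c = fun j =>
    ph (xc y₁ (j, true) * wrap (y₀.2 (j, false)) (y₁.2 (j, false))) := ⟨_, rfl⟩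
  have hcn : ∀ j, ‖c j‖ = 1 := by
    intro j
    rw [hc]
    exact gc_norm_ph _
  have hprod : ∏ j, c j = ph (thc y₀ y₁) := by
    have h1 : ∀ (s : Finset (Fin p)) (f : Fin p → ℝ), ∏ j ∈ s, ph (f j) = ph (∑ j ∈ s, f j) := by
      intro s f
      classical
      induction s using Finset.induction_on with
      | empty => rw [Finset.prod_empty, Finset.sum_empty, gc_ph_zero]
      | insert a s ha ih => rw [Finset.prod_insert ha, Finset.sum_insert ha, ih, gc_ph_add]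
    rw [hc, h1]
    rfl
  have hF1 : F y₁.1 (fun j e => c j * qq y₁ j e) = ph (thc y₀ y₁) * F y₁.1 (qq y₁) := by
    rw [hom y₁.1, hprod]
  have hmem : ∀ y : YY X p ℓ, qq y ∈ Metric.closedBall (0 : Fin p → Fin 2 → ℂ) 1 := by
    intro y
    rw [mem_closedBall_zero_iff, pi_norm_le_iff_of_nonneg zero_le_one]
    intro j
    rw [pi_norm_le_iff_of_nonneg zero_le_one]
    intro e
    exact gc_norm_ktf (gc_xc_mem hℓ3 y _) e
  have hmem' : (fun j e => c j * qq y₁ j e) ∈ Metric.closedBall (0 : Fin p → Fin 2 → ℂ) 1 := by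
    rw [mem_closedBall_zero_iff, pi_norm_le_iff_of_nonneg zero_le_one]
    intro j
    rw [pi_norm_le_iff_of_nonneg zero_le_one]
    intro e
    rw [norm_mul, hcn, one_mul]
    exact gc_norm_ktf (gc_xc_mem hℓ3 y₁ _) e
  have hd : dist (fun j e => c j * qq y₁ j e) (qq y₀) ≤ 9 / ℓ := by
    have h0 : (0 : ℝ) ≤ 9 / ℓ := by positivity
    rw [dist_pi_le_iff h0]
    intro j
    rw [dist_pi_le_iff h0]
    intro e
    rw [dist_eq_norm, hc]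
    exact gc_entry hℓ3 hg j e
  have h1 := hδF (y₁.1, fun j e => c j * qq y₁ j e) ⟨Set.mem_univ _, hmem'⟩ (y₀.1, qq y₀)
    ⟨Set.mem_univ _, hmem y₀⟩ (by
      rw [Prod.dist_eq]
      refine max_lt ?_ (hd.trans_lt h9)
      rw [dist_comm]
      exact hy)
  rw [mul_comm, ← hF1, ← dist_eq_norm]
  exact h1.le

end Vale.Agent.P093.Hom
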