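import Mathlib
import Vale.Agent.P093.Hom.GroupDef

/-!
TASK HOM-B1: one step of the group push, and its iteration.

Proof of `step`. Write `HA = Hv A` etc., `F = rad A B C - ρ`, `a = aco t A B C`,
`c = cup a (cz (Hv F))` (i.e. `a ∪ (1 - HF)`), `τ₃ = ce HA ∪ ce HB ∪ ce HC`.
* `dl (cz v) = - ce v`, `dl (ce v) = 0`, so `dl (om A B C) = - τ₃` everywhere, and
  `dl a = - τ₃` on `S` since `dl t = 0` on `S`.
* `τ₃ ∪ co HF = 0` on `S`: a nonzero term on `l ∈ S` has an edge where `Hv A` changes, so `|A| ≤ η`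
  at an end of this edge, hence `|A| ≤ 2η` at all vertices of `l`, same for `B`, `C`, so
  `rad ≤ √12 η < 4η < ρ` and `HF = 0` at all vertices.
* Leibniz: `dl c = dl a ∪ cz HF + a ∪ dl (cz HF) = - τ₃ ∪ cz HF - a ∪ ce HF
  = - τ₃ - a ∪ ce HF` on `S` (as `τ₃ ∪ cz HF = τ₃ ∪ (unit 1 - co HF) = τ₃`). So
  `τ₃ = - dl c - a ∪ ce HF` on `S`.
* multiply by `R` (`dl R = 0` on `S`): `τ₃ ∪ R = - dl (c ∪ R) - a ∪ ce HF ∪ R`.
* multiply by `P` from the left: `dl (P ∪ (c ∪ R)) = dl P ∪ (c ∪ R) + P ∪ dl (c ∪ R)`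
  (`sg P = P`), and `dl P ∪ (c ∪ R) = 0` on `S`: if a vertex of `l` has `F < 0` then `|A| < ρ`
  there and `|A| ≤ ρ + η ≤ 2ρ` at all vertices of `l`, so `dl P = 0` on all sublists of `l`; if no
  vertex of `l` has `F < 0` then `cz HF = 0` and `c = 0` on all sublists of `l`.
(Everything on `S`: use `dl_congr`, `cup_congr`, `Hered`; for a single `l ∈ S` the class of all
sublists of `l` is also hereditary.)

Proof of `levels`. `nF f ρ l` varies by at most `(2 l + 1) η` on `S` (for `l ≤ κ`). Let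
`R_l = tau` of the list `Hv (f (2l+1)), …, Hv (f (2κ))`, so that
`R_l = cup (ce (Hv (f (2l+1)))) (cup (ce (Hv (f (2l+2)))) R_{l+1})`, `dl R_l = 0`, and
`Q_l = cup (ce (Hv (nF f ρ l))) R_l`. Apply `step` with `A = nF f ρ l`, `B = f (2l+1)`,
`C = f (2l+2)`, `ρ = ρ l`, `P = PL t f ρ l`, `R = R_{l+1}`:
`P_l ∪ Q_l = - dl (P_l ∪ (c_l ∪ R_{l+1})) - P_{l+1} ∪ Q_{l+1}` on `S`.
The hypothesis `hP` of `step`: on a tuple `l' ∈ S` with `|nF l| ≤ 2 ρ_l` at all vertices every
`aL t f ρ i`, `i < l`, is closed (on its sublists): `dl (a_i) = - τ₃(i)` is nonzero only on tuples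
where `|nF i|, |f (2i+1)|, |f (2i+2)| ≤ 2 (2i+2) η` at all vertices, there
`nF (i+1) ≤ 4 (2i+2) η - ρ_i ≤ - ρ_i / 2`, while `|nF (i+1)| ≤ |nF (i+2)| + ρ_{i+1} ≤ … ≤
|nF l| + ρ_{i+1} + … + ρ_{l-1} ≤ 2 ρ_l + ρ_{i+1} + … ≤ ρ_i / 3` (use `ρ_{k+1} ≤ ρ_k / 8`).
(For `i = l - 1`: `|nF l| ≤ 2 ρ_l ≤ ρ_{l-1}/4`.)
Sum up from `l = 0` (`P_0 ∪ Q_0 = tau (gvs f κ)`) to `l = κ` (`R_κ = unit 1`,
`cup f (unit 1) = f` on nonempty lists). `C = ∑ ± P_l ∪ (c_l ∪ R_{l+1})`; at a tuple in `S` where
this term is nonzero some vertex has `nF (l+1) < 0`, so `|nF l|, |f (2l+1)|, |f (2l+2)| ≤ ρ_l` there,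
`|f k| ≤ η` at some vertex for `k ≥ 2l+3`, and going down
`|nF i|, |f (2i+1)|, |f (2i+2)| ≤ |nF (i+1)| + ρ_i` for `i < l`: all `|f k| ≤ 2 ρ_0 ≤ 1/16`
at that vertex, hence `≤ 1/16 + 2η ≤ 1/8` at all vertices. The last claim of `levels` (invariance of
`C` under a map `σ` of `Y` which preserves all the data) is clear from the explicit formula
(`cup_comp`).
-/

namespace Vale.Agent.P093.Hom

variable {Y : Type*}

/-! ### supports -/

theorem gs_dl_len {F : List Y → ℤ} {n : ℕ} (h : ∀ l, F l ≠ 0 → l.length = n) (l : List Y)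
    (h0 : dl F l ≠ 0) : l.length = n + 1 := by
  induction l generalizing F n with
  | nil => exact absurd rfl h0
  | cons y l ih =>
    rw [dl_cons] at h0
    by_cases h1 : F l = 0
    · have h2 : dl (fun l' => F (y :: l')) l ≠ 0 := by
        intro h3
        rw [h1, h3] at h0
        exact h0 (sub_zero 0)
      cases n with
      | zero =>
        have h3 : (fun l' => F (y :: l')) = fun _ => 0 := by
          funext l'
          by_contra h4
          have := h _ h4
          simp at this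
        rw [h3, dl_zero] at h2
        exact absurd rfl h2
      | succ n =>
        have := ih (F := fun l' => F (y :: l')) (n := n)
          (fun l' hl' => by simpa using h _ hl') h2
        simp [this]
    · simp [h l h1]

theorem gs_cup_len {f G : List Y → ℤ} {m n : ℕ} (hf : ∀ l, f l ≠ 0 → l.length = m)
    (hG : ∀ l, G l ≠ 0 → l.length = n) (l : List Y) (h0 : cup f G l ≠ 0) :
    l.length + 1 = m + n := by
  induction l generalizing f m with
  | nil => exact absurd rfl h0
  | cons y l ih =>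
    rw [cup_cons] at h0
    by_cases h1 : cup (fun l' => f (y :: l')) G l = 0
    · rw [h1, add_zero, smul_eq_mul] at h0
      have h2 := hf _ (left_ne_zero_of_mul h0)
      have h3 := hG _ (right_ne_zero_of_mul h0)
      simp only [List.length_cons, List.length_nil] at h2 h3 ⊢
      omega
    · cases m with
      | zero =>
        exfalso
        have h3 : (fun l' => f (y :: l')) = fun _ => 0 := by
          funext l'
          by_contra h4
          have := hf _ h4
          simp at this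
        rw [h3, cup_zero_left] at h1
        exact h1 rfl
      | succ m =>
        have := ih (f := fun l' => f (y :: l')) (m := m)
          (fun l' hl' => by simpa using hf _ hl') h1
        simp only [List.length_cons]
        omega

theorem gs_cup_ne {f G : List Y → ℤ} (l : List Y) (h0 : cup f G l ≠ 0) :
    ∃ l₁ l₂, l₁.Sublist l ∧ l₂.Sublist l ∧ f l₁ ≠ 0 ∧ G l₂ ≠ 0 := by
  induction l generalizing f with
  | nil => exact absurd rfl h0
  | cons y l ih =>
    rw [cup_cons] at h0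
    by_cases h1 : cup (fun l' => f (y :: l')) G l = 0
    · rw [h1, add_zero, smul_eq_mul] at h0
      exact ⟨[y], y :: l, by simp, List.Sublist.refl _, left_ne_zero_of_mul h0,
        right_ne_zero_of_mul h0⟩
    · obtain ⟨l₁, l₂, h2, h3, h4, h5⟩ := ih (f := fun l' => f (y :: l')) h1
      exact ⟨y :: l₁, l₂, h2.cons_cons y, h3.cons y, h4, h5⟩

theorem gs_ce_ne {v : Y → ℤ} {l : List Y} (h : ce v l ≠ 0) :
    ∃ y y', l = [y, y'] ∧ v y ≠ v y' := by
  match l, h with
  | [], h => exact absurd rfl h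
  | [_], h => exact absurd rfl h
  | [y, y'], h =>
    refine ⟨y, y', rfl, fun e => h ?_⟩
    show v y' - v y = 0
    rw [e, sub_self]
  | _ :: _ :: _ :: _, h => exact absurd rfl h

theorem gs_sign {g : Y → ℝ} {y y' : Y} {η : ℝ} (h : Hv g y ≠ Hv g y') (hη : |g y - g y'| ≤ η) :
    |g y| ≤ η ∧ |g y'| ≤ η := by
  have h2 := abs_le.1 hη
  by_cases h3 : 0 ≤ g y <;> by_cases h4 : 0 ≤ g y'
  · rw [Hv_pos h3, Hv_pos h4] at h
    exact absurd rfl h
  · push Not at h4
    constructor <;> rw [abs_le] <;> constructor <;> linarith [h2.1, h2.2]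
  · push Not at h3
    constructor <;> rw [abs_le] <;> constructor <;> linarith [h2.1, h2.2]
  · push Not at h3 h4
    rw [Hv_neg h3, Hv_neg h4] at h
    exact absurd rfl h

/-- a sign change on a tuple -/
theorem gs_edge {S : Set (List Y)} {g : Y → ℝ} {η : ℝ} (hg : Vary S g η) {l l' : List Y}
    (hl : l ∈ S) (hl' : l'.Sublist l) (h : ce (Hv g) l' ≠ 0) : ∃ y ∈ l, |g y| ≤ η := by
  obtain ⟨y, y', rfl, h1⟩ := gs_ce_ne h
  have hy : y ∈ l := hl'.subset (by simp)
  have hy' : y' ∈ l := hl'.subset (by simp)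
  exact ⟨y, hy, (gs_sign h1 (hg l hl y hy y' hy')).1⟩

theorem gs_edge_all {S : Set (List Y)} {g : Y → ℝ} {η : ℝ} (hg : Vary S g η) {l l' : List Y}
    (hl : l ∈ S) (hl' : l'.Sublist l) (h : ce (Hv g) l' ≠ 0) {z : Y} (hz : z ∈ l) :
    |g z| ≤ 2 * η := by
  obtain ⟨y, hy, h1⟩ := gs_edge hg hl hl' h
  have h2 := hg l hl z hz y hy
  have h3 : |g z| ≤ |g z - g y| + |g y| := by
    have := abs_add_le (g z - g y) (g y)
    simpa using this
  linarith

/-! ### the cochains `cz`, `ce`, `om` -/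

theorem gs_dl_cz (v : Y → ℤ) (l : List Y) : dl (cz v) l = - ce v l := by
  match l with
  | [] => rfl
  | [y] => simp [dl_singleton, cz, ce]
  | [y, y'] => simp [dl_pair, cz, ce]
  | y :: y' :: y'' :: l =>
    have h1 : dl (cz v) (y :: y' :: y'' :: l) = 0 := by
      by_contra h
      have := gs_dl_len (n := 1) (F := cz v) (fun l hl => by
        match l, hl with
        | [], hl => exact absurd rfl hl
        | [y], _ => rfl
        | _ :: _ :: _, hl => exact absurd rfl hl) _ h
      simp at this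
    rw [h1]
    rfl

theorem gs_dl_ce (v : Y → ℤ) (l : List Y) : dl (ce v) l = 0 := by
  have h : ce v = fun l => - dl (cz v) l := by
    funext l
    rw [gs_dl_cz, neg_neg]
  rw [h, dl_neg, dl_dl, neg_zero]

theorem gs_dl_om (A B C : Y → ℝ) (l : List Y) :
    dl (om A B C) l = - cup (ce (Hv A)) (cup (ce (Hv B)) (ce (Hv C))) l := by
  have h1 : ∀ l, dl (cup (ce (Hv B)) (ce (Hv C))) l = 0 := by
    intro l
    rw [dl_cup' _ _ rfl rfl]
    have h2 : dl (ce (Hv B)) = fun _ => 0 := by funext l; exact gs_dl_ce _ _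
    have h3 : dl (ce (Hv C)) = fun _ => 0 := by funext l; exact gs_dl_ce _ _
    rw [h2, h3, cup_zero_left, cup_zero_right, add_zero]
  have h2 : dl (cup (ce (Hv B)) (ce (Hv C))) = fun _ => 0 := by funext l; exact h1 l
  have h3 : dl (cz (Hv A)) = fun l => - ce (Hv A) l := by funext l; exact gs_dl_cz _ _
  unfold om
  rw [dl_cup' _ _ rfl rfl, h2, h3, cup_zero_right, cup_neg_left, add_zero]

theorem gs_cz_len (v : Y → ℤ) (l : List Y) (hl : cz v l ≠ 0) : l.length = 1 := by
  match l, hl with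
  | [], hl => exact absurd rfl hl
  | [y], _ => rfl
  | _ :: _ :: _, hl => exact absurd rfl hl

theorem gs_ce_len (v : Y → ℤ) (l : List Y) (hl : ce v l ≠ 0) : l.length = 2 := by
  obtain ⟨y, y', rfl, -⟩ := gs_ce_ne hl
  rfl

theorem gs_om_len (A B C : Y → ℝ) (l : List Y) (hl : om A B C l ≠ 0) : l.length = 3 := by
  have h1 := gs_cup_len (gs_cz_len (Hv A)) (n := 3) (G := cup (ce (Hv B)) (ce (Hv C)))
    (fun l hl => by
      have := gs_cup_len (gs_ce_len (Hv B)) (gs_ce_len (Hv C)) l hl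
      omega) l hl
  omega

theorem gs_unit_len (l : List Y) (hl : unit (1 : ℤ) l ≠ 0) : l.length = 1 := by
  match l, hl with
  | [], hl => exact absurd rfl hl
  | [y], _ => rfl
  | _ :: _ :: _, hl => exact absurd rfl hl

theorem gs_dl_unit (l : List Y) : dl (unit (1 : ℤ)) l = 0 := by
  match l with
  | [] => rfl
  | [y] => simp [dl_singleton, unit]
  | [y, y'] => simp [dl_pair, unit]
  | y :: y' :: y'' :: l =>
    by_contra h
    have := gs_dl_len gs_unit_len _ h
    simp at this

theorem gs_sg_odd {F : List Y → ℤ} {m : ℕ} (h : ∀ l, F l ≠ 0 → l.length = 2 * m + 1)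
    (l : List Y) : sg F l = F l := by
  by_cases h0 : F l = 0
  · simp [sg, h0]
  · have h1 : l.length + 1 = 2 * (m + 1) := by rw [h l h0]; ring
    rw [sg, h1, pow_mul]
    simp

/-! ### the radial functions -/

theorem gs_rad_le {a b c a' b' c' : ℝ} :
    Real.sqrt (a ^ 2 + b ^ 2 + c ^ 2) ≤
      Real.sqrt (a' ^ 2 + b' ^ 2 + c' ^ 2) + (|a - a'| + |b - b'| + |c - c'|) := by
  set r := Real.sqrt (a' ^ 2 + b' ^ 2 + c' ^ 2) with hr
  have hr0 : 0 ≤ r := Real.sqrt_nonneg _
  have hr2 : r ^ 2 = a' ^ 2 + b' ^ 2 + c' ^ 2 := Real.sq_sqrt (by positivity)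
  have ha : |a'| ≤ r := Real.abs_le_sqrt (by nlinarith [sq_nonneg b', sq_nonneg c'])
  have hb : |b'| ≤ r := Real.abs_le_sqrt (by nlinarith [sq_nonneg a', sq_nonneg c'])
  have hc : |c'| ≤ r := Real.abs_le_sqrt (by nlinarith [sq_nonneg b', sq_nonneg a'])
  rw [Real.sqrt_le_left (by positivity)]
  have key : ∀ x x' : ℝ, |x'| ≤ r → x ^ 2 ≤ x' ^ 2 + 2 * r * |x - x'| + |x - x'| ^ 2 := by
    intro x x' hx
    have h1 : x ^ 2 = x' ^ 2 + 2 * x' * (x - x') + (x - x') ^ 2 := by ring
    have h2 : x' * (x - x') ≤ r * |x - x'| := by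
      calc x' * (x - x') ≤ |x' * (x - x')| := le_abs_self _
        _ = |x'| * |x - x'| := abs_mul _ _
        _ ≤ r * |x - x'| := mul_le_mul_of_nonneg_right hx (abs_nonneg _)
    rw [h1, sq_abs]
    linarith
  have h1 := key a a' ha
  have h2 := key b b' hb
  have h3 := key c c' hc
  have p1 := mul_nonneg (abs_nonneg (a - a')) (abs_nonneg (b - b'))
  have p2 := mul_nonneg (abs_nonneg (a - a')) (abs_nonneg (c - c'))
  have p3 := mul_nonneg (abs_nonneg (b - b')) (abs_nonneg (c - c'))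
  nlinarith

theorem gs_le_rad (A B C : Y → ℝ) (y : Y) :
    |A y| ≤ rad A B C y ∧ |B y| ≤ rad A B C y ∧ |C y| ≤ rad A B C y := by
  refine ⟨Real.abs_le_sqrt ?_, Real.abs_le_sqrt ?_, Real.abs_le_sqrt ?_⟩ <;>
    nlinarith [sq_nonneg (A y), sq_nonneg (B y), sq_nonneg (C y)]

theorem gs_rad_sum (A B C : Y → ℝ) (y : Y) : rad A B C y ≤ |A y| + |B y| + |C y| := by
  have h := gs_rad_le (a := A y) (b := B y) (c := C y) (a' := 0) (b' := 0) (c' := 0)
  simpa [rad] using h

theorem gs_vary_rad {S : Set (List Y)} {A B C : Y → ℝ} {α β γ ρ : ℝ} (hA : Vary S A α)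
    (hB : Vary S B β) (hC : Vary S C γ) :
    Vary S (fun y => rad A B C y - ρ) (α + β + γ) := by
  intro l hl y hy y' hy'
  have h1 := hA l hl y hy y' hy'
  have h2 := hB l hl y hy y' hy'
  have h3 := hC l hl y hy y' hy'
  have e1 := gs_rad_le (a := A y) (b := B y) (c := C y) (a' := A y') (b' := B y') (c' := C y')
  have e2 := gs_rad_le (a := A y') (b := B y') (c := C y') (a' := A y) (b' := B y) (c' := C y)
  rw [abs_sub_comm (A y'), abs_sub_comm (B y'), abs_sub_comm (C y')] at e2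
  simp only [rad]
  rw [abs_le]
  constructor <;> linarith

section

variable {f : ℕ → Y → ℝ} {ρ : ℕ → ℝ} {κ : ℕ} {η : ℝ}

theorem gs_nF_vary {S : Set (List Y)} (hf : ∀ k ≤ 2 * κ, Vary S (f k) η) (i : ℕ) (hi : i ≤ κ) :
    Vary S (nF f ρ i) ((2 * i + 1) * η) := by
  induction i with
  | zero => simpa [nF] using hf 0 (by omega)
  | succ i ih =>
    have h := gs_vary_rad (ρ := ρ i) (ih (by omega)) (hf (2 * i + 1) (by omega))
      (hf (2 * i + 2) (by omega))
    have e : (2 * ((i + 1 : ℕ) : ℝ) + 1) * η = (2 * (i : ℝ) + 1) * η + η + η := by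
      push_cast; ring
    rw [e]
    exact h

theorem gs_nF_step (y : Y) (i : ℕ) :
    |nF f ρ i y| ≤ nF f ρ (i + 1) y + ρ i ∧ |f (2 * i + 1) y| ≤ nF f ρ (i + 1) y + ρ i ∧
      |f (2 * i + 2) y| ≤ nF f ρ (i + 1) y + ρ i := by
  have h := gs_le_rad (nF f ρ i) (f (2 * i + 1)) (f (2 * i + 2)) y
  have e : nF f ρ (i + 1) y + ρ i = rad (nF f ρ i) (f (2 * i + 1)) (f (2 * i + 2)) y := by
    simp only [nF]; ring
  rw [e]
  exact h

theorem gs_nF_down (hη : 0 < η) (hρ8 : ∀ l, ρ (l + 1) ≤ ρ l / 8)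
    (hρη : ∀ l < κ, 100 * (κ + 1) * η ≤ ρ l) (y : Y) (m : ℕ) (hm : m ≤ κ) (j : ℕ) (i : ℕ)
    (hij : i + (j + 1) = m) : |nF f ρ i y| ≤ nF f ρ m y + 8 / 7 * ρ i := by
  have hpos : ∀ l < κ, 0 ≤ ρ l := fun l hl => le_trans (by positivity) (hρη l hl)
  induction j generalizing i with
  | zero =>
    have h1 := (gs_nF_step (f := f) (ρ := ρ) y i).1
    have h2 : i + 1 = m := by omega
    rw [h2] at h1
    have h4 := hpos i (by omega)
    linarith
  | succ j ih =>
    have h1 := (gs_nF_step (f := f) (ρ := ρ) y i).1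
    have h2 := ih (i + 1) (by omega)
    have h3 := le_abs_self (nF f ρ (i + 1) y)
    have h4 := hρ8 i
    linarith

theorem gs_rho_mono (hη : 0 < η) (hρ8 : ∀ l, ρ (l + 1) ≤ ρ l / 8)
    (hρη : ∀ l < κ, 100 * (κ + 1) * η ≤ ρ l) (i j : ℕ) (hij : i + j < κ) : ρ (i + j) ≤ ρ i := by
  induction j with
  | zero => exact le_rfl
  | succ j ih =>
    have h1 := ih (by omega)
    have h2 := hρ8 (i + j)
    have h3 : 0 ≤ ρ (i + j) := le_trans (by positivity) (hρη (i + j) (by omega))
    have h4 : i + (j + 1) = i + j + 1 := by omega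
    rw [h4]
    linarith

end

/-- `unit 1` is a right unit -/
theorem gs_cup_unit (F : List Y → ℤ) (l : List Y) (h : l ≠ []) : cup F (unit (1 : ℤ)) l = F l := by
  induction l generalizing F with
  | nil => exact absurd rfl h
  | cons y l ih =>
    rw [cup_cons]
    cases l with
    | nil => simp [unit]
    | cons y' l =>
      rw [ih (fun l' => F (y :: l')) (by simp)]
      simp [unit]

theorem gs_unit_cup (F : List Y → ℤ) (l : List Y) (h : l ≠ []) : cup (unit (1 : ℤ)) F l = F l := by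
  cases l with
  | nil => exact absurd rfl h
  | cons y l =>
    rw [cup_cons]
    cases l with
    | nil => simp [unit]
    | cons y' l =>
      have h2 : ∀ (l₀ : List Y), cup (fun l' => unit (1 : ℤ) (y :: l')) F l₀ = 0 := by
        intro l₀
        have h3 : ∀ (l₀ : List Y) (g : List Y → ℤ), (∀ l', l' ≠ [] → g l' = 0) →
            cup g F l₀ = 0 := by
          intro l₀
          induction l₀ with
          | nil => intro g _; rfl
          | cons z l₀ ih =>
            intro g hg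
            rw [cup_cons, hg [z] (by simp), zero_smul, zero_add]
            exact ih _ fun l' _ => hg _ (by simp)
        refine h3 l₀ _ fun l' hl' => ?_
        cases l' with
        | nil => exact absurd rfl hl'
        | cons _ _ => rfl
      rw [h2, add_zero]
      simp [unit]

theorem step {S : Set (List Y)} (hS : Hered S) {A B C : Y → ℝ} {ρ η : ℝ} (hη : 0 ≤ η)
    (hρ : 4 * η < ρ) (hA : Vary S A η) (hB : Vary S B η) (hC : Vary S C η)
    {t : List Y → ℤ} (ht0 : ∀ l, t l ≠ 0 → l.length = 3) (ht : ∀ l ∈ S, dl t l = 0)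
    {R : List Y → ℤ} (hR0 : R [] = 0) (hR : ∀ l ∈ S, dl R l = 0)
    {P : List Y → ℤ} (hP0 : ∀ l, P l ≠ 0 → Odd l.length)
    (hP : ∀ l ∈ S, (∀ y ∈ l, |A y| ≤ 2 * ρ) → dl P l = 0) :
    ∀ l ∈ S, cup P (cup (ce (Hv A)) (cup (ce (Hv B)) (cup (ce (Hv C)) R))) l =
      - dl (cup P (cup (cup (aco t A B C) (cz (Hv fun y => rad A B C y - ρ))) R)) l -
        cup P (cup (aco t A B C) (cup (ce (Hv fun y => rad A B C y - ρ)) R)) l := by
  intro l hl
  have ha : ∀ l, aco t A B C l ≠ 0 → l.length = 3 := by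
    intro l h
    by_cases h1 : t l = 0
    · refine gs_om_len A B C l (fun h2 => h ?_)
      show t l + om A B C l = 0
      rw [h1, h2, add_zero]
    · exact ht0 l h1
  have ha0 : aco t A B C [] = 0 := by
    by_contra h
    have := ha [] h
    simp at this
  set F : Y → ℝ := fun y => rad A B C y - ρ with hF
  set τ : List Y → ℤ := cup (ce (Hv A)) (cup (ce (Hv B)) (ce (Hv C))) with hτ
  set c : List Y → ℤ := cup (aco t A B C) (cz (Hv F)) with hc
  have hT : Hered {l' : List Y | l'.Sublist l} := fun l₁ h1 l₂ h2 => h2.trans h1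
  have hlT : l ∈ {l' : List Y | l'.Sublist l} := List.Sublist.refl l
  -- `τ₃ ∪ cz HF = τ₃`
  have h1 : ∀ l ∈ S, cup τ (cz (Hv F)) l = τ l := by
    intro l hl
    have hT : Hered {l' : List Y | l'.Sublist l} := fun l₁ h1 l₂ h2 => h2.trans h1
    have hlT : l ∈ {l' : List Y | l'.Sublist l} := List.Sublist.refl l
    by_cases h2 : ∃ l', l'.Sublist l ∧ τ l' ≠ 0
    · obtain ⟨l', h2, h3⟩ := h2
      obtain ⟨l₁, l₂, h4, h5, h6, h7⟩ := gs_cup_ne l' h3
      obtain ⟨l₃, l₄, h8, h9, h10, h11⟩ := gs_cup_ne l₂ h7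
      have hz : ∀ z ∈ l, Hv F z = 0 := by
        intro z hz
        have k1 := gs_edge_all hA hl (h4.trans h2) h6 hz
        have k2 := gs_edge_all hB hl (h8.trans (h5.trans h2)) h10 hz
        have k3 := gs_edge_all hC hl (h9.trans (h5.trans h2)) h11 hz
        apply Hv_neg
        have k4 : rad A B C z < ρ := by
          refine lt_of_le_of_lt ?_ hρ
          unfold rad
          rw [Real.sqrt_le_left (by positivity)]
          have k5 := abs_le.1 k1
          have k6 := abs_le.1 k2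
          have k7 := abs_le.1 k3
          have k8 : (A z) ^ 2 ≤ (2 * η) ^ 2 := sq_le_sq' k5.1 k5.2
          have k9 : (B z) ^ 2 ≤ (2 * η) ^ 2 := sq_le_sq' k6.1 k6.2
          have k10 : (C z) ^ 2 ≤ (2 * η) ^ 2 := sq_le_sq' k7.1 k7.2
          nlinarith [sq_nonneg η]
        show rad A B C z - ρ < 0
        linarith
      have hl0 : l ≠ [] := by
        rintro rfl
        rw [List.sublist_nil] at h2
        subst h2
        exact h3 rfl
      rw [cup_congr hT (f := τ) (g := τ) (F := cz (Hv F)) (G := unit 1) (fun _ _ => rfl) ?_ hlT]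
      · exact gs_cup_unit τ l hl0
      · intro l'' hl''
        match l'', hl'' with
        | [], _ => rfl
        | [y], hl'' =>
          show 1 - Hv F y = 1
          rw [hz y (List.Sublist.subset hl'' (by simp)), sub_zero]
        | _ :: _ :: _, _ => rfl
    · push Not at h2
      rw [h2 l (List.Sublist.refl l), cup_congr hT (f := τ) (g := fun _ => 0) (F := cz (Hv F))
        (G := cz (Hv F)) h2 (fun _ _ => rfl) hlT, cup_zero_left]
  -- `dl c`
  have h2 : ∀ l ∈ S, dl c l = - τ l - cup (aco t A B C) (ce (Hv F)) l := by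
    intro l hl
    have e1 : ∀ l ∈ S, dl (aco t A B C) l = - τ l := by
      intro l hl
      have e0 : aco t A B C = fun l => t l + om A B C l := rfl
      rw [e0, dl_add, ht l hl, gs_dl_om, zero_add]
    have e2 : sg (aco t A B C) = aco t A B C := by
      funext l
      exact gs_sg_odd (m := 1) ha l
    have e3 : dl (cz (Hv F)) = fun l => - ce (Hv F) l := by
      funext l
      exact gs_dl_cz _ _
    rw [hc, dl_cup' _ _ ha0 rfl, e2, e3, cup_neg_right,
      cup_congr hS (f := dl (aco t A B C)) (g := fun l => - τ l) (F := cz (Hv F))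
      (G := cz (Hv F)) e1 (fun _ _ => rfl) hl, cup_neg_left, h1 l hl]
    ring
  -- `dl (c ∪ R)`
  have h3 : ∀ l ∈ S, dl (cup c R) l = - cup τ R l - cup (aco t A B C) (cup (ce (Hv F)) R) l := by
    intro l hl
    rw [dl_cup' c R rfl hR0,
      cup_congr hS (f := dl c) (g := fun l => - τ l - cup (aco t A B C) (ce (Hv F)) l) (F := R)
      (G := R) h2 (fun _ _ => rfl) hl,
      cup_congr hS (f := sg c) (g := sg c) (F := dl R) (G := fun _ => 0) (fun _ _ => rfl) hR hl,
      cup_zero_right, cup_sub_left (fun l => - τ l), cup_neg_left,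
      cup_assoc (aco t A B C) (ce (Hv F)) R, add_zero]
  -- `dl P ∪ (c ∪ R) = 0`
  have h4 : cup (dl P) (cup c R) l = 0 := by
    by_cases h5 : ∃ z ∈ l, F z < 0
    · obtain ⟨z, hz, h6⟩ := h5
      have h7 : ∀ y ∈ l, |A y| ≤ 2 * ρ := by
        intro y hy
        have k1 := hA l hl y hy z hz
        have k2 := (gs_le_rad A B C z).1
        have k3 : |A y| ≤ |A y - A z| + |A z| := by
          have := abs_add_le (A y - A z) (A z)
          simpa using this
        have k4 : rad A B C z - ρ < 0 := h6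
        linarith
      rw [cup_congr hT (f := dl P) (g := fun _ => 0) (F := cup c R) (G := cup c R) ?_
        (fun _ _ => rfl) hlT, cup_zero_left]
      intro l' hl'
      exact hP l' (hS l hl l' hl') fun y hy => h7 y (List.Sublist.subset hl' hy)
    · push Not at h5
      have h6 : ∀ l' ∈ {l' : List Y | l'.Sublist l}, cz (Hv F) l' = 0 := by
        intro l' hl'
        match l', hl' with
        | [], _ => rfl
        | [y], hl' =>
          show 1 - Hv F y = 0
          rw [Hv_pos (h5 y (List.Sublist.subset hl' (by simp))), sub_self]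
        | _ :: _ :: _, _ => rfl
      have h7 : ∀ l' ∈ {l' : List Y | l'.Sublist l}, c l' = 0 := by
        intro l' hl'
        rw [hc, cup_congr hT (f := aco t A B C) (g := aco t A B C) (F := cz (Hv F))
          (G := fun _ => 0) (fun _ _ => rfl) h6 hl', cup_zero_right]
      have h8 : ∀ l' ∈ {l' : List Y | l'.Sublist l}, cup c R l' = 0 := by
        intro l' hl'
        rw [cup_congr hT (f := c) (g := fun _ => 0) (F := R) (G := R) h7 (fun _ _ => rfl) hl',
          cup_zero_left]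
      rw [cup_congr hT (f := dl P) (g := dl P) (F := cup c R) (G := fun _ => 0)
        (fun _ _ => rfl) h8 hlT, cup_zero_right]
  have hPn : P [] = 0 := by
    by_contra h
    have := hP0 [] h
    simp at this
  have hsP : sg P = P := by
    funext l
    by_cases h0 : P l = 0
    · simp [sg, h0]
    · have h1 : Even (l.length + 1) := (hP0 l h0).add_one
      rw [sg, h1.neg_one_pow, one_smul]
  have h5 : dl (cup P (cup c R)) l =
      - cup P (cup τ R) l - cup P (cup (aco t A B C) (cup (ce (Hv F)) R)) l := by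
    rw [dl_cup' P _ hPn rfl, h4, zero_add, hsP,
      cup_congr hS (f := P) (g := P) (F := dl (cup c R))
      (G := fun l => - cup τ R l - cup (aco t A B C) (cup (ce (Hv F)) R) l)
      (fun _ _ => rfl) h3 hl, cup_sub_right P (fun l => - cup τ R l), cup_neg_right]
  have h6 : cup τ R = cup (ce (Hv A)) (cup (ce (Hv B)) (cup (ce (Hv C)) R)) := by
    funext l
    have e1 : cup (cup (ce (Hv B)) (ce (Hv C))) R = cup (ce (Hv B)) (cup (ce (Hv C)) R) := by
      funext l
      exact cup_assoc _ _ _ _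
    rw [hτ, cup_assoc, e1]
  rw [h5, ← h6]
  ring

/-- `δH(f_{2l+1}) ∪ … ∪ δH(f_{2l+2m})` -/
noncomputable def gsR (f : ℕ → Y → ℝ) : ℕ → ℕ → List Y → ℤ
  | _, 0 => unit 1
  | l, m + 1 => cup (ce (Hv (f (2 * l + 1)))) (cup (ce (Hv (f (2 * l + 2)))) (gsR f (l + 1) m))

theorem gsR_eq (f : ℕ → Y → ℝ) (m : ℕ) (l : ℕ) :
    gsR f l m = tau ((List.range' (2 * l + 1) (2 * m)).map fun k => Hv (f k)) := by
  induction m generalizing l with
  | zero => rfl
  | succ m ih =>
    have h : List.range' (2 * l + 1) (2 * (m + 1)) =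
        (2 * l + 1) :: (2 * l + 2) :: List.range' (2 * (l + 1) + 1) (2 * m) := by
      rw [show 2 * (m + 1) = 2 * m + 1 + 1 by ring, List.range'_succ, List.range'_succ]
      rfl
    rw [h]
    simp only [List.map_cons, tau, gsR, ih]

theorem gsR_nil (f : ℕ → Y → ℝ) (m : ℕ) (l : ℕ) : gsR f l m [] = 0 := by
  cases m with
  | zero => rfl
  | succ m => rfl

theorem gsR_len (f : ℕ → Y → ℝ) (m : ℕ) (l : ℕ) (L : List Y) (h : gsR f l m L ≠ 0) :
    L.length = 2 * m + 1 := by
  induction m generalizing l L with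
  | zero => simpa using gs_unit_len L h
  | succ m ih =>
    have h1 := gs_cup_len (gs_ce_len (Hv (f (2 * l + 1)))) (n := 2 * m + 2)
      (G := cup (ce (Hv (f (2 * l + 2)))) (gsR f (l + 1) m)) (fun L hL => by
        have := gs_cup_len (gs_ce_len (Hv (f (2 * l + 2)))) (ih (l + 1)) L hL
        omega) L h
    omega

theorem gsR_dl (f : ℕ → Y → ℝ) (m : ℕ) (l : ℕ) (L : List Y) : dl (gsR f l m) L = 0 := by
  induction m generalizing l L with
  | zero => exact gs_dl_unit L
  | succ m ih =>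
    have h0 : dl (gsR f (l + 1) m) = fun _ => 0 := by
      funext L
      exact ih _ _
    have hce : ∀ v : Y → ℤ, dl (ce v) = fun _ => 0 := by
      intro v
      funext L
      exact gs_dl_ce v L
    have h1 : dl (cup (ce (Hv (f (2 * l + 2)))) (gsR f (l + 1) m)) = fun _ => 0 := by
      funext L
      rw [dl_cup' _ _ rfl (gsR_nil _ _ _), h0, cup_zero_right, hce, cup_zero_left, add_zero]
    show dl (cup (ce (Hv (f (2 * l + 1)))) (cup (ce (Hv (f (2 * l + 2)))) (gsR f (l + 1) m))) L = 0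
    rw [dl_cup' _ _ rfl rfl, h1, cup_zero_right, hce, cup_zero_left, add_zero]

/-- on the support of `gsR` all the functions are small -/
theorem gsR_supp {S : Set (List Y)} {f : ℕ → Y → ℝ} {κ : ℕ} {η : ℝ}
    (hf : ∀ k ≤ 2 * κ, Vary S (f k) η) {L : List Y} (hL : L ∈ S) (m : ℕ) (l : ℕ)
    (hlm : l + m = κ) {L' : List Y} (hL' : L'.Sublist L) (h : gsR f l m L' ≠ 0) {z : Y}
    (hz : z ∈ L) (k : ℕ) (hk : 2 * l + 1 ≤ k) (hk2 : k ≤ 2 * κ) : |f k z| ≤ 2 * η := by
  induction m generalizing l L' with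
  | zero => omega
  | succ m ih =>
    obtain ⟨l₁, l₂, h1, h2, h3, h4⟩ := gs_cup_ne L' h
    obtain ⟨l₃, l₄, h5, h6, h7, h8⟩ := gs_cup_ne l₂ h4
    rcases Nat.lt_or_ge k (2 * (l + 1) + 1) with h9 | h9
    · have h10 : k = 2 * l + 1 ∨ k = 2 * l + 2 := by omega
      rcases h10 with rfl | rfl
      · exact gs_edge_all (hf _ (by omega)) hL (h1.trans hL') h3 hz
      · exact gs_edge_all (hf _ (by omega)) hL (h5.trans (h2.trans hL')) h7 hz
    · exact ih (l + 1) (by omega) (h6.trans (h2.trans hL')) h8 h9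

theorem gs_aL_len {f : ℕ → Y → ℝ} {ρ : ℕ → ℝ} {t : List Y → ℤ}
    (ht0 : ∀ l, t l ≠ 0 → l.length = 3) (k : ℕ) (l : List Y) (h : aL t f ρ k l ≠ 0) :
    l.length = 3 := by
  by_cases h1 : t l = 0
  · refine gs_om_len (nF f ρ k) (f (2 * k + 1)) (f (2 * k + 2)) l (fun h2 => h ?_)
    show t l + om (nF f ρ k) (f (2 * k + 1)) (f (2 * k + 2)) l = 0
    rw [h1, h2, add_zero]
  · exact ht0 l h1

theorem gs_PL_len {f : ℕ → Y → ℝ} {ρ : ℕ → ℝ} {t : List Y → ℤ}
    (ht0 : ∀ l, t l ≠ 0 → l.length = 3) (m : ℕ) (l : List Y) (h : PL t f ρ m l ≠ 0) :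
    l.length = 2 * m + 1 := by
  induction m generalizing l with
  | zero => simpa using gs_unit_len l h
  | succ m ih =>
    have := gs_cup_len ih (gs_aL_len ht0 m) l h
    omega

theorem gs_PL_nil {f : ℕ → Y → ℝ} {ρ : ℕ → ℝ} {t : List Y → ℤ} (m : ℕ) :
    PL t f ρ m [] = 0 := by
  cases m with
  | zero => rfl
  | succ m => rfl

/-- `P_m` is closed on a hereditary class where `a_k` is closed for `k < m` -/
theorem gs_PL_closed {f : ℕ → Y → ℝ} {ρ : ℕ → ℝ} {t : List Y → ℤ}
    (ht0 : ∀ l, t l ≠ 0 → l.length = 3) {T : Set (List Y)} (hT : Hered T) (m : ℕ)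
    (hcl : ∀ k < m, ∀ l ∈ T, dl (aL t f ρ k) l = 0) (l : List Y) (hl : l ∈ T) :
    dl (PL t f ρ m) l = 0 := by
  induction m generalizing l with
  | zero => exact gs_dl_unit l
  | succ m ih =>
    have ham : aL t f ρ m [] = 0 := by
      by_contra h
      have := gs_aL_len ht0 m [] h
      simp at this
    show dl (cup (PL t f ρ m) (aL t f ρ m)) l = 0
    rw [dl_cup' _ _ (gs_PL_nil m) ham]
    rw [cup_congr hT (f := dl (PL t f ρ m)) (g := fun _ => 0) (F := aL t f ρ m)
      (G := aL t f ρ m) (fun l hl => ih (fun k hk => hcl k (by omega)) l hl) (fun _ _ => rfl) hl,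
      cup_zero_left,
      cup_congr hT (f := sg (PL t f ρ m)) (g := sg (PL t f ρ m)) (F := dl (aL t f ρ m))
      (G := fun _ => 0) (fun _ _ => rfl) (hcl m (by omega)) hl, cup_zero_right, add_zero]

/-- the cochains `a_k`, `k < m`, are closed where `|nF m| ≤ 2 ρ m` -/
theorem gs_closed {f : ℕ → Y → ℝ} {ρ : ℕ → ℝ} {κ : ℕ} {η : ℝ} {S : Set (List Y)} (hη : 0 < η)
    (hρ8 : ∀ l, ρ (l + 1) ≤ ρ l / 8) (hρη : ∀ l < κ, 100 * (κ + 1) * η ≤ ρ l)
    (hf : ∀ k ≤ 2 * κ, Vary S (f k) η) {t : List Y → ℤ} (ht : ∀ l ∈ S, dl t l = 0)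
    {m : ℕ} (hm : m < κ) {l : List Y} (hl : l ∈ S) (hy : ∀ y ∈ l, |nF f ρ m y| ≤ 2 * ρ m) {k : ℕ}
    (hk : k < m) : dl (aL t f ρ k) l = 0 := by
  have e0 : aL t f ρ k = fun l => t l + om (nF f ρ k) (f (2 * k + 1)) (f (2 * k + 2)) l := rfl
  rw [e0, dl_add, ht l hl, gs_dl_om, zero_add, neg_eq_zero]
  by_contra h
  obtain ⟨l₁, l₂, h1, h2, h3, h4⟩ := gs_cup_ne l h
  obtain ⟨l₃, l₄, h5, h6, h7, h8⟩ := gs_cup_ne l₂ h4
  obtain ⟨y, hyl, h9⟩ := gs_edge (gs_nF_vary hf k (by omega)) hl h1 h3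
  have h10 := gs_edge_all (hf (2 * k + 1) (by omega)) hl (h5.trans h2) h7 hyl
  have h11 := gs_edge_all (hf (2 * k + 2) (by omega)) hl (h6.trans h2) h8 hyl
  have h12 := gs_rad_sum (nF f ρ k) (f (2 * k + 1)) (f (2 * k + 2)) y
  have h14 := hy y hyl
  have h15 := hρη k (by omega)
  have h16 : nF f ρ (k + 1) y = rad (nF f ρ k) (f (2 * k + 1)) (f (2 * k + 2)) y - ρ k := rfl
  have h17 := neg_abs_le (nF f ρ (k + 1) y)
  have h18 : (k : ℝ) + 1 ≤ κ := by exact_mod_cast (by omega : k + 1 ≤ κ)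
  have h20 : 0 ≤ (κ : ℝ) := Nat.cast_nonneg κ
  have h21 : 0 ≤ (k : ℝ) := Nat.cast_nonneg k
  have h22 : 0 < ρ k := lt_of_lt_of_le (by positivity) h15
  have h23 := hρ8 k
  have h24 : |nF f ρ (k + 1) y| ≤ ρ k / 2 := by
    rcases Nat.lt_or_ge (k + 1) m with h | h
    · have g1 := gs_nF_down (f := f) hη hρ8 hρη y m hm.le (m - k - 2) (k + 1) (by omega)
      have g2 := le_abs_self (nF f ρ m y)
      have g3 := gs_rho_mono hη hρ8 hρη (k + 1) (m - k - 1) (by omega)
      have g4 : k + 1 + (m - k - 1) = m := by omega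
      rw [g4] at g3
      linarith
    · have : k + 1 = m := by omega
      rw [← this] at h14
      linarith
  have h25 : ((2 * (k : ℝ) + 1) * η) + 2 * η + 2 * η ≤ ρ k / 20 := by
    nlinarith
  linarith

theorem gs_levels_aux {S : Set (List Y)} (hS : Hered S) {κ : ℕ} {f : ℕ → Y → ℝ} {ρ : ℕ → ℝ}
    {η : ℝ} (hη : 0 < η) (hρ0 : ρ 0 ≤ 1 / 32) (hρ8 : ∀ l, ρ (l + 1) ≤ ρ l / 8)
    (hρη : ∀ l < κ, 100 * (κ + 1) * η ≤ ρ l) (hf : ∀ k ≤ 2 * κ, Vary S (f k) η)
    {t : List Y → ℤ} (ht0 : ∀ l, t l ≠ 0 → l.length = 3) (ht : ∀ l ∈ S, dl t l = 0)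
    (m : ℕ) (hm : m ≤ κ) :
    ∃ C : List Y → ℤ, (∀ l, C l ≠ 0 → l.length = 2 * κ + 1) ∧
      (∀ l ∈ S, C l ≠ 0 → ∀ y ∈ l, ∀ k ≤ 2 * κ, |f k y| ≤ 1 / 8) ∧
      (∀ l ∈ S, tau (gvs f κ) l =
        (-1) ^ m * cup (PL t f ρ m) (cup (ce (Hv (nF f ρ m))) (gsR f m (κ - m))) l + dl C l) ∧
      ∀ σ : Y → Y, (∀ k ≤ 2 * κ, ∀ y, f k (σ y) = f k y) → (∀ l, t (l.map σ) = t l) →
        ∀ l, C (l.map σ) = C l := by
  induction m with
  | zero =>
    refine ⟨fun _ => 0, fun l h => absurd rfl h, fun l _ h => absurd rfl h, fun l hl => ?_,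
      fun _ _ _ _ => rfl⟩
    have h1 : gvs f κ = Hv (f 0) :: (List.range' (2 * 0 + 1) (2 * κ)).map fun k => Hv (f k) := by
      unfold gvs
      rw [List.range_eq_range', List.range'_succ]
      rfl
    have h2 : tau (gvs f κ) = cup (ce (Hv (f 0))) (gsR f 0 κ) := by
      rw [h1, gsR_eq]
      rfl
    rw [h2, dl_zero, add_zero, pow_zero, one_mul, Nat.sub_zero]
    show _ = cup (unit 1) (cup (ce (Hv (f 0))) (gsR f 0 κ)) l
    cases l with
    | nil => rfl
    | cons y l => rw [gs_unit_cup _ _ (by simp)]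
  | succ m ih =>
    obtain ⟨C, hC1, hC2, hC3, hC4⟩ := ih (by omega)
    have hmκ : m < κ := by omega
    obtain ⟨n, hn⟩ : ∃ n, κ - m = n + 1 := ⟨κ - m - 1, by omega⟩
    have hn' : κ - (m + 1) = n := by omega
    set c : List Y → ℤ := cup (aL t f ρ m) (cz (Hv (nF f ρ (m + 1)))) with hc
    set R : List Y → ℤ := gsR f (m + 1) n with hR
    set X : List Y → ℤ := cup (PL t f ρ m) (cup c R) with hX
    have h0κ : 0 ≤ (κ : ℝ) := Nat.cast_nonneg κ
    have h0m : 0 ≤ (m : ℝ) := Nat.cast_nonneg m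
    have hmκ' : (m : ℝ) + 1 ≤ κ := by exact_mod_cast (by omega : m + 1 ≤ κ)
    have hρm := hρη m hmκ
    have hstep : ∀ l ∈ S,
        cup (PL t f ρ m) (cup (ce (Hv (nF f ρ m))) (gsR f m (κ - m))) l =
        - dl X l - cup (PL t f ρ (m + 1)) (cup (ce (Hv (nF f ρ (m + 1)))) R) l := by
      have hV1 := gs_nF_vary (ρ := ρ) hf m (by omega)
      have hη1 : η ≤ (2 * (m : ℝ) + 1) * η := by nlinarith
      have h := step hS (A := nF f ρ m) (B := f (2 * m + 1)) (C := f (2 * m + 2)) (ρ := ρ m)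
        (η := (2 * (m : ℝ) + 1) * η) (by positivity) (by nlinarith) hV1
        (fun l hl y hy y' hy' => (hf _ (by omega) l hl y hy y' hy').trans hη1)
        (fun l hl y hy y' hy' => (hf _ (by omega) l hl y hy y' hy').trans hη1)
        ht0 ht (R := R) (gsR_nil _ _ _) (fun l _ => gsR_dl _ _ _ _) (P := PL t f ρ m)
        (fun l hl => by rw [gs_PL_len ht0 m l hl]; exact ⟨m, rfl⟩)
        (fun l hl hy => by
          have hT : Hered {l' : List Y | l'.Sublist l} := fun l₁ h1 l₂ h2 => h2.trans h1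
          refine gs_PL_closed ht0 hT m (fun k hk l' hl' => ?_) l (List.Sublist.refl l)
          exact gs_closed hη hρ8 hρη hf ht hmκ (hS l hl l' hl')
            (fun y hy' => hy y (List.Sublist.subset hl' hy')) hk)
      intro l hl
      have h1 := h l hl
      have e1 : gsR f m (κ - m) =
          cup (ce (Hv (f (2 * m + 1)))) (cup (ce (Hv (f (2 * m + 2)))) R) := by
        rw [hn]
        rfl
      rw [e1, h1]
      have e2 : cup (PL t f ρ (m + 1)) (cup (ce (Hv (nF f ρ (m + 1)))) R) l =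
          cup (PL t f ρ m) (cup (aL t f ρ m) (cup (ce (Hv (nF f ρ (m + 1)))) R)) l :=
        cup_assoc _ _ _ _
      rw [e2]
      rfl
    have hXlen : ∀ l, X l ≠ 0 → l.length = 2 * κ + 1 := by
      intro l hl
      have h1 : ∀ l, c l ≠ 0 → l.length = 3 := by
        intro l hl
        have := gs_cup_len (gs_aL_len ht0 m) (gs_cz_len _) l hl
        omega
      have h2 : ∀ l, cup c R l ≠ 0 → l.length = 2 * n + 3 := by
        intro l hl
        have := gs_cup_len h1 (gsR_len f n (m + 1)) l hl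
        omega
      have := gs_cup_len (gs_PL_len ht0 m) h2 l hl
      omega
    have hXsupp : ∀ l ∈ S, X l ≠ 0 → ∀ y ∈ l, ∀ k ≤ 2 * κ, |f k y| ≤ 1 / 8 := by
      intro l hl h y hy k hk
      obtain ⟨l₁, l₂, h1, h2, h3, h4⟩ := gs_cup_ne l h
      obtain ⟨l₃, l₄, h5, h6, h7, h8⟩ := gs_cup_ne l₂ h4
      obtain ⟨l₅, l₆, h9, h10, h11, h12⟩ := gs_cup_ne l₃ h7
      have hz : ∃ z ∈ l, nF f ρ (m + 1) z < 0 := by
        match l₆, h10, h12 with
        | [], _, h12 => exact absurd rfl h12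
        | [z], h10, h12 =>
          refine ⟨z, List.Sublist.subset (h10.trans (h5.trans h2)) (by simp), ?_⟩
          by_contra h13
          push Not at h13
          apply h12
          show 1 - Hv (nF f ρ (m + 1)) z = 0
          rw [Hv_pos h13, sub_self]
        | _ :: _ :: _, _, h12 => exact absurd rfl h12
      obtain ⟨z, hz, h13⟩ := hz
      have hρpos : ∀ i < κ, 0 < ρ i := fun i hi => lt_of_lt_of_le (by positivity) (hρη i hi)
      have h00 := hρη 0 (by omega)
      have hη2 : η ≤ ρ 0 / 100 := by nlinarith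
      have hρm0 : ∀ i < κ, ρ i ≤ ρ 0 := by
        intro i hi
        have := gs_rho_mono hη hρ8 hρη 0 i (by omega)
        simpa using this
      rcases Nat.lt_or_ge k (2 * (m + 1) + 1) with h14 | h14
      · have hzk : |f k z| ≤ 8 / 7 * ρ 0 + ρ 0 := by
          have hcase : k = 0 ∨ ∃ i ≤ m, k = 2 * i + 1 ∨ k = 2 * i + 2 := by
            rcases Nat.eq_zero_or_pos k with h | h
            · exact Or.inl h
            · exact Or.inr ⟨(k - 1) / 2, by omega, by omega⟩
          rcases hcase with rfl | ⟨i, hi, hki⟩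
          · have g1 := gs_nF_down (f := f) hη hρ8 hρη z (m + 1) hm m 0 (by omega)
            have g2 : nF f ρ 0 z = f 0 z := rfl
            rw [g2] at g1
            have := hρpos 0 (by omega)
            linarith
          · have g1 := gs_nF_step (f := f) (ρ := ρ) z i
            have g4 := hρm0 i (by omega)
            have g5 : nF f ρ (i + 1) z ≤ 8 / 7 * ρ 0 := by
              rcases Nat.lt_or_ge i m with h | h
              · have g2 := gs_nF_down (f := f) hη hρ8 hρη z (m + 1) hm (m - i - 1) (i + 1)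
                  (by omega)
                have g3 := le_abs_self (nF f ρ (i + 1) z)
                have g6 := hρm0 (i + 1) (by omega)
                linarith
              · have : i = m := by omega
                rw [this]
                have := hρpos 0 (by omega)
                linarith
            rcases hki with rfl | rfl
            · linarith [g1.2.1]
            · linarith [g1.2.2]
        have h7 := hf k hk l hl y hy z hz
        have h8 : |f k y| ≤ |f k y - f k z| + |f k z| := by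
          have := abs_add_le (f k y - f k z) (f k z)
          simpa using this
        linarith
      · have := gsR_supp hf hl n (m + 1) (by omega) (h6.trans h2) h8 hy k h14 hk
        linarith
    refine ⟨fun l => C l + (-1) ^ (m + 1) * X l, ?_, ?_, ?_, ?_⟩
    · intro l h
      by_cases h1 : C l = 0
      · refine hXlen l (fun h2 => h ?_)
        show C l + (-1) ^ (m + 1) * X l = 0
        rw [h1, h2]
        ring
      · exact hC1 l h1
    · intro l hl h
      by_cases h1 : C l = 0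
      · refine hXsupp l hl (fun h2 => h ?_)
        show C l + (-1) ^ (m + 1) * X l = 0
        rw [h1, h2]
        ring
      · exact hC2 l hl h1
    · intro l hl
      have e1 : dl (fun l => C l + (-1) ^ (m + 1) * X l) l = dl C l + (-1) ^ (m + 1) * dl X l := by
        rw [dl_add]
        congr 1
        have := dl_zsmul ((-1) ^ (m + 1)) X l
        simpa using this
      rw [e1, hC3 l hl, hstep l hl, hn']
      ring
    · intro σ hσ1 hσ2 l
      have h1 := hC4 σ hσ1 hσ2 l
      have hnF : ∀ i ≤ κ, ∀ y, nF f ρ i (σ y) = nF f ρ i y := by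
        intro i hi
        induction i with
        | zero => exact fun y => hσ1 0 (by omega) y
        | succ i ih =>
          intro y
          simp only [nF, rad]
          rw [ih (by omega) y, hσ1 (2 * i + 1) (by omega), hσ1 (2 * i + 2) (by omega)]
      have hHv : ∀ g : Y → ℝ, (∀ y, g (σ y) = g y) → ∀ y, Hv g (σ y) = Hv g y := by
        intro g hg y
        simp only [Hv, hg y]
      have hce : ∀ g : Y → ℝ, (∀ y, g (σ y) = g y) →
          (fun l : List Y => ce (Hv g) (l.map σ)) = ce (Hv g) := by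
        intro g hg
        funext l
        match l with
        | [] => rfl
        | [_] => rfl
        | [y, y'] =>
          show Hv g (σ y') - Hv g (σ y) = Hv g y' - Hv g y
          rw [hHv g hg, hHv g hg]
        | _ :: _ :: _ :: _ => rfl
      have hcz : ∀ g : Y → ℝ, (∀ y, g (σ y) = g y) →
          (fun l : List Y => cz (Hv g) (l.map σ)) = cz (Hv g) := by
        intro g hg
        funext l
        match l with
        | [] => rfl
        | [y] =>
          show 1 - Hv g (σ y) = 1 - Hv g y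
          rw [hHv g hg]
        | _ :: _ :: _ => rfl
      have hunit : (fun l : List Y => unit (1 : ℤ) (l.map σ)) = unit 1 := by
        funext l
        match l with
        | [] => rfl
        | [_] => rfl
        | _ :: _ :: _ => rfl
      have hcup : ∀ F G : List Y → ℤ, (fun l : List Y => F (l.map σ)) = F →
          (fun l : List Y => G (l.map σ)) = G →
          (fun l : List Y => cup F G (l.map σ)) = cup F G := by
        intro F G hF hG
        funext l
        rw [← cup_comp σ F G l, hF, hG]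
      have hak : ∀ k < κ, (fun l : List Y => aL t f ρ k (l.map σ)) = aL t f ρ k := by
        intro k hk
        have h2 : (fun l : List Y => om (nF f ρ k) (f (2 * k + 1)) (f (2 * k + 2)) (l.map σ)) =
            om (nF f ρ k) (f (2 * k + 1)) (f (2 * k + 2)) :=
          hcup _ _ (hcz _ (hnF k (by omega))) (hcup _ _ (hce _ (hσ1 _ (by omega)))
            (hce _ (hσ1 _ (by omega))))
        funext l
        have h3 := congrFun h2 l
        show t (l.map σ) + om (nF f ρ k) (f (2 * k + 1)) (f (2 * k + 2)) (l.map σ) =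
          t l + om (nF f ρ k) (f (2 * k + 1)) (f (2 * k + 2)) l
        rw [hσ2 l]
        rw [h3]
      have hPk : ∀ k ≤ κ, (fun l : List Y => PL t f ρ k (l.map σ)) = PL t f ρ k := by
        intro k hk
        induction k with
        | zero => exact hunit
        | succ k ih => exact hcup _ _ (ih (by omega)) (hak k (by omega))
      have hRk : ∀ n' l', l' + n' = κ → (fun l : List Y => gsR f l' n' (l.map σ)) = gsR f l' n' := by
        intro n'
        induction n' with
        | zero => intro _ _; exact hunit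
        | succ n' ih =>
          intro l' hl'
          exact hcup _ _ (hce _ (hσ1 _ (by omega))) (hcup _ _ (hce _ (hσ1 _ (by omega)))
            (ih (l' + 1) (by omega)))
      have hX2 : (fun l : List Y => X (l.map σ)) = X :=
        hcup _ _ (hPk m (by omega)) (hcup _ _ (hcup _ _ (hak m hmκ) (hcz _ (hnF (m + 1) hm)))
          (hRk n (m + 1) (by omega)))
      have h5 := congrFun hX2 l
      show C (l.map σ) + (-1) ^ (m + 1) * X (l.map σ) = C l + (-1) ^ (m + 1) * X l
      rw [h1]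
      rw [show X (l.map σ) = X l from h5]

theorem levels {S : Set (List Y)} (hS : Hered S) {κ : ℕ} {f : ℕ → Y → ℝ} {ρ : ℕ → ℝ} {η : ℝ}
    (hη : 0 < η) (hρ0 : ρ 0 ≤ 1 / 32) (hρ8 : ∀ l, ρ (l + 1) ≤ ρ l / 8)
    (hρη : ∀ l < κ, 100 * (κ + 1) * η ≤ ρ l) (hf : ∀ k ≤ 2 * κ, Vary S (f k) η)
    {t : List Y → ℤ} (ht0 : ∀ l, t l ≠ 0 → l.length = 3) (ht : ∀ l ∈ S, dl t l = 0) :
    ∃ C : List Y → ℤ, (∀ l, C l ≠ 0 → l.length = 2 * κ + 1) ∧
      (∀ l ∈ S, C l ≠ 0 → ∀ y ∈ l, ∀ k ≤ 2 * κ, |f k y| ≤ 1 / 8) ∧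
      (∀ l ∈ S, tau (gvs f κ) l =
        (-1) ^ κ * cup (PL t f ρ κ) (ce (Hv (nF f ρ κ))) l + dl C l) ∧
      ∀ σ : Y → Y, (∀ k ≤ 2 * κ, ∀ y, f k (σ y) = f k y) → (∀ l, t (l.map σ) = t l) →
        ∀ l, C (l.map σ) = C l := by
  obtain ⟨C, h1, h2, h3, h4⟩ := gs_levels_aux hS hη hρ0 hρ8 hρη hf ht0 ht κ le_rfl
  refine ⟨C, h1, h2, fun l hl => ?_, h4⟩
  rw [h3 l hl, Nat.sub_self]
  have h5 : cup (ce (Hv (nF f ρ κ))) (gsR f κ 0) = ce (Hv (nF f ρ κ)) := by
    funext l
    cases l with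
    | nil => rfl
    | cons y l => exact gs_cup_unit _ _ (by simp)
  rw [h5]

end Vale.Agent.P093.Hom
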