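import Mathlib
import Vale.Agent.P093.Hom.GroupStep

/-!
TASK HOM-B2: the group push.

Proof of `push`. Let `C` be from `levels`. Put `b_k = a_k - dl (n k)` (`a_k = aL t f ρ k`) and
`ξ = ∑_{k<κ} b_0 ∪ … ∪ b_{k-1} ∪ n_k ∪ a_{k+1} ∪ … ∪ a_{κ-1}` (degree `2κ - 1`, nonzero only on lists
of length `2κ`), `μ = C + (-1)^κ ξ ∪ ce (Hv (nF f ρ κ))`.
Let `l ∈ S` with all vertices in `E`; show `dl μ l = tau (gvs f κ) l`, i.e.
`dl (ξ ∪ ce (Hv (nF κ))) l = (P_κ ∪ ce (Hv (nF κ))) l`. `nF κ` varies by at most `(2κ+1) η` on `l`.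
Case 1: some vertex of `l` has `|nF κ| > (2κ+1) η`: then `nF κ` has constant sign on `l`,
`ce (Hv (nF κ)) = 0` on all sublists of `l`, both sides vanish.
Case 2: all vertices have `|nF κ| ≤ (2κ+1) η`. Then by `hE` there is `k₀ < κ` with `b_{k₀} = 0` on
all sublists of `l`. All `a_k` are closed on sublists of `l`: `dl a_k = - ce HA ∪ ce HB ∪ ce HC`
(`A = nF k` etc.), nonzero only if `|nF k|, |f (2k+1)|, |f (2k+2)| ≤ 2 (2k+2) η` at all vertices of a
sublist, so `nF (k+1) ≤ - ρ_k / 2` there, contradicting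
`|nF (k+1)| ≤ |nF κ| + ρ_{k+1} + … + ρ_{κ-1} ≤ ρ_k / 3` (note `|nF i| ≤ |nF (i+1)| + ρ_i`).
Hence also `dl b_k = 0` on sublists of `l`, and by Leibniz (all `a`, `b` have even degree)
`dl ξ = ∑_k b_0…b_{k-1} ∪ dl n_k ∪ a_{k+1}… = ∑_k b_0…b_{k-1} ∪ (a_k - b_k) ∪ a_{k+1}…
= a_0…a_{κ-1} - b_0…b_{κ-1} = P_κ - 0` on sublists of `l`. So
`dl (ξ ∪ ce (Hv (nF κ))) = dl ξ ∪ ce (Hv (nF κ)) = P_κ ∪ ce (Hv (nF κ))` at `l`
(`dl (ce v) = 0`).
Support of `ξ ∪ ce (Hv (nF κ))`: if nonzero at `l ∈ S` some edge has a sign change of `nF κ`, so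
`|nF κ| ≤ (2κ+1) η` at a vertex, and `|nF i|, |f (2i+1)|, |f (2i+2)| ≤ |nF (i+1)| + ρ_i` going down
gives `|f k| ≤ 2 ρ_0 + (2κ+1)η ≤ 3/32` there, so `≤ 1/8` at all vertices.
The invariance of `μ` under `σ` is clear from the explicit formula (`cup_comp`, `dl_comp`).
-/

namespace Vale.Agent.P093.Hom

variable {Y : Type*}

/-! ### supports -/

theorem push_dl_len {F : List Y → ℤ} {n : ℕ} (h : ∀ l, F l ≠ 0 → l.length = n) (l : List Y)
    (h0 : dl F l ≠ 0) : l.length = n + 1 := by
  induction l generalizing F n with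
  | nil => exact absurd rfl h0
  | cons y l ih =>
    rw [dl_cons] at h0
    by_cases h1 : F l = 0
    · have h2 : dl (fun l' => F (y :: l')) l ≠ 0 := by
        intro h3
        rw [h1, h3] at h0
        exact h0 (sub_zero 0)
      cases n with
      | zero =>
        have h3 : (fun l' => F (y :: l')) = fun _ => 0 := by
          funext l'
          by_contra h4
          have := h _ h4
          simp at this
        rw [h3, dl_zero] at h2
        exact absurd rfl h2
      | succ n =>
        have := ih (F := fun l' => F (y :: l')) (n := n)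
          (fun l' hl' => by simpa using h _ hl') h2
        simp [this]
    · simp [h l h1]

theorem push_cup_len {f G : List Y → ℤ} {m n : ℕ} (hf : ∀ l, f l ≠ 0 → l.length = m)
    (hG : ∀ l, G l ≠ 0 → l.length = n) (l : List Y) (h0 : cup f G l ≠ 0) :
    l.length + 1 = m + n := by
  induction l generalizing f m with
  | nil => exact absurd rfl h0
  | cons y l ih =>
    rw [cup_cons] at h0
    by_cases h1 : cup (fun l' => f (y :: l')) G l = 0
    · rw [h1, add_zero, smul_eq_mul] at h0
      have h2 := hf _ (left_ne_zero_of_mul h0)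
      have h3 := hG _ (right_ne_zero_of_mul h0)
      simp only [List.length_cons, List.length_nil] at h2 h3 ⊢
      omega
    · cases m with
      | zero =>
        exfalso
        have h3 : (fun l' => f (y :: l')) = fun _ => 0 := by
          funext l'
          by_contra h4
          have := hf _ h4
          simp at this
        rw [h3, cup_zero_left] at h1
        exact h1 rfl
      | succ m =>
        have := ih (f := fun l' => f (y :: l')) (m := m)
          (fun l' hl' => by simpa using hf _ hl') h1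
        simp only [List.length_cons]
        omega

theorem push_cup_ne {f G : List Y → ℤ} (l : List Y) (h0 : cup f G l ≠ 0) :
    ∃ l₁ l₂, l₁.Sublist l ∧ l₂.Sublist l ∧ f l₁ ≠ 0 ∧ G l₂ ≠ 0 := by
  induction l generalizing f with
  | nil => exact absurd rfl h0
  | cons y l ih =>
    rw [cup_cons] at h0
    by_cases h1 : cup (fun l' => f (y :: l')) G l = 0
    · rw [h1, add_zero, smul_eq_mul] at h0
      exact ⟨[y], y :: l, by simp, List.Sublist.refl _, left_ne_zero_of_mul h0,
        right_ne_zero_of_mul h0⟩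
    · obtain ⟨l₁, l₂, h2, h3, h4, h5⟩ := ih (f := fun l' => f (y :: l')) h1
      exact ⟨y :: l₁, l₂, h2.cons_cons y, h3.cons y, h4, h5⟩

theorem push_ce_ne {v : Y → ℤ} {l : List Y} (h : ce v l ≠ 0) :
    ∃ y y', l = [y, y'] ∧ v y ≠ v y' := by
  match l, h with
  | [], h => exact absurd rfl h
  | [_], h => exact absurd rfl h
  | [y, y'], h =>
    refine ⟨y, y', rfl, fun e => h ?_⟩
    show v y' - v y = 0
    rw [e, sub_self]
  | _ :: _ :: _ :: _, h => exact absurd rfl h

theorem push_sign {g : Y → ℝ} {y y' : Y} {η : ℝ} (h : Hv g y ≠ Hv g y') (hη : |g y - g y'| ≤ η) :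
    |g y| ≤ η ∧ |g y'| ≤ η := by
  have h2 := abs_le.1 hη
  by_cases h3 : 0 ≤ g y <;> by_cases h4 : 0 ≤ g y'
  · rw [Hv_pos h3, Hv_pos h4] at h
    exact absurd rfl h
  · push Not at h4
    constructor <;> rw [abs_le] <;> constructor <;> linarith [h2.1, h2.2]
  · push Not at h3
    constructor <;> rw [abs_le] <;> constructor <;> linarith [h2.1, h2.2]
  · push Not at h3 h4
    rw [Hv_neg h3, Hv_neg h4] at h
    exact absurd rfl h

/-- a sign change on a tuple -/
theorem push_edge {S : Set (List Y)} {g : Y → ℝ} {η : ℝ} (hg : Vary S g η) {l l' : List Y}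
    (hl : l ∈ S) (hl' : l'.Sublist l) (h : ce (Hv g) l' ≠ 0) : ∃ y ∈ l, |g y| ≤ η := by
  obtain ⟨y, y', rfl, h1⟩ := push_ce_ne h
  have hy : y ∈ l := hl'.subset (by simp)
  have hy' : y' ∈ l := hl'.subset (by simp)
  exact ⟨y, hy, (push_sign h1 (hg l hl y hy y' hy')).1⟩

theorem push_edge_all {S : Set (List Y)} {g : Y → ℝ} {η : ℝ} (hg : Vary S g η) {l l' : List Y}
    (hl : l ∈ S) (hl' : l'.Sublist l) (h : ce (Hv g) l' ≠ 0) {z : Y} (hz : z ∈ l) :
    |g z| ≤ 2 * η := by
  obtain ⟨y, hy, h1⟩ := push_edge hg hl hl' h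
  have h2 := hg l hl z hz y hy
  have h3 : |g z| ≤ |g z - g y| + |g y| := by
    have := abs_add_le (g z - g y) (g y)
    simpa using this
  linarith

/-! ### the cochains `cz`, `ce`, `om` -/

theorem push_dl_cz (v : Y → ℤ) (l : List Y) : dl (cz v) l = - ce v l := by
  match l with
  | [] => rfl
  | [y] => simp [dl_singleton, cz, ce]
  | [y, y'] => simp [dl_pair, cz, ce]
  | y :: y' :: y'' :: l =>
    have h1 : dl (cz v) (y :: y' :: y'' :: l) = 0 := by
      by_contra h
      have := push_dl_len (n := 1) (F := cz v) (fun l hl => by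
        match l, hl with
        | [], hl => exact absurd rfl hl
        | [y], _ => rfl
        | _ :: _ :: _, hl => exact absurd rfl hl) _ h
      simp at this
    rw [h1]
    rfl

theorem push_dl_ce (v : Y → ℤ) (l : List Y) : dl (ce v) l = 0 := by
  have h : ce v = fun l => - dl (cz v) l := by
    funext l
    rw [push_dl_cz, neg_neg]
  rw [h, dl_neg, dl_dl, neg_zero]

theorem push_dl_om (A B C : Y → ℝ) (l : List Y) :
    dl (om A B C) l = - cup (ce (Hv A)) (cup (ce (Hv B)) (ce (Hv C))) l := by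
  have h1 : ∀ l, dl (cup (ce (Hv B)) (ce (Hv C))) l = 0 := by
    intro l
    rw [dl_cup' _ _ rfl rfl]
    have h2 : dl (ce (Hv B)) = fun _ => 0 := by funext l; exact push_dl_ce _ _
    have h3 : dl (ce (Hv C)) = fun _ => 0 := by funext l; exact push_dl_ce _ _
    rw [h2, h3, cup_zero_left, cup_zero_right, add_zero]
  have h2 : dl (cup (ce (Hv B)) (ce (Hv C))) = fun _ => 0 := by funext l; exact h1 l
  have h3 : dl (cz (Hv A)) = fun l => - ce (Hv A) l := by funext l; exact push_dl_cz _ _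
  unfold om
  rw [dl_cup' _ _ rfl rfl, h2, h3, cup_zero_right, cup_neg_left, add_zero]

theorem push_cz_len (v : Y → ℤ) (l : List Y) (hl : cz v l ≠ 0) : l.length = 1 := by
  match l, hl with
  | [], hl => exact absurd rfl hl
  | [y], _ => rfl
  | _ :: _ :: _, hl => exact absurd rfl hl

theorem push_ce_len (v : Y → ℤ) (l : List Y) (hl : ce v l ≠ 0) : l.length = 2 := by
  obtain ⟨y, y', rfl, -⟩ := push_ce_ne hl
  rfl

theorem push_om_len (A B C : Y → ℝ) (l : List Y) (hl : om A B C l ≠ 0) : l.length = 3 := by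
  have h1 := push_cup_len (push_cz_len (Hv A)) (n := 3) (G := cup (ce (Hv B)) (ce (Hv C)))
    (fun l hl => by
      have := push_cup_len (push_ce_len (Hv B)) (push_ce_len (Hv C)) l hl
      omega) l hl
  omega

theorem push_unit_len (l : List Y) (hl : unit (1 : ℤ) l ≠ 0) : l.length = 1 := by
  match l, hl with
  | [], hl => exact absurd rfl hl
  | [y], _ => rfl
  | _ :: _ :: _, hl => exact absurd rfl hl

theorem push_dl_unit (l : List Y) : dl (unit (1 : ℤ)) l = 0 := by
  match l with
  | [] => rfl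
  | [y] => simp [dl_singleton, unit]
  | [y, y'] => simp [dl_pair, unit]
  | y :: y' :: y'' :: l =>
    by_contra h
    have := push_dl_len push_unit_len _ h
    simp at this

theorem push_sg_odd {F : List Y → ℤ} {m : ℕ} (h : ∀ l, F l ≠ 0 → l.length = 2 * m + 1)
    (l : List Y) : sg F l = F l := by
  by_cases h0 : F l = 0
  · simp [sg, h0]
  · have h1 : l.length + 1 = 2 * (m + 1) := by rw [h l h0]; ring
    rw [sg, h1, pow_mul]
    simp

/-! ### the telescoping -/

/-- `b_k` -/
def pushb (a n : ℕ → List Y → ℤ) (k : ℕ) (l : List Y) : ℤ := a k l - dl (n k) l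

/-- `b_0 ∪ … ∪ b_{k-1}` -/
def pushB (a n : ℕ → List Y → ℤ) : ℕ → List Y → ℤ
  | 0 => unit 1
  | m + 1 => cup (pushB a n m) (pushb a n m)

/-- `∑ b_0 ∪ … ∪ b_{k-1} ∪ n_k ∪ a_{k+1} ∪ … ∪ a_{m-1}` -/
def pushX (a n : ℕ → List Y → ℤ) : ℕ → List Y → ℤ
  | 0 => fun _ => 0
  | m + 1 => fun l => cup (pushX a n m) (a m) l + cup (pushB a n m) (n m) l

section

variable {a n : ℕ → List Y → ℤ} (ha : ∀ k l, a k l ≠ 0 → l.length = 3)
  (hn : ∀ k l, n k l ≠ 0 → l.length = 2)

include ha hn

theorem pushb_len (k : ℕ) (l : List Y) (h : pushb a n k l ≠ 0) : l.length = 3 := by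
  by_cases h1 : a k l = 0
  · refine push_dl_len (hn k) l (fun h2 => h ?_)
    rw [pushb, h1, h2, sub_zero]
  · exact ha k l h1

theorem pushB_len (m : ℕ) (l : List Y) (h : pushB a n m l ≠ 0) : l.length = 2 * m + 1 := by
  induction m generalizing l with
  | zero => simpa using push_unit_len l h
  | succ m ih =>
    have := push_cup_len ih (pushb_len ha hn m) l h
    omega

theorem pushX_len (m : ℕ) (l : List Y) (h : pushX a n m l ≠ 0) : l.length = 2 * m := by
  induction m generalizing l with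
  | zero => exact absurd rfl h
  | succ m ih =>
    by_cases h1 : cup (pushX a n m) (a m) l = 0
    · have h2 : cup (pushB a n m) (n m) l ≠ 0 := by
        intro h2
        apply h
        show cup (pushX a n m) (a m) l + cup (pushB a n m) (n m) l = 0
        rw [h1, h2, add_zero]
      have := push_cup_len (pushB_len ha hn m) (hn m) l h2
      omega
    · have := push_cup_len ih (ha m) l h1
      omega

theorem pushb_nil (k : ℕ) : pushb a n k [] = 0 := by
  by_contra h
  have := pushb_len ha hn k [] h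
  simp at this

theorem pushB_nil (m : ℕ) : pushB a n m [] = 0 := by
  by_contra h
  have := pushB_len ha hn m [] h
  simp at this

omit ha hn in
theorem pushX_nil (m : ℕ) : pushX a n m [] = 0 := by
  cases m with
  | zero => rfl
  | succ m =>
    show cup (pushX a n m) (a m) [] + cup (pushB a n m) (n m) [] = 0
    simp

variable {T : Set (List Y)} (hT : Hered T) {κ : ℕ} (hcl : ∀ k < κ, ∀ l ∈ T, dl (a k) l = 0)

include hT hcl

theorem pushB_closed (m : ℕ) (hm : m ≤ κ) (l : List Y) (hl : l ∈ T) :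
    dl (pushB a n m) l = 0 := by
  induction m generalizing l with
  | zero => exact push_dl_unit l
  | succ m ih =>
    have hb : ∀ l ∈ T, dl (pushb a n m) l = 0 := by
      intro l hl
      have : pushb a n m = fun l => a m l - dl (n m) l := rfl
      rw [this, dl_sub, dl_dl, hcl m (by omega) l hl, sub_zero]
    show dl (cup (pushB a n m) (pushb a n m)) l = 0
    rw [dl_cup' _ _ (pushB_nil ha hn m) (pushb_nil ha hn m)]
    rw [cup_congr hT (f := dl (pushB a n m)) (g := fun _ => 0) (F := pushb a n m)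
      (G := pushb a n m) (fun l hl => ih (by omega) l hl) (fun _ _ => rfl) hl, cup_zero_left,
      cup_congr hT (f := sg (pushB a n m)) (g := sg (pushB a n m)) (F := dl (pushb a n m))
      (G := fun _ => 0) (fun _ _ => rfl) hb hl, cup_zero_right, add_zero]

theorem pushX_dl {P : ℕ → List Y → ℤ} (hP0 : P 0 = unit 1)
    (hP : ∀ m, P (m + 1) = cup (P m) (a m)) (m : ℕ) (hm : m ≤ κ) (l : List Y) (hl : l ∈ T) :
    dl (pushX a n m) l = P m l - pushB a n m l := by
  induction m generalizing l with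
  | zero =>
    show dl (fun _ => (0 : ℤ)) l = P 0 l - unit 1 l
    rw [dl_zero, hP0, sub_self]
  | succ m ih =>
    have ham : a m [] = 0 := by
      by_contra h
      have := ha m [] h
      simp at this
    have hnm : n m [] = 0 := by
      by_contra h
      have := hn m [] h
      simp at this
    have e1 : dl (pushX a n (m + 1)) l =
        dl (fun l => cup (pushX a n m) (a m) l + cup (pushB a n m) (n m) l) l := rfl
    have hsg : sg (pushB a n m) = pushB a n m := by
      funext l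
      exact push_sg_odd (pushB_len ha hn m) l
    have e2 : pushB a n (m + 1) l = cup (pushB a n m) (a m) l - cup (pushB a n m) (dl (n m)) l := by
      show cup (pushB a n m) (fun l => a m l - dl (n m) l) l = _
      rw [cup_sub_right]
    rw [e1, dl_add, dl_cup' _ _ (pushX_nil m) ham, dl_cup' _ _ (pushB_nil ha hn m) hnm,
      hsg, e2, hP m]
    rw [cup_congr hT (f := dl (pushX a n m)) (g := fun l => P m l - pushB a n m l) (F := a m)
      (G := a m) (fun l hl => ih (by omega) l hl) (fun _ _ => rfl) hl, cup_sub_left]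
    rw [cup_congr hT (f := sg (pushX a n m)) (g := sg (pushX a n m)) (F := dl (a m))
      (G := fun _ => 0) (fun _ _ => rfl) (hcl m (by omega)) hl, cup_zero_right]
    rw [cup_congr hT (f := dl (pushB a n m)) (g := fun _ => 0) (F := n m)
      (G := n m) (fun l hl => pushB_closed ha hn hT hcl m (by omega) l hl) (fun _ _ => rfl) hl,
      cup_zero_left]
    ring

omit ha hn hcl in
theorem pushB_zero {k₀ : ℕ} (h0 : ∀ l ∈ T, dl (n k₀) l = a k₀ l) (m : ℕ) (hm : k₀ < m)
    (l : List Y) (hl : l ∈ T) : pushB a n m l = 0 := by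
  induction m generalizing l with
  | zero => omega
  | succ m ih =>
    show cup (pushB a n m) (pushb a n m) l = 0
    rcases Nat.lt_succ_iff_lt_or_eq.1 hm with h1 | h1
    · rw [cup_congr hT (f := pushB a n m) (g := fun _ => 0) (F := pushb a n m)
        (G := pushb a n m) (fun l hl => ih h1 l hl) (fun _ _ => rfl) hl, cup_zero_left]
    · subst h1
      rw [cup_congr hT (f := pushB a n k₀) (g := pushB a n k₀) (F := pushb a n k₀)
        (G := fun _ => 0) (fun _ _ => rfl) (fun l hl => by rw [pushb, h0 l hl, sub_self]) hl,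
        cup_zero_right]

end

/-! ### the radial functions -/

theorem push_rad_le {a b c a' b' c' : ℝ} :
    Real.sqrt (a ^ 2 + b ^ 2 + c ^ 2) ≤
      Real.sqrt (a' ^ 2 + b' ^ 2 + c' ^ 2) + (|a - a'| + |b - b'| + |c - c'|) := by
  set r := Real.sqrt (a' ^ 2 + b' ^ 2 + c' ^ 2) with hr
  have hr0 : 0 ≤ r := Real.sqrt_nonneg _
  have hr2 : r ^ 2 = a' ^ 2 + b' ^ 2 + c' ^ 2 := Real.sq_sqrt (by positivity)
  have ha : |a'| ≤ r := Real.abs_le_sqrt (by nlinarith [sq_nonneg b', sq_nonneg c'])
  have hb : |b'| ≤ r := Real.abs_le_sqrt (by nlinarith [sq_nonneg a', sq_nonneg c'])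
  have hc : |c'| ≤ r := Real.abs_le_sqrt (by nlinarith [sq_nonneg b', sq_nonneg a'])
  rw [Real.sqrt_le_left (by positivity)]
  have key : ∀ x x' : ℝ, |x'| ≤ r → x ^ 2 ≤ x' ^ 2 + 2 * r * |x - x'| + |x - x'| ^ 2 := by
    intro x x' hx
    have h1 : x ^ 2 = x' ^ 2 + 2 * x' * (x - x') + (x - x') ^ 2 := by ring
    have h2 : x' * (x - x') ≤ r * |x - x'| := by
      calc x' * (x - x') ≤ |x' * (x - x')| := le_abs_self _
        _ = |x'| * |x - x'| := abs_mul _ _
        _ ≤ r * |x - x'| := mul_le_mul_of_nonneg_right hx (abs_nonneg _)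
    rw [h1, sq_abs]
    linarith
  have h1 := key a a' ha
  have h2 := key b b' hb
  have h3 := key c c' hc
  have p1 := mul_nonneg (abs_nonneg (a - a')) (abs_nonneg (b - b'))
  have p2 := mul_nonneg (abs_nonneg (a - a')) (abs_nonneg (c - c'))
  have p3 := mul_nonneg (abs_nonneg (b - b')) (abs_nonneg (c - c'))
  nlinarith

theorem push_le_rad (A B C : Y → ℝ) (y : Y) :
    |A y| ≤ rad A B C y ∧ |B y| ≤ rad A B C y ∧ |C y| ≤ rad A B C y := by
  refine ⟨Real.abs_le_sqrt ?_, Real.abs_le_sqrt ?_, Real.abs_le_sqrt ?_⟩ <;>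
    nlinarith [sq_nonneg (A y), sq_nonneg (B y), sq_nonneg (C y)]

theorem push_rad_sum (A B C : Y → ℝ) (y : Y) : rad A B C y ≤ |A y| + |B y| + |C y| := by
  have h := push_rad_le (a := A y) (b := B y) (c := C y) (a' := 0) (b' := 0) (c' := 0)
  simpa [rad] using h

theorem push_vary_rad {S : Set (List Y)} {A B C : Y → ℝ} {α β γ ρ : ℝ} (hA : Vary S A α)
    (hB : Vary S B β) (hC : Vary S C γ) :
    Vary S (fun y => rad A B C y - ρ) (α + β + γ) := by
  intro l hl y hy y' hy'
  have h1 := hA l hl y hy y' hy'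
  have h2 := hB l hl y hy y' hy'
  have h3 := hC l hl y hy y' hy'
  have e1 := push_rad_le (a := A y) (b := B y) (c := C y) (a' := A y') (b' := B y') (c' := C y')
  have e2 := push_rad_le (a := A y') (b := B y') (c := C y') (a' := A y) (b' := B y) (c' := C y)
  rw [abs_sub_comm (A y'), abs_sub_comm (B y'), abs_sub_comm (C y')] at e2
  simp only [rad]
  rw [abs_le]
  constructor <;> linarith

section

variable {f : ℕ → Y → ℝ} {ρ : ℕ → ℝ} {κ : ℕ} {η : ℝ}

theorem push_nF_vary {S : Set (List Y)} (hf : ∀ k ≤ 2 * κ, Vary S (f k) η) (i : ℕ) (hi : i ≤ κ) :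
    Vary S (nF f ρ i) ((2 * i + 1) * η) := by
  induction i with
  | zero => simpa [nF] using hf 0 (by omega)
  | succ i ih =>
    have h := push_vary_rad (ρ := ρ i) (ih (by omega)) (hf (2 * i + 1) (by omega))
      (hf (2 * i + 2) (by omega))
    have e : (2 * ((i + 1 : ℕ) : ℝ) + 1) * η = (2 * (i : ℝ) + 1) * η + η + η := by
      push_cast; ring
    rw [e]
    exact h

theorem push_nF_step (y : Y) (i : ℕ) :
    |nF f ρ i y| ≤ nF f ρ (i + 1) y + ρ i ∧ |f (2 * i + 1) y| ≤ nF f ρ (i + 1) y + ρ i ∧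
      |f (2 * i + 2) y| ≤ nF f ρ (i + 1) y + ρ i := by
  have h := push_le_rad (nF f ρ i) (f (2 * i + 1)) (f (2 * i + 2)) y
  have e : nF f ρ (i + 1) y + ρ i = rad (nF f ρ i) (f (2 * i + 1)) (f (2 * i + 2)) y := by
    simp only [nF]; ring
  rw [e]
  exact h

theorem push_nF_down (hη : 0 < η) (hρ8 : ∀ l, ρ (l + 1) ≤ ρ l / 8)
    (hρη : ∀ l < κ, 100 * (κ + 1) * η ≤ ρ l) (y : Y) (j : ℕ) (i : ℕ) (hij : i + (j + 1) = κ) :
    |nF f ρ i y| ≤ |nF f ρ κ y| + 8 / 7 * ρ i := by
  have hpos : ∀ l < κ, 0 ≤ ρ l := fun l hl => le_trans (by positivity) (hρη l hl)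
  induction j generalizing i with
  | zero =>
    have h1 := (push_nF_step (f := f) (ρ := ρ) y i).1
    have h2 : i + 1 = κ := by omega
    rw [h2] at h1
    have h3 := le_abs_self (nF f ρ κ y)
    have h4 := hpos i (by omega)
    linarith
  | succ j ih =>
    have h1 := (push_nF_step (f := f) (ρ := ρ) y i).1
    have h2 := ih (i + 1) (by omega)
    have h3 := le_abs_self (nF f ρ (i + 1) y)
    have h4 := hρ8 i
    linarith

theorem push_nF_next (hη : 0 < η) (hρ8 : ∀ l, ρ (l + 1) ≤ ρ l / 8)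
    (hρη : ∀ l < κ, 100 * (κ + 1) * η ≤ ρ l) (y : Y) (i : ℕ) (hi : i < κ) :
    |nF f ρ (i + 1) y| ≤ |nF f ρ κ y| + ρ i / 7 := by
  have h0 : 0 ≤ ρ i := le_trans (by positivity) (hρη i hi)
  rcases Nat.lt_or_ge (i + 1) κ with h | h
  · have h1 := push_nF_down (f := f) hη hρ8 hρη y (κ - i - 2) (i + 1) (by omega)
    have h2 := hρ8 i
    linarith
  · have : i + 1 = κ := by omega
    rw [this]
    linarith

/-- the cochains `a_k` are closed where `nF κ` is small -/
theorem push_closed {S : Set (List Y)} (hη : 0 < η)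
    (hρ8 : ∀ l, ρ (l + 1) ≤ ρ l / 8) (hρη : ∀ l < κ, 100 * (κ + 1) * η ≤ ρ l)
    (hf : ∀ k ≤ 2 * κ, Vary S (f k) η) {t : List Y → ℤ} (ht : ∀ l ∈ S, dl t l = 0)
    {l : List Y} (hl : l ∈ S) (hy : ∀ y ∈ l, |nF f ρ κ y| ≤ (2 * κ + 1) * η) {k : ℕ}
    (hk : k < κ) : dl (aL t f ρ k) l = 0 := by
  have e0 : aL t f ρ k = fun l => t l + om (nF f ρ k) (f (2 * k + 1)) (f (2 * k + 2)) l := rfl
  rw [e0, dl_add, ht l hl, push_dl_om, zero_add, neg_eq_zero]
  by_contra h
  obtain ⟨l₁, l₂, h1, h2, h3, h4⟩ := push_cup_ne l h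
  obtain ⟨l₃, l₄, h5, h6, h7, h8⟩ := push_cup_ne l₂ h4
  obtain ⟨y, hyl, h9⟩ := push_edge (push_nF_vary hf k (by omega)) hl h1 h3
  have h10 := push_edge_all (hf (2 * k + 1) (by omega)) hl (h5.trans h2) h7 hyl
  have h11 := push_edge_all (hf (2 * k + 2) (by omega)) hl (h6.trans h2) h8 hyl
  have h12 := push_rad_sum (nF f ρ k) (f (2 * k + 1)) (f (2 * k + 2)) y
  have h13 := push_nF_next (f := f) hη hρ8 hρη y k hk
  have h14 := hy y hyl
  have h15 := hρη k hk
  have h16 : nF f ρ (k + 1) y = rad (nF f ρ k) (f (2 * k + 1)) (f (2 * k + 2)) y - ρ k := rfl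
  have h17 := neg_abs_le (nF f ρ (k + 1) y)
  have h18 : (k : ℝ) + 1 ≤ κ := by exact_mod_cast hk
  have h19 : (2 * (k : ℝ) + 1) * η ≤ (2 * (κ : ℝ) + 1) * η := by
    apply mul_le_mul_of_nonneg_right _ hη.le
    linarith
  have h20 : 0 ≤ (κ : ℝ) := Nat.cast_nonneg κ
  nlinarith

end

/-! ### the theorem -/

/-- **Group push.** On tuples inside `E` the top cochain of a group of `2κ + 1` coordinates is a
coboundary of a cochain supported near `f = 0`. -/
theorem push {S : Set (List Y)} (hS : Hered S) {κ : ℕ} (hκ : 1 ≤ κ) {f : ℕ → Y → ℝ} {ρ : ℕ → ℝ}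
    {η : ℝ} (hη : 0 < η) (hρ0 : ρ 0 ≤ 1 / 32) (hρ8 : ∀ l, ρ (l + 1) ≤ ρ l / 8)
    (hρη : ∀ l < κ, 100 * (κ + 1) * η ≤ ρ l) (hf : ∀ k ≤ 2 * κ, Vary S (f k) η)
    {t : List Y → ℤ} (ht0 : ∀ l, t l ≠ 0 → l.length = 3) (ht : ∀ l ∈ S, dl t l = 0)
    (E : Set Y) (n : ℕ → List Y → ℤ) (hn : ∀ k l, n k l ≠ 0 → l.length = 2)
    (hE : ∀ l ∈ S, (∀ y ∈ l, y ∈ E ∧ |nF f ρ κ y| ≤ (2 * κ + 1) * η) →
      ∃ k < κ, ∀ l', l'.Sublist l → dl (n k) l' = aL t f ρ k l') :
    ∃ μ : List Y → ℤ, (∀ l, μ l ≠ 0 → l.length = 2 * κ + 1) ∧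
      (∀ l ∈ S, μ l ≠ 0 → ∀ y ∈ l, ∀ k ≤ 2 * κ, |f k y| ≤ 1 / 8) ∧
      (∀ l ∈ S, (∀ y ∈ l, y ∈ E) → dl μ l = tau (gvs f κ) l) ∧
      ∀ σ : Y → Y, (∀ k ≤ 2 * κ, ∀ y, f k (σ y) = f k y) → (∀ l, t (l.map σ) = t l) →
        (∀ k l, n k (l.map σ) = n k l) → ∀ l, μ (l.map σ) = μ l := by
  obtain ⟨C, hC1, hC2, hC3, hC4⟩ := levels hS hη hρ0 hρ8 hρη hf ht0 ht
  have ha : ∀ k l, aL t f ρ k l ≠ 0 → l.length = 3 := by
    intro k l h
    by_cases h1 : t l = 0
    · refine push_om_len (nF f ρ k) (f (2 * k + 1)) (f (2 * k + 2)) l (fun h2 => h ?_)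
      show t l + om (nF f ρ k) (f (2 * k + 1)) (f (2 * k + 2)) l = 0
      rw [h1, h2, add_zero]
    · exact ht0 l h1
  set X : List Y → ℤ := pushX (aL t f ρ) n κ with hX
  set D : List Y → ℤ := cup X (ce (Hv (nF f ρ κ))) with hD
  have hD1 : ∀ l, D l ≠ 0 → l.length = 2 * κ + 1 := by
    intro l h
    have := push_cup_len (pushX_len ha hn κ) (push_ce_len _) l h
    omega
  have hsplit : ∀ l, C l + (-1) ^ κ * D l ≠ 0 → C l ≠ 0 ∨ D l ≠ 0 := by
    intro l h
    by_contra h2
    push Not at h2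
    exact h (by rw [h2.1, h2.2]; ring)
  refine ⟨fun l => C l + (-1) ^ κ * D l, ?_, ?_, ?_, ?_⟩
  · intro l h
    rcases hsplit l h with h1 | h1
    · exact hC1 l h1
    · exact hD1 l h1
  · intro l hl h
    rcases hsplit l h with h1 | h1
    · exact hC2 l hl h1
    · obtain ⟨l₁, l₂, h2, h3, h4, h5⟩ := push_cup_ne l h1
      obtain ⟨z, hz, h6⟩ := push_edge (push_nF_vary hf κ le_rfl) hl h3 h5
      intro y hy k hk
      have h00 := hρη 0 (by omega)
      have h20 : 0 ≤ (κ : ℝ) := Nat.cast_nonneg κ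
      have hsmall : (2 * (κ : ℝ) + 1) * η ≤ ρ 0 / 50 := by nlinarith
      have hη2 : η ≤ ρ 0 / 100 := by nlinarith
      have hmono : ∀ i < κ, ρ i ≤ ρ 0 := by
        intro i hi
        induction i with
        | zero => exact le_rfl
        | succ i ih =>
          have g1 := ih (by omega)
          have g2 := hρ8 i
          have g3 : 0 ≤ ρ i := le_trans (by positivity) (hρη i (by omega))
          linarith
      have hz2 : |f k z| ≤ 1 / 16 := by
        have hcase : k = 0 ∨ ∃ i < κ, k = 2 * i + 1 ∨ k = 2 * i + 2 := by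
          rcases Nat.eq_zero_or_pos k with h | h
          · exact Or.inl h
          · refine Or.inr ⟨(k - 1) / 2, by omega, by omega⟩
        rcases hcase with rfl | ⟨i, hi, hki⟩
        · have g1 := push_nF_down (f := f) hη hρ8 hρη z (κ - 1) 0 (by omega)
          have g2 : nF f ρ 0 z = f 0 z := rfl
          rw [g2] at g1
          linarith
        · have g1 := push_nF_step (f := f) (ρ := ρ) z i
          have g2 := push_nF_next (f := f) hη hρ8 hρη z i hi
          have g3 := le_abs_self (nF f ρ (i + 1) z)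
          have g4 := hmono i hi
          rcases hki with rfl | rfl
          · linarith [g1.2.1]
          · linarith [g1.2.2]
      have h7 := hf k hk l hl y hy z hz
      have h8 : |f k y| ≤ |f k y - f k z| + |f k z| := by
        have := abs_add_le (f k y - f k z) (f k z)
        simpa using this
      linarith
  · intro l hl hlE
    have hT : Hered {l' : List Y | l'.Sublist l} := fun l₁ h1 l₂ h2 => h2.trans h1
    have hlT : l ∈ {l' : List Y | l'.Sublist l} := List.Sublist.refl l
    have hX0 : X [] = 0 := pushX_nil κ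
    have hmain : cup (dl X) (ce (Hv (nF f ρ κ))) l = cup (PL t f ρ κ) (ce (Hv (nF f ρ κ))) l := by
      by_cases hc : ∀ y ∈ l, |nF f ρ κ y| ≤ (2 * κ + 1) * η
      · obtain ⟨k₀, hk₀, h1⟩ := hE l hl fun y hy => ⟨hlE y hy, hc y hy⟩
        have hcl : ∀ k < κ, ∀ l' ∈ {l' : List Y | l'.Sublist l}, dl (aL t f ρ k) l' = 0 := by
          intro k hk l' hl'
          exact push_closed hη hρ8 hρη hf ht (hS l hl l' hl')
            (fun y hy => hc y (List.Sublist.subset hl' hy)) hk
        refine cup_congr hT (fun l' hl' => ?_) (fun _ _ => rfl) hlT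
        rw [hX, pushX_dl ha hn hT hcl (P := PL t f ρ) rfl (fun m => rfl) κ le_rfl l' hl',
          pushB_zero hT h1 κ hk₀ l' hl', sub_zero]
      · push Not at hc
        obtain ⟨z, hz, h1⟩ := hc
        have h2 : ∀ l' ∈ {l' : List Y | l'.Sublist l}, ce (Hv (nF f ρ κ)) l' = 0 := by
          intro l' hl'
          by_contra h3
          obtain ⟨y, y', rfl, h4⟩ := push_ce_ne h3
          have hV := push_nF_vary (ρ := ρ) hf κ le_rfl l hl
          have hy : y ∈ l := List.Sublist.subset hl' (by simp)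
          have hy' : y' ∈ l := List.Sublist.subset hl' (by simp)
          have g1 := abs_le.1 (hV z hz y hy)
          have g2 := abs_le.1 (hV z hz y' hy')
          apply h4
          rcases lt_abs.1 h1 with h5 | h5
          · rw [Hv_pos (by linarith [g1.2]), Hv_pos (by linarith [g2.2])]
          · rw [Hv_neg (by linarith [g1.1]), Hv_neg (by linarith [g2.1])]
        rw [cup_congr hT (f := dl X) (g := dl X) (F := ce (Hv (nF f ρ κ))) (G := fun _ => 0)
          (fun _ _ => rfl) h2 hlT, cup_zero_right,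
          cup_congr hT (f := PL t f ρ κ) (g := PL t f ρ κ) (F := ce (Hv (nF f ρ κ)))
          (G := fun _ => 0) (fun _ _ => rfl) h2 hlT, cup_zero_right]
    have hce : dl (ce (Hv (nF f ρ κ))) = fun _ => 0 := by
      funext l
      exact push_dl_ce _ _
    have hDl : dl D l = cup (PL t f ρ κ) (ce (Hv (nF f ρ κ))) l := by
      rw [hD, dl_cup' _ _ hX0 rfl, hce, cup_zero_right, add_zero, hmain]
    have e1 : dl (fun l => C l + (-1) ^ κ * D l) l = dl C l + (-1) ^ κ * dl D l := by
      rw [dl_add]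
      congr 1
      have := dl_zsmul ((-1) ^ κ) D l
      simpa using this
    rw [e1, hDl, hC3 l hl]
    ring
  · intro σ hσ1 hσ2 hσ3 l
    have h1 := hC4 σ hσ1 hσ2 l
    have hnF : ∀ i ≤ κ, ∀ y, nF f ρ i (σ y) = nF f ρ i y := by
      intro i hi
      induction i with
      | zero => exact fun y => hσ1 0 (by omega) y
      | succ i ih =>
        intro y
        simp only [nF, rad]
        rw [ih (by omega) y, hσ1 (2 * i + 1) (by omega), hσ1 (2 * i + 2) (by omega)]
    have hHv : ∀ g : Y → ℝ, (∀ y, g (σ y) = g y) → ∀ y, Hv g (σ y) = Hv g y := by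
      intro g hg y
      simp only [Hv, hg y]
    have hce : ∀ g : Y → ℝ, (∀ y, g (σ y) = g y) →
        (fun l : List Y => ce (Hv g) (l.map σ)) = ce (Hv g) := by
      intro g hg
      funext l
      match l with
      | [] => rfl
      | [_] => rfl
      | [y, y'] =>
        show Hv g (σ y') - Hv g (σ y) = Hv g y' - Hv g y
        rw [hHv g hg, hHv g hg]
      | _ :: _ :: _ :: _ => rfl
    have hcz : ∀ g : Y → ℝ, (∀ y, g (σ y) = g y) →
        (fun l : List Y => cz (Hv g) (l.map σ)) = cz (Hv g) := by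
      intro g hg
      funext l
      match l with
      | [] => rfl
      | [y] =>
        show 1 - Hv g (σ y) = 1 - Hv g y
        rw [hHv g hg]
      | _ :: _ :: _ => rfl
    have hcup : ∀ F G : List Y → ℤ, (fun l : List Y => F (l.map σ)) = F →
        (fun l : List Y => G (l.map σ)) = G → (fun l : List Y => cup F G (l.map σ)) = cup F G := by
      intro F G hF hG
      funext l
      rw [← cup_comp σ F G l, hF, hG]
    have hak : ∀ k < κ, (fun l : List Y => aL t f ρ k (l.map σ)) = aL t f ρ k := by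
      intro k hk
      have h2 : (fun l : List Y => om (nF f ρ k) (f (2 * k + 1)) (f (2 * k + 2)) (l.map σ)) =
          om (nF f ρ k) (f (2 * k + 1)) (f (2 * k + 2)) :=
        hcup _ _ (hcz _ (hnF k (by omega))) (hcup _ _ (hce _ (hσ1 _ (by omega)))
          (hce _ (hσ1 _ (by omega))))
      funext l
      have h3 := congrFun h2 l
      show t (l.map σ) + om (nF f ρ k) (f (2 * k + 1)) (f (2 * k + 2)) (l.map σ) =
        t l + om (nF f ρ k) (f (2 * k + 1)) (f (2 * k + 2)) l
      rw [hσ2 l]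
      rw [h3]
    have hnk : ∀ k, (fun l : List Y => n k (l.map σ)) = n k := fun k => funext (hσ3 k)
    have hbk : ∀ k < κ, (fun l : List Y => pushb (aL t f ρ) n k (l.map σ)) =
        pushb (aL t f ρ) n k := by
      intro k hk
      funext l
      have h2 := congrFun (hak k hk) l
      show aL t f ρ k (l.map σ) - dl (n k) (l.map σ) = aL t f ρ k l - dl (n k) l
      rw [h2, ← dl_comp σ (n k) l, hnk k]
    have hBk : ∀ m ≤ κ, (fun l : List Y => pushB (aL t f ρ) n m (l.map σ)) =
        pushB (aL t f ρ) n m := by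
      intro m hm
      induction m with
      | zero =>
        funext l
        match l with
        | [] => rfl
        | [_] => rfl
        | _ :: _ :: _ => rfl
      | succ m ih => exact hcup _ _ (ih (by omega)) (hbk m (by omega))
    have hXk : ∀ m ≤ κ, (fun l : List Y => pushX (aL t f ρ) n m (l.map σ)) =
        pushX (aL t f ρ) n m := by
      intro m hm
      induction m with
      | zero => rfl
      | succ m ih =>
        funext l
        have g1 := congrFun (hcup _ _ (ih (by omega)) (hak m (by omega))) l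
        have g2 := congrFun (hcup _ _ (hBk m (by omega)) (hnk m)) l
        show cup (pushX (aL t f ρ) n m) (aL t f ρ m) (l.map σ) +
          cup (pushB (aL t f ρ) n m) (n m) (l.map σ) =
          cup (pushX (aL t f ρ) n m) (aL t f ρ m) l + cup (pushB (aL t f ρ) n m) (n m) l
        rw [g1, g2]
    have hDk := congrFun (hcup _ _ (hXk κ le_rfl) (hce _ (hnF κ le_rfl))) l
    show C (l.map σ) + (-1) ^ κ * D (l.map σ) = C l + (-1) ^ κ * D l
    rw [h1, hD, hX, hDk]

end Vale.Agent.P093.Hom
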