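import Mathlib
import Vale.Agent.P093.Hom.GroupPush
import Vale.Agent.P093.Hom.GridClose
import Vale.Agent.P093.Hom.GridInt

/-!
TASK HOM-G1: the modification `h` of the block of one group.

Proof of `exists_h`. `S = SY SX` is hereditary, even: if `l ∈ S` and all entries of `l'` are entries
of `l` then `l' ∈ S` (`SX` is `Full`). Let `E = {y | ∃ k e, c ≤ ‖F k e y‖}` and for `k < κ`
`E_k = {y | c/2 ≤ ‖F k 0 y‖ ∨ c/2 ≤ ‖F k 1 y‖, and |nF f rho κ y| ≤ (2κ+1) η}`,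
`n k = rn E_k (alH C v0 v1) (thH A B C thc)` with `A = nF f rho k`, `B = f (2k+1)`, `C = f (2k+2)`,
`v0 = F k 0`, `v1 = F k 1` (and `n k = 0` for `k ≥ κ`). `nF f rho k` varies by at most `(2k+1) η` on `S`.
On `E_k`: `|nF (k+1)| ≤ |nF κ| + rho (k+1) + … + rho (κ-1) ≤ rho k / 3` (since
`|nF i| ≤ |nF (i+1)| + rho i`), so `rad A B C = nF (k+1) + rho k ≥ rho k / 2` and the Hopf relations
hold. `hopf_round` (with `r₀ = rho k / 2`, `ε = c/2`, its `η` = our `(2κ+1) η`, `t = tc`,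
`th = thc`, `thc_coboundary`) gives `dl (n k) = aL tc f rho k` on tuples of `S` inside `E_k`.
Now apply `push` (`ρ = rho`, `t = tc`, `ht = dl_tc`, this `E`, this `n`): for `hE`, given `l ∈ S` with
all vertices in `E` and `|nF κ| ≤ (2κ+1) η`, take `k, e` with `c ≤ ‖F k e y₀‖` for the first vertex `y₀`
(if `l = []` anything); then `‖F k e y‖ ≥ c - η ≥ c/2` for all other vertices, so `l` and all its
sublists are inside `E_k`. Set `h l = μ l` if all vertices of `l` are in `E`, else `0`.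
For `l ∈ S` inside `E` and a sublist `l'`: `dl h l' = dl μ l' = tau (gvs f κ) l'` (`h = μ` on all
sublists of `l`). Invariance: `act σ` preserves `f`, `F`, `thc`, `tc`, hence `E`, `n k`, `μ`, `h`.
-/

namespace Vale.Agent.P093.Hom

/-- the radii -/
noncomputable def rho (l : ℕ) : ℝ := 1 / 32 / 8 ^ l

variable {X : Type*} {p ℓ κ : ℕ}

/-- the Hopf relations for a vector `(v0, v1)` over the point `(A, B, C) ≠ 0` -/
def HopfRel (A B C : ℝ) (v0 v1 : ℂ) : Prop :=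
  ((Real.sqrt (A ^ 2 + B ^ 2 + C ^ 2) + C : ℝ) : ℂ) * v1 = ⟨A, B⟩ * v0 ∧
  ((Real.sqrt (A ^ 2 + B ^ 2 + C ^ 2) - C : ℝ) : ℂ) * v0 = ⟨A, -B⟩ * v1

/-! ### auxiliary lemmas -/

theorem gh_full {SX : Set (List X)} (hSX : Full SX) : Full (SY (p := p) (ℓ := ℓ) SX) := by
  intro l hl l' hl'
  refine ⟨hSX _ hl.1 _ ?_, ?_⟩
  · intro x hx
    obtain ⟨y, hy, rfl⟩ := List.mem_map.1 hx
    exact List.mem_map.2 ⟨y, hl' y hy, rfl⟩
  · obtain ⟨g, hg⟩ := hl.2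
    exact ⟨g, fun y hy => hg y (hl' y hy)⟩

theorem gh_rho_pos (l : ℕ) : 0 < rho l := by
  unfold rho
  positivity

theorem gh_rho_succ (l : ℕ) : rho (l + 1) ≤ rho l / 8 := by
  unfold rho
  rw [pow_succ]
  apply le_of_eq
  field_simp

theorem gh_nF_inv {Y : Type*} {f : ℕ → Y → ℝ} {ρ : ℕ → ℝ} {σ : Y → Y}
    (hσ : ∀ k ≤ 2 * κ, ∀ y, f k (σ y) = f k y) (i : ℕ) (hi : i ≤ κ) (y : Y) :
    nF f ρ i (σ y) = nF f ρ i y := by
  induction i generalizing y with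
  | zero => exact hσ 0 (by omega) y
  | succ i ih =>
    simp only [nF, rad]
    rw [ih (by omega) y, hσ (2 * i + 1) (by omega), hσ (2 * i + 2) (by omega)]

theorem gh_rn_inv {Y : Type*} {E : Set Y} {α : Y → ℝ} {th : Y → Y → ℝ} {σ : Y → Y}
    (hE : ∀ y, σ y ∈ E ↔ y ∈ E) (hα : ∀ y, α (σ y) = α y)
    (hth : ∀ y₀ y₁, th (σ y₀) (σ y₁) = th y₀ y₁) (l : List Y) :
    rn E α th (l.map σ) = rn E α th l := by
  match l with
  | [] => rfl
  | [_] => rfl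
  | [y₀, y₁] =>
    simp only [List.map_cons, List.map_nil, rn, hα, hth]
    by_cases h : y₀ ∈ E ∧ y₁ ∈ E
    · rw [if_pos h, if_pos ((and_congr (hE y₀) (hE y₁)).2 h)]
    · rw [if_neg h, if_neg fun h' => h ((and_congr (hE y₀) (hE y₁)).1 h')]
  | _ :: _ :: _ :: _ => rfl

theorem gh_alH_inv {Y : Type*} {C : Y → ℝ} {v0 v1 : Y → ℂ} {σ : Y → Y}
    (hC : ∀ y, C (σ y) = C y) (h0 : ∀ y, v0 (σ y) = v0 y) (h1 : ∀ y, v1 (σ y) = v1 y) (y : Y) :
    alH C v0 v1 (σ y) = alH C v0 v1 y := by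
  simp only [alH, hC, h0, h1]

theorem gh_thH_inv {Y : Type*} {A B C : Y → ℝ} {th : Y → Y → ℝ} {σ : Y → Y}
    (hA : ∀ y, A (σ y) = A y) (hB : ∀ y, B (σ y) = B y) (hC : ∀ y, C (σ y) = C y)
    (hth : ∀ y₀ y₁, th (σ y₀) (σ y₁) = th y₀ y₁) (y₀ y₁ : Y) :
    thH A B C th (σ y₀) (σ y₁) = thH A B C th y₀ y₁ := by
  simp only [thH, Hv, hA, hB, hC, hth]

/-- the set `E_k` -/
def ghE (f : ℕ → YY X p ℓ → ℝ) (F : ℕ → Fin 2 → YY X p ℓ → ℂ) (κ : ℕ) (η c : ℝ) (k : ℕ) :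
    Set (YY X p ℓ) :=
  {y | (c / 2 ≤ ‖F k 0 y‖ ∨ c / 2 ≤ ‖F k 1 y‖) ∧ |nF f rho κ y| ≤ (2 * κ + 1) * η}

/-- the cochain `n_k` -/
noncomputable def ghn (f : ℕ → YY X p ℓ → ℝ) (F : ℕ → Fin 2 → YY X p ℓ → ℂ) (κ : ℕ) (η c : ℝ)
    (k : ℕ) : List (YY X p ℓ) → ℤ :=
  if k < κ then rn (ghE f F κ η c k) (alH (f (2 * k + 2)) (F k 0) (F k 1))
    (thH (nF f rho k) (f (2 * k + 1)) (f (2 * k + 2)) thc) else fun _ => 0

theorem gh_n_len (f : ℕ → YY X p ℓ → ℝ) (F : ℕ → Fin 2 → YY X p ℓ → ℂ) (η c : ℝ)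
    (k : ℕ) (l : List (YY X p ℓ)) (h : ghn f F κ η c k l ≠ 0) : l.length = 2 := by
  by_contra hl
  apply h
  unfold ghn
  split_ifs
  · exact ra_rn_len _ _ _ l hl
  · rfl

theorem gh_round (hℓ : 3 ≤ ℓ) (hp : (p : ℝ) / ℓ ≤ 1 / 32) {SX : Set (List X)}
    (hSX : Full SX) (f : ℕ → YY X p ℓ → ℝ) {η c : ℝ} (hη : 0 < η)
    (hηρ : ∀ l < κ, 2000 * (2 * κ + 1) * η ≤ rho l) (hηc : 2000 * (2 * κ + 1) * η ≤ c)
    (hf : ∀ k ≤ 2 * κ, Vary (SY SX) (f k) η) (F : ℕ → Fin 2 → YY X p ℓ → ℂ)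
    (hF : ∀ k < κ, ∀ e y₀ y₁, [y₀, y₁] ∈ SY (p := p) (ℓ := ℓ) SX →
      ‖F k e y₁ * ph (thc y₀ y₁) - F k e y₀‖ ≤ η)
    (hopf : ∀ k < κ, ∀ y, rho k / 2 ≤ rad (nF f rho k) (f (2 * k + 1)) (f (2 * k + 2)) y →
      HopfRel (nF f rho k y) (f (2 * k + 1) y) (f (2 * k + 2) y) (F k 0 y) (F k 1 y))
    {k : ℕ} (hk : k < κ) {l : List (YY X p ℓ)} (hl : l ∈ SY SX)
    (hlE : ∀ y ∈ l, y ∈ ghE f F κ η c k) : dl (ghn f F κ η c k) l = aL tc f rho k l := by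
  have hκ0 : (0 : ℝ) ≤ κ := Nat.cast_nonneg κ
  have hc : 0 < c := lt_of_lt_of_le (by positivity) hηc
  have hρη : ∀ l < κ, 100 * (κ + 1) * η ≤ rho l := by
    intro i hi
    have := hηρ i hi
    nlinarith
  have hk1 : (k : ℝ) + 1 ≤ κ := by exact_mod_cast hk
  have hmono : ∀ {g : YY X p ℓ → ℝ} {a : ℝ}, a ≤ (2 * κ + 1) * η → Vary (SY SX) g a →
      Vary (SY SX) g ((2 * κ + 1) * η) :=
    fun ha hg l hl y hy y' hy' => (hg l hl y hy y' hy').trans ha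
  have hη' : η ≤ (2 * κ + 1) * η := by nlinarith
  have hle : (2 * (k : ℝ) + 1) * η ≤ (2 * κ + 1) * η :=
    mul_le_mul_of_nonneg_right (by linarith) hη.le
  have hr : ∀ y ∈ ghE f F κ η c k,
      rho k / 2 ≤ rad (nF f rho k) (f (2 * k + 1)) (f (2 * k + 2)) y := by
    intro y hy
    have h1 := push_nF_next (f := f) hη gh_rho_succ hρη y k hk
    have h2 : nF f rho (k + 1) y = rad (nF f rho k) (f (2 * k + 1)) (f (2 * k + 2)) y - rho k :=
      rfl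
    have h3 := neg_abs_le (nF f rho (k + 1) y)
    have h4 := hηρ k hk
    have h5 := hy.2
    have h6 := gh_rho_pos k
    linarith
  have e1 : ghn f F κ η c k = rn (ghE f F κ η c k) (alH (f (2 * k + 2)) (F k 0) (F k 1))
      (thH (nF f rho k) (f (2 * k + 1)) (f (2 * k + 2)) thc) := by
    unfold ghn
    rw [if_pos hk]
  rw [e1]
  refine hopf_round (gh_full hSX).hered (r₀ := rho k / 2) (ε := c / 2) (η := (2 * κ + 1) * η)
    (t := tc) (half_pos (gh_rho_pos k)) (half_pos hc) (by positivity) ?_ ?_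
    (hmono hle (push_nF_vary hf k hk.le)) (hmono hη' (hf _ (by omega)))
    (hmono hη' (hf _ (by omega))) hr ?_ (fun y hy => (hopf k hk y (hr y hy)).1)
    (fun y hy => (hopf k hk y (hr y hy)).2) (fun y₀ y₁ h => (hF k hk 0 y₀ y₁ h).trans hη')
    (fun y₀ y₁ h => (hF k hk 1 y₀ y₁ h).trans hη') tc_length
    (fun y₀ y₁ y₂ h => (thc_coboundary hℓ y₀ y₁ y₂ h.2).trans hp) l hl hlE
  · have := hηρ k hk
    linarith
  · linarith
  · rintro y ⟨hy, -⟩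
    rcases hy with h | h
    · have := pow_le_pow_left₀ (half_pos hc).le h 2
      have h2 := sq_nonneg ‖F k 1 y‖
      linarith
    · have := pow_le_pow_left₀ (half_pos hc).le h 2
      have h2 := sq_nonneg ‖F k 0 y‖
      linarith

theorem exists_h (hκ : 1 ≤ κ) (hℓ : 3 ≤ ℓ) (hp : (p : ℝ) / ℓ ≤ 1 / 32) {SX : Set (List X)}
    (hSX : Full SX) (f : ℕ → YY X p ℓ → ℝ) {η c : ℝ} (hη : 0 < η)
    (hηρ : ∀ l < κ, 2000 * (2 * κ + 1) * η ≤ rho l) (hηc : 2000 * (2 * κ + 1) * η ≤ c)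
    (hf : ∀ k ≤ 2 * κ, Vary (SY SX) (f k) η) (F : ℕ → Fin 2 → YY X p ℓ → ℂ)
    (hF : ∀ k < κ, ∀ e y₀ y₁, [y₀, y₁] ∈ SY (p := p) (ℓ := ℓ) SX →
      ‖F k e y₁ * ph (thc y₀ y₁) - F k e y₀‖ ≤ η)
    (hopf : ∀ k < κ, ∀ y, rho k / 2 ≤ rad (nF f rho k) (f (2 * k + 1)) (f (2 * k + 2)) y →
      HopfRel (nF f rho k y) (f (2 * k + 1) y) (f (2 * k + 2) y) (F k 0 y) (F k 1 y))
    (hfs : ∀ k ≤ 2 * κ, ∀ (σ : Equiv.Perm (Fin p)) y, f k (act σ y) = f k y)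
    (hFs : ∀ k < κ, ∀ e (σ : Equiv.Perm (Fin p)) y, F k e (act σ y) = F k e y) :
    ∃ h : List (YY X p ℓ) → ℤ, (∀ l, h l ≠ 0 → l.length = 2 * κ + 1) ∧
      (∀ l ∈ SY SX, h l ≠ 0 → ∀ y ∈ l, ∀ k ≤ 2 * κ, |f k y| ≤ 1 / 8) ∧
      (∀ l ∈ SY SX, (∀ y ∈ l, ∃ k < κ, ∃ e, c ≤ ‖F k e y‖) →
        ∀ l', l'.Sublist l → tau (gvs f κ) l' = dl h l') ∧
      ∀ (σ : Equiv.Perm (Fin p)) l, h (l.map (act σ)) = h l := by
  classical
  have hfull : Full (SY (p := p) (ℓ := ℓ) SX) := gh_full hSX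
  have hκ0 : (0 : ℝ) ≤ κ := Nat.cast_nonneg κ
  have hρη : ∀ l < κ, 100 * (κ + 1) * η ≤ rho l := by
    intro i hi
    have := hηρ i hi
    nlinarith
  have hη' : η ≤ (2 * κ + 1) * η := by nlinarith
  obtain ⟨μ, h1, h2, h3, h4⟩ := push hfull.hered hκ (f := f) (ρ := rho) (t := tc) hη
    (by simp [rho]) gh_rho_succ hρη hf tc_length (fun l hl => dl_tc hℓ hl.2)
    {y | ∃ k < κ, ∃ e, c ≤ ‖F k e y‖} (ghn f F κ η c) (gh_n_len f F η c) (by
      intro l hl hE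
      match l, hl, hE with
      | [], hl, _ =>
        exact ⟨0, hκ, fun l' hl' => gh_round hℓ hp hSX f hη hηρ hηc hf F hF hopf hκ
          (hfull.hered _ hl _ hl') (by
            rw [List.sublist_nil.1 hl']
            exact fun y hy => absurd hy List.not_mem_nil)⟩
      | y₀ :: l₁, hl, hE =>
        obtain ⟨k, hk, e, he⟩ := (hE y₀ (by simp)).1
        refine ⟨k, hk, fun l' hl' => gh_round hℓ hp hSX f hη hηρ hηc hf F hF hopf hk
          (hfull.hered _ hl _ hl') fun y hy => ?_⟩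
        have hy' : y ∈ y₀ :: l₁ := hl'.subset hy
        refine ⟨?_, (hE y hy').2⟩
        have hpair : [y₀, y] ∈ SY (p := p) (ℓ := ℓ) SX := by
          refine hfull _ hl _ fun z hz => ?_
          rcases List.mem_cons.1 hz with rfl | hz
          · exact List.mem_cons_self
          · rw [List.mem_singleton.1 hz]
            exact hy'
        have h5 := hF k hk e y₀ y hpair
        have h6 : ‖F k e y * ph (thc y₀ y)‖ = ‖F k e y‖ := by
          rw [norm_mul, gc_norm_ph, mul_one]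
        have h7 : ‖F k e y₀‖ ≤ ‖F k e y‖ + ‖F k e y * ph (thc y₀ y) - F k e y₀‖ := by
          rw [← h6]
          have := norm_sub_norm_le (F k e y₀) (F k e y * ph (thc y₀ y))
          rw [norm_sub_rev] at this
          linarith
        have h8 : c / 2 ≤ ‖F k e y‖ := by linarith
        match e, h8 with
        | 0, h8 => exact Or.inl h8
        | 1, h8 => exact Or.inr h8)
  refine ⟨fun l => if ∀ y ∈ l, ∃ k < κ, ∃ e, c ≤ ‖F k e y‖ then μ l else 0, ?_, ?_, ?_, ?_⟩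
  · intro l hl
    exact h1 l fun h => hl (by simp only [h, ite_self])
  · intro l hl hne
    exact h2 l hl fun h => hne (by simp only [h, ite_self])
  · intro l hl hE l' hl'
    have hT : Hered {l' : List (YY X p ℓ) | l'.Sublist l} := fun l₁ h1 l₂ h2 => h2.trans h1
    rw [← h3 l' (hfull.hered _ hl _ hl') fun y hy => hE y (hl'.subset hy)]
    refine dl_congr hT (fun l₂ hl₂ => ?_) hl'
    rw [if_pos fun y hy => hE y (List.Sublist.subset hl₂ hy)]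
  · intro σ l
    have hn : ∀ k l, ghn f F κ η c k (l.map (act σ)) = ghn f F κ η c k l := by
      intro k l
      unfold ghn
      split_ifs with hk
      · have hnF : ∀ i ≤ κ, ∀ y, nF f rho i (act σ y) = nF f rho i y :=
          gh_nF_inv fun k hk y => hfs k hk σ y
        refine gh_rn_inv (fun y => ?_)
          (gh_alH_inv (hfs _ (by omega) σ) (hFs k hk 0 σ) (hFs k hk 1 σ))
          (gh_thH_inv (hnF k hk.le) (hfs _ (by omega) σ) (hfs _ (by omega) σ) (thc_act σ)) l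
        show ((c / 2 ≤ ‖F k 0 (act σ y)‖ ∨ c / 2 ≤ ‖F k 1 (act σ y)‖) ∧
          |nF f rho κ (act σ y)| ≤ (2 * κ + 1) * η) ↔ _
        rw [hFs k hk, hFs k hk, hnF κ le_rfl]
        exact Iff.rfl
      · rfl
    have h5 := h4 (act σ) (fun k hk y => hfs k hk σ y) (tc_act σ) hn l
    have h6 : (∀ y ∈ l.map (act σ), ∃ k < κ, ∃ e, c ≤ ‖F k e y‖) ↔
        ∀ y ∈ l, ∃ k < κ, ∃ e, c ≤ ‖F k e y‖ := by
      have h7 : ∀ y, (∃ k < κ, ∃ e, c ≤ ‖F k e (act σ y)‖) ↔ ∃ k < κ, ∃ e, c ≤ ‖F k e y‖ := by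
        intro y
        refine exists_congr fun k => and_congr_right fun hk => exists_congr fun e => ?_
        rw [hFs k hk]
      simp only [List.forall_mem_map, h7]
    simp only [h6, h5]

end Vale.Agent.P093.Hom
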