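import Mathlib
import Vale.Agent.P093.CriterionG
import Vale.Agent.P093.BetaElt
import Vale.Agent.P093.Hom.GroupH

/-!
TASK HOM-H3: the positive element `b` and the comparison.

Proof of `exists_core`: copy the first half of the proof of `not_comparisonBound'`
(`Vale/Agent/P093/CriterionG.lean`), which produces
`CuntzLE (diagM π (fun l => cf (g l))) (fullM π β)` from the comparison bound, then `cuntzLE_map` and
`core` (`Vale/Agent/P093/Core.lean`).

Proof of `exists_b`: let `f G j x = ψ G j x - 1/2`, `r_{G,k} = rad (nF (f G) rho k) (f G (2k+1)) (f G (2k+2))`,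
`û_{G,k} = (nF (f G) rho k, f G (2k+1), f G (2k+2)) / max r_{G,k} (rho k / 2)` (norm `≤ 1`, continuous),
`ω̃ = max 0 (4ω - 3)`, `β x = ω̃ x •` block diagonal matrix with the blocks `betaM (û_{G,k} x)` (index
`(G,k,e)`). `betaM` is positive semidefinite, `1 - betaM` too on the unit ball, trace `2 - ‖u‖ ≥ 1`.
Hopf relations: if `r = r_{G,k} x ≥ rho k / 2` then `û` is the unit vector `(A,B,C)/r` and `betaM û = hopf û`,
any vector `v = hopf û w` satisfies `(1 + û₂) v₁ = (û₀ + i û₁) v₀`, `(1 - û₂) v₀ = (û₀ - i û₁) v₁`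
(direct computation with `û₀² + û₁² + û₂² = 1`); multiply by `r`.
-/

open Filter Topology Set
open scoped ENNReal ComplexOrder

namespace Vale.Agent.P093.Hom

section eltaux

open Matrix

/-- block diagonal matrix with `2 × 2` blocks -/
noncomputable def eltM {t κ : ℕ} (P : Fin t → Fin κ → Matrix (Fin 2) (Fin 2) ℂ) :
    Matrix (Fin t × Fin κ × Fin 2) (Fin t × Fin κ × Fin 2) ℂ :=
  Matrix.of fun i j => if i.1 = j.1 ∧ i.2.1 = j.2.1 then P i.1 i.2.1 i.2.2 j.2.2 else 0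

variable {t κ : ℕ} (P : Fin t → Fin κ → Matrix (Fin 2) (Fin 2) ℂ)

theorem eltM_apply (i j : Fin t × Fin κ × Fin 2) :
    eltM P i j = if i.1 = j.1 ∧ i.2.1 = j.2.1 then P i.1 i.2.1 i.2.2 j.2.2 else 0 := rfl

theorem eltM_mulVec (v : Fin t × Fin κ × Fin 2 → ℂ) (G : Fin t) (k : Fin κ) (e : Fin 2) :
    ∑ i, eltM P (G, k, e) i * v i = (P G k *ᵥ fun e' => v (G, k, e')) e := by
  simp only [Fintype.sum_prod_type, eltM_apply]
  rw [Finset.sum_eq_single G, Finset.sum_eq_single k]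
  · simp only [and_self, if_true]
    rfl
  · intro k' _ hk'
    exact Finset.sum_eq_zero fun e' _ => by rw [if_neg fun h => hk' h.2.symm, zero_mul]
  · intro h; exact absurd (Finset.mem_univ _) h
  · intro G' _ hG'
    exact Finset.sum_eq_zero fun k' _ => Finset.sum_eq_zero fun e' _ => by
      rw [if_neg fun h => hG' h.1.symm, zero_mul]
  · intro h; exact absurd (Finset.mem_univ _) h

theorem eltM_posSemidef (hP : ∀ G k, (P G k).PosSemidef) : (eltM P).PosSemidef := by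
  apply Matrix.PosSemidef.of_dotProduct_mulVec_nonneg
  · ext i j
    rw [Matrix.conjTranspose_apply, eltM_apply, eltM_apply]
    obtain ⟨G, k, e⟩ := i
    obtain ⟨G', k', e'⟩ := j
    by_cases h : G = G' ∧ k = k'
    · obtain ⟨rfl, rfl⟩ := h
      simp only [and_self, if_true]
      exact (hP G k).isHermitian.apply e e'
    · rw [if_neg h, if_neg fun h' => h ⟨h'.1.symm, h'.2.symm⟩, star_zero]
  · intro v
    have h : star v ⬝ᵥ (eltM P *ᵥ v) = ∑ G, ∑ k, star (fun e' => v (G, k, e')) ⬝ᵥ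
        (P G k *ᵥ fun e' => v (G, k, e')) := by
      simp only [dotProduct, Fintype.sum_prod_type]
      refine Finset.sum_congr rfl fun G _ => Finset.sum_congr rfl fun k _ =>
        Finset.sum_congr rfl fun e _ => ?_
      have h1 : (eltM P *ᵥ v) (G, k, e) = (P G k *ᵥ fun e' => v (G, k, e')) e :=
        eltM_mulVec P v G k e
      rw [h1]
      rfl
    rw [h]
    exact Finset.sum_nonneg fun G _ => Finset.sum_nonneg fun k _ =>
      (hP G k).dotProduct_mulVec_nonneg _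

theorem one_sub_eltM : 1 - eltM P = eltM fun G k => 1 - P G k := by
  ext i j
  rw [Matrix.sub_apply, eltM_apply, eltM_apply]
  obtain ⟨G, k, e⟩ := i
  obtain ⟨G', k', e'⟩ := j
  by_cases h : G = G' ∧ k = k'
  · obtain ⟨rfl, rfl⟩ := h
    simp only [and_self, if_true, Matrix.sub_apply, Matrix.one_apply, Prod.mk.injEq, true_and]
  · rw [if_neg h, if_neg h, sub_zero, Matrix.one_apply, if_neg]
    rintro h'
    simp only [Prod.mk.injEq] at h'
    exact h ⟨h'.1, h'.2.1⟩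

theorem eltM_trace : ∑ i, eltM P i i = ∑ G, ∑ k, (P G k).trace := by
  simp only [Fintype.sum_prod_type, eltM_apply, and_self, if_true]
  rfl

end eltaux

/-- the vector `(A, B, C) / max r (ρ / 2)` -/
noncomputable def eltU (A B C ρ : ℝ) : EuclideanSpace ℝ (Fin 3) :=
  (max (Real.sqrt (A ^ 2 + B ^ 2 + C ^ 2)) (ρ / 2))⁻¹ • WithLp.toLp 2 ![A, B, C]

theorem eltU_norm {A B C ρ : ℝ} (hρ : 0 < ρ) : ‖eltU A B C ρ‖ =
    (max (Real.sqrt (A ^ 2 + B ^ 2 + C ^ 2)) (ρ / 2))⁻¹ * Real.sqrt (A ^ 2 + B ^ 2 + C ^ 2) := by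
  have h0 : 0 < max (Real.sqrt (A ^ 2 + B ^ 2 + C ^ 2)) (ρ / 2) :=
    lt_max_of_lt_right (half_pos hρ)
  rw [eltU, norm_smul, norm_inv, Real.norm_of_nonneg h0.le, EuclideanSpace.norm_eq]
  simp [Fin.sum_univ_three, sq_abs]

theorem eltU_norm_le {A B C ρ : ℝ} (hρ : 0 < ρ) : ‖eltU A B C ρ‖ ≤ 1 := by
  have h0 : 0 < max (Real.sqrt (A ^ 2 + B ^ 2 + C ^ 2)) (ρ / 2) :=
    lt_max_of_lt_right (half_pos hρ)
  rw [eltU_norm hρ, inv_mul_le_iff₀ h0, mul_one]
  exact le_max_left _ _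

theorem eltU_continuous {X : Type*} [TopologicalSpace X] {A B C : X → ℝ} {ρ : ℝ} (hρ : 0 < ρ)
    (hA : Continuous A) (hB : Continuous B) (hC : Continuous C) :
    Continuous fun x => eltU (A x) (B x) (C x) ρ := by
  have h1 : Continuous fun x => max (Real.sqrt (A x ^ 2 + B x ^ 2 + C x ^ 2)) (ρ / 2) :=
    ((((hA.pow 2).add (hB.pow 2)).add (hC.pow 2)).sqrt).max continuous_const
  have h2 : Continuous fun x => (WithLp.toLp 2 ![A x, B x, C x] : EuclideanSpace ℝ (Fin 3)) := by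
    refine (PiLp.continuous_toLp 2 _).comp ?_
    refine continuous_pi fun i => ?_
    fin_cases i
    · exact hA
    · exact hB
    · exact hC
  exact (h1.inv₀ fun x => (lt_max_of_lt_right (half_pos hρ)).ne').smul h2

theorem hopfRel_of {A B C : ℝ} (hr : 0 < Real.sqrt (A ^ 2 + B ^ 2 + C ^ 2))
    (s w0 w1 v0 v1 : ℂ)
    (h0 : ((Real.sqrt (A ^ 2 + B ^ 2 + C ^ 2) : ℝ) : ℂ) * v0 =
      s * ((((Real.sqrt (A ^ 2 + B ^ 2 + C ^ 2) : ℝ) : ℂ) + C) * w0 + (A - B * Complex.I) * w1))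
    (h1 : ((Real.sqrt (A ^ 2 + B ^ 2 + C ^ 2) : ℝ) : ℂ) * v1 =
      s * ((A + B * Complex.I) * w0 + (((Real.sqrt (A ^ 2 + B ^ 2 + C ^ 2) : ℝ) : ℂ) - C) * w1)) :
    HopfRel A B C v0 v1 := by
  have hr2 : ((Real.sqrt (A ^ 2 + B ^ 2 + C ^ 2) : ℝ) : ℂ) ^ 2 = A ^ 2 + B ^ 2 + C ^ 2 := by
    rw [← Complex.ofReal_pow, Real.sq_sqrt (by positivity)]
    push_cast
    rfl
  unfold HopfRel
  set r := Real.sqrt (A ^ 2 + B ^ 2 + C ^ 2) with hrdef
  have hr0 : (r : ℂ) ≠ 0 := by exact_mod_cast hr.ne'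
  have hI := Complex.I_sq
  have e1 : (⟨A, B⟩ : ℂ) = A + B * Complex.I := by
    apply Complex.ext <;> simp
  have e2 : (⟨A, -B⟩ : ℂ) = A - B * Complex.I := by
    apply Complex.ext <;> simp
  rw [e1, e2]
  constructor
  · apply mul_left_cancel₀ hr0
    push_cast
    linear_combination ((r : ℂ) + C) * h1 - (A + B * Complex.I) * h0 + s * w1 * hr2 +
      s * w1 * B ^ 2 * hI
  · apply mul_left_cancel₀ hr0
    push_cast
    linear_combination ((r : ℂ) - C) * h0 - (A - B * Complex.I) * h1 + s * w0 * hr2 +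
      s * w0 * B ^ 2 * hI

theorem nF_continuous {X : Type*} [TopologicalSpace X] {f : ℕ → X → ℝ} {ρ : ℕ → ℝ}
    (hf : ∀ k, Continuous (f k)) (l : ℕ) : Continuous (nF f ρ l) := by
  induction l with
  | zero => exact hf 0
  | succ l ih =>
    have h : Continuous fun y => Real.sqrt (nF f ρ l y ^ 2 + f (2 * l + 1) y ^ 2 +
        f (2 * l + 2) y ^ 2) - ρ l :=
      ((((ih.pow 2).add ((hf _).pow 2)).add ((hf _).pow 2)).sqrt).sub continuous_const
    exact h

set_option backward.isDefEq.respectTransparency false in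
theorem exists_core {X : Type*} [TopologicalSpace X] [CompactSpace X] [T2Space X]
    {A : Type*} [CStarAlgebra A] [PartialOrder A] [StarOrderedRing A] {h : X ≃ₜ X}
    (hfree : ∀ (k : ℤ) (x : X), k ≠ 0 → (h ^ k) x ≠ x)
    (hA : IsCrossedProduct h A) {r : ℝ} (hr : IsComparisonBound A r) {n m : ℕ}
    (g G : Fin n → C(X, ℝ)) (β : Fin m → Fin m → C(X, ℂ)) (r' : ℝ) (N₀ : ℕ) (hN₀ : 0 < N₀)
    (hr' : r < r')
    (hg0 : ∀ l x, 0 ≤ g l x) (hg1 : ∀ l x, g l x ≤ 1) (hG0 : ∀ l x, 0 ≤ G l x)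
    (hG : ∀ l x, g l x ≠ 0 → 1 ≤ G l x)
    (hβ : ∀ x, (Matrix.of fun k k' => β k k' x).PosSemidef)
    (hβ1 : ∀ x, (1 - Matrix.of fun k k' => β k k' x).PosSemidef)
    (hav : ∀ x, ∑ j ∈ Finset.range N₀, ∑ l, G l ((h ^ (j : ℤ)) x) + r' * N₀ ≤
      ∑ j ∈ Finset.range N₀, ∑ k, (β k k ((h ^ (j : ℤ)) x)).re) :
    ∃ (R : ℕ) (K : Fin m → Fin n → ℤ → ℤ → C(X, ℂ)), ∀ (x0 : X) (I : Finset ℤ)
      (z : ℤ → Fin n → ℂ), (∀ j ∈ I, ∀ l, z j l ≠ 0 → 3 / 4 ≤ g l ((h ^ j) x0)) →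
      (∀ (i : ℤ) (κ : Fin m), ∑ κ', β κ κ' ((h ^ i) x0) *
        (∑ l, ∑ j ∈ I, if i ∈ Finset.Icc (j - (R:ℤ)) (j + R) then K κ' l i j x0 * z j l else 0)
          = 0) →
      ∀ j ∈ I, ∀ l, z j l = 0 := by
  obtain ⟨π, u, hπ, hu1, hu2, hcov, hd⟩ := hA
  obtain ⟨Λ, hΛ, -⟩ := exists_lam hfree hπ hu1 hu2 hcov hd
  obtain ⟨-, hcomp⟩ := hr
  have hle : CuntzLE (diagM π (fun l => cf (g l))) (fullM π β) := by
    refine hcomp n m _ _ (diagM_nonneg π g hg0) (fullM_nonneg π β hβ) fun τ => ?_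
    have h1 := dTau_diag_le' π τ g G hg0 hg1 hG0 hG
    have h2 := traceEval_le_dTau τ (fullM_nonneg π β hβ) (fullM_le_one π β hβ1)
    rw [traceEval_full' π τ β hβ] at h2
    have h3 := trace_average' π h hu1 hu2 hcov τ (∑ l, G l) (trFun β) r' N₀ hN₀ (fun x => by
      have := hav x
      simp only [ContinuousMap.sum_apply, trFun_apply]
      exact this)
    linarith
  exact core h β g (cuntzLE_map Λ hΛ _ β hle)

theorem exists_b {X : Type*} [TopologicalSpace X] [CompactSpace X] {κ t : ℕ}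
    (ω : C(X, ℝ)) (hω0 : ∀ x, 0 ≤ ω x) (hω1 : ∀ x, ω x ≤ 1) (ψ : Fin t → ℕ → C(X, ℝ)) :
    ∃ β : Fin t × Fin κ × Fin 2 → Fin t × Fin κ × Fin 2 → C(X, ℂ),
      (∀ x, (Matrix.of fun k k' => β k k' x).PosSemidef) ∧
      (∀ x, (1 - Matrix.of fun k k' => β k k' x).PosSemidef) ∧
      (∀ x, ω x = 1 → (t * κ : ℝ) ≤ ∑ k, (β k k x).re) ∧
      (∀ x, 0 ≤ ∑ k, (β k k x).re) ∧
      (∀ x i j, β i j x ≠ 0 → 3 / 4 < ω x) ∧
      ∀ x (w : Fin t × Fin κ × Fin 2 → ℂ) (G : Fin t) (k : Fin κ),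
        rho k / 2 ≤ rad (nF (fun j x => ψ G j x - 1 / 2) rho k)
          (fun x => ψ G (2 * k + 1) x - 1 / 2) (fun x => ψ G (2 * k + 2) x - 1 / 2) x →
        HopfRel (nF (fun j x => ψ G j x - 1 / 2) rho k x)
          (ψ G (2 * k + 1) x - 1 / 2) (ψ G (2 * k + 2) x - 1 / 2)
          (∑ i, β (G, k, 0) i x * w i) (∑ i, β (G, k, 1) i x * w i) := by
  have hfc : ∀ (G : Fin t) (j : ℕ), Continuous fun x => ψ G j x - 1 / 2 := fun G j =>
    (ψ G j).continuous.sub continuous_const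
  set U : Fin t → Fin κ → X → EuclideanSpace ℝ (Fin 3) := fun G k x =>
    eltU (nF (fun j x => ψ G j x - 1 / 2) rho k x) (ψ G (2 * k + 1) x - 1 / 2)
      (ψ G (2 * k + 2) x - 1 / 2) (rho k) with hU
  have hUc : ∀ G k, Continuous (U G k) := fun G k =>
    eltU_continuous (gh_rho_pos _) (nF_continuous (hfc G) _) (hfc G _) (hfc G _)
  have hU1 : ∀ G k x, ‖U G k x‖ ≤ 1 := fun G k x => eltU_norm_le (gh_rho_pos _)
  set s : X → ℝ := fun x => max 0 (4 * ω x - 3) with hs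
  have hsc : Continuous s :=
    continuous_const.max ((continuous_const.mul ω.continuous).sub continuous_const)
  have hs0 : ∀ x, 0 ≤ s x := fun x => le_max_left _ _
  have hs1 : ∀ x, s x ≤ 1 := fun x => max_le zero_le_one (by linarith [hω1 x])
  set P : X → Fin t → Fin κ → Matrix (Fin 2) (Fin 2) ℂ := fun x G k => betaM (U G k x) with hP
  have hc : ∀ i j, Continuous fun x => ((s x : ℝ) : ℂ) * eltM (P x) i j := by
    intro i j
    refine (Complex.continuous_ofReal.comp hsc).mul ?_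
    simp only [eltM_apply]
    by_cases hij : i.1 = j.1 ∧ i.2.1 = j.2.1
    · simp only [if_pos hij]
      exact (continuous_apply_apply i.2.2 j.2.2).comp (betaM_continuous.comp (hUc _ _))
    · simp only [if_neg hij]
      exact continuous_const
  have hmat : ∀ x, (Matrix.of fun k k' => (⟨fun x => ((s x : ℝ) : ℂ) * eltM (P x) k k', hc k k'⟩ :
      C(X, ℂ)) x) = ((s x : ℝ) : ℂ) • eltM (P x) := fun x => rfl
  have htr : ∀ x, ∑ k, ((⟨fun x => ((s x : ℝ) : ℂ) * eltM (P x) k k, hc k k⟩ :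
      C(X, ℂ)) x).re = s x * ∑ G : Fin t, ∑ k : Fin κ, (2 - ‖U G k x‖) := by
    intro x
    have h1 : ∑ k, ((⟨fun x => ((s x : ℝ) : ℂ) * eltM (P x) k k, hc k k⟩ :
      C(X, ℂ)) x).re = s x * (∑ k, eltM (P x) k k).re := by
      rw [Complex.re_sum, Finset.mul_sum]
      refine Finset.sum_congr rfl fun k _ => ?_
      exact Complex.re_ofReal_mul _ _
    rw [h1, eltM_trace]
    congr 1
    rw [Complex.re_sum]
    refine Finset.sum_congr rfl fun G _ => ?_
    rw [Complex.re_sum]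
    refine Finset.sum_congr rfl fun k _ => ?_
    rw [hP]
    change (betaM (U G k x)).trace.re = _
    rw [betaM_trace, Complex.ofReal_re]
  have hsum : ∀ x, (t * κ : ℝ) ≤ ∑ G : Fin t, ∑ k : Fin κ, (2 - ‖U G k x‖) := by
    intro x
    have h1 : ∑ _G : Fin t, ∑ _k : Fin κ, (1 : ℝ) ≤
        ∑ G : Fin t, ∑ k : Fin κ, (2 - ‖U G k x‖) :=
      Finset.sum_le_sum fun G _ => Finset.sum_le_sum fun k _ => by linarith [hU1 G k x]
    simpa using h1
  refine ⟨fun i j => ⟨fun x => ((s x : ℝ) : ℂ) * eltM (P x) i j, hc i j⟩, ?_, ?_, ?_, ?_, ?_, ?_⟩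
  · intro x
    rw [hmat]
    exact (eltM_posSemidef _ fun G k => betaM_posSemidef (hU1 G k x)).smul
      (by exact_mod_cast hs0 x)
  · intro x
    rw [hmat]
    have h2 : (1 : Matrix (Fin t × Fin κ × Fin 2) (Fin t × Fin κ × Fin 2) ℂ) -
        ((s x : ℝ) : ℂ) • eltM (P x) = ((1 - s x : ℝ) : ℂ) • 1 +
          ((s x : ℝ) : ℂ) • (1 - eltM (P x)) := by
      rw [smul_sub, Complex.ofReal_sub, sub_smul, Complex.ofReal_one, one_smul]
      abel
    rw [h2, one_sub_eltM]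
    refine (Matrix.PosSemidef.one.smul ?_).add
      ((eltM_posSemidef _ fun G k => one_sub_betaM_posSemidef _).smul ?_)
    · exact_mod_cast sub_nonneg.2 (hs1 x)
    · exact_mod_cast hs0 x
  · intro x hx
    rw [htr]
    have : s x = 1 := by
      rw [hs]
      change max 0 (4 * ω x - 3) = 1
      rw [hx]; norm_num
    rw [this, one_mul]
    exact hsum x
  · intro x
    rw [htr]
    exact mul_nonneg (hs0 x) ((by positivity : (0 : ℝ) ≤ t * κ).trans (hsum x))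
  · intro x i j hij
    by_contra hcon
    push Not at hcon
    apply hij
    change ((s x : ℝ) : ℂ) * eltM (P x) i j = 0
    have : s x = 0 := max_eq_left (by linarith)
    rw [this, Complex.ofReal_zero, zero_mul]
  · intro x w G k hk
    have hrad : rad (nF (fun j x => ψ G j x - 1 / 2) rho k)
          (fun x => ψ G (2 * k + 1) x - 1 / 2) (fun x => ψ G (2 * k + 2) x - 1 / 2) x =
        Real.sqrt (nF (fun j x => ψ G j x - 1 / 2) rho k x ^ 2 +
          (ψ G (2 * k + 1) x - 1 / 2) ^ 2 + (ψ G (2 * k + 2) x - 1 / 2) ^ 2) := rfl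
    rw [hrad] at hk
    set a := nF (fun j x => ψ G j x - 1 / 2) rho k x with ha
    set b := ψ G (2 * k + 1) x - 1 / 2 with hb
    set c := ψ G (2 * k + 2) x - 1 / 2 with hc'
    have hr : 0 < Real.sqrt (a ^ 2 + b ^ 2 + c ^ 2) :=
      lt_of_lt_of_le (half_pos (gh_rho_pos _)) hk
    have hr0 : ((Real.sqrt (a ^ 2 + b ^ 2 + c ^ 2) : ℝ) : ℂ) ≠ 0 := by exact_mod_cast hr.ne'
    have hsumβ : ∀ e : Fin 2, ∑ i, (⟨fun x => ((s x : ℝ) : ℂ) * eltM (P x) (G, k, e) i,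
        hc (G, k, e) i⟩ : C(X, ℂ)) x * w i =
        ((s x : ℝ) : ℂ) * (Matrix.mulVec (betaM (U G k x)) fun e' => w (G, k, e')) e := by
      intro e
      rw [← eltM_mulVec (P x) w G k e, Finset.mul_sum]
      refine Finset.sum_congr rfl fun i _ => ?_
      exact mul_assoc _ _ _
    rw [hsumβ, hsumβ]
    have hnorm : ‖U G k x‖ = 1 := by
      change ‖eltU a b c (rho k)‖ = 1
      rw [eltU_norm (gh_rho_pos _), max_eq_left hk, inv_mul_cancel₀ hr.ne']
    have hu : U G k x = (Real.sqrt (a ^ 2 + b ^ 2 + c ^ 2))⁻¹ • WithLp.toLp 2 ![a, b, c] := by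
      change eltU a b c (rho k) = _
      rw [eltU, max_eq_left hk]
    have hu0 : (U G k x) 0 = (Real.sqrt (a ^ 2 + b ^ 2 + c ^ 2))⁻¹ * a := by rw [hu]; rfl
    have hu1 : (U G k x) 1 = (Real.sqrt (a ^ 2 + b ^ 2 + c ^ 2))⁻¹ * b := by rw [hu]; rfl
    have hu2 : (U G k x) 2 = (Real.sqrt (a ^ 2 + b ^ 2 + c ^ 2))⁻¹ * c := by rw [hu]; rfl
    rw [betaM_sphere hnorm]
    refine hopfRel_of hr (((s x : ℝ) : ℂ) / 2) (w (G, k, 0)) (w (G, k, 1)) _ _ ?_ ?_
    · simp only [Matrix.mulVec, dotProduct, Fin.sum_univ_two, hopf, Matrix.of_apply,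
        Matrix.cons_val_zero, Matrix.cons_val_one, hu0, hu1, hu2]
      push_cast
      field_simp
    · simp only [Matrix.mulVec, dotProduct, Fin.sum_univ_two, hopf, Matrix.of_apply,
        Matrix.cons_val_zero, Matrix.cons_val_one, hu0, hu1, hu2]
      push_cast
      field_simp

end Vale.Agent.P093.Hom
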