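import Mathlib
import Vale.Agent.P093.Lind
import Vale.Agent.P093.Phase

/-!
Continuous towers (task HOM-H2a). The phases move by `q` modulo `n = q L + 1`.
-/

open Filter Topology Set

namespace Vale.Agent.P093.Hom

section count

open scoped Classical in
/-- among `n = q L + 1` phases with increments `q` at least `c` are in an arc of length `c` -/
theorem tw_arc_count {q L n c : ℕ} (hn : n = q * L + 1) (hc : c ≤ n) (o s : ℝ) :
    c ≤ (Finset.univ.filter fun i : Fin n => ∃ k : ℤ, o ≤ s + q * (i : ℕ) - n * k ∧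
      s + q * (i : ℕ) - n * k ≤ o + c).card := by
  have hn0 : 0 < n := by omega
  refine (arc_count_lower hc hn0 o s).trans ?_
  let f : Fin n → Fin n := fun i => ⟨(q * (i : ℕ)) % n, Nat.mod_lt _ hn0⟩
  have hcop : Nat.Coprime n q := by
    rw [hn]
    exact Nat.isCoprime_iff_coprime.1 ⟨1, -(L : ℤ), by push_cast; ring⟩
  have hinj : Function.Injective f := by
    intro i j hij
    have h1 : (q * (i : ℕ)) % n = (q * (j : ℕ)) % n := congrArg Fin.val hij
    have h2 : (i : ℕ) ≡ j [MOD n] := Nat.ModEq.cancel_left_of_coprime hcop h1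
    exact Fin.ext (by
      have h3 : (i : ℕ) % n = (j : ℕ) % n := h2
      rwa [Nat.mod_eq_of_lt i.2, Nat.mod_eq_of_lt j.2] at h3)
  have hsurj : Function.Surjective f := Finite.surjective_of_injective hinj
  refine le_trans (Finset.card_le_card ?_) (Finset.card_image_le (f := f))
  intro r hr
  rw [Finset.mem_filter] at hr
  obtain ⟨-, k, h1, h2⟩ := hr
  obtain ⟨i, rfl⟩ := hsurj r
  obtain ⟨e, he⟩ : ∃ e : ℕ, e = q * (i : ℕ) / n := ⟨_, rfl⟩
  refine Finset.mem_image.2 ⟨i, Finset.mem_filter.2 ⟨Finset.mem_univ _, k + (e : ℤ), ?_⟩, rfl⟩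
  have h3 : (((f i : Fin n) : ℕ) : ℝ) = q * (i : ℕ) - n * (e : ℝ) := by
    have h4 : (q * (i : ℕ)) % n + n * e = q * (i : ℕ) := by rw [he]; exact Nat.mod_add_div _ _
    have h5 : (((q * (i : ℕ)) % n : ℕ) : ℝ) + n * (e : ℝ) = q * (i : ℕ) := by exact_mod_cast h4
    show (((q * (i : ℕ)) % n : ℕ) : ℝ) = _
    linarith
  rw [h3] at h1 h2
  push_cast
  constructor <;> nlinarith

variable {s : ℕ → ℝ} {A : ℕ → Prop}

theorem tw_stretch {q : ℕ} (hs : ∀ j, ¬ A (j + 1) → s (j + 1) = s j + q) (a i : ℕ)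
    (hA : ∀ j, a < j → j ≤ a + i → ¬ A j) : s (a + i) = s a + q * i := by
  induction i with
  | zero => simp
  | succ i ih =>
    rw [← add_assoc, hs (a + i) (hA _ (by omega) (by omega)), ih fun j h1 h2 => hA j h1 (by omega)]
    push_cast
    ring

variable [DecidablePred A]

theorem tw_block_one {q L n c : ℕ} (hn : n = q * L + 1)
    (hs : ∀ j, ¬ A (j + 1) → s (j + 1) = s j + q) (hc : c ≤ n) (o : ℝ) (P : ℕ → Prop)
    [DecidablePred P]
    (hP : ∀ j, (∃ k : ℤ, o ≤ s j - n * k ∧ s j - n * k ≤ o + c) → P j) (a : ℕ) :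
    c ≤ ((Finset.Ico a (a + n)).filter P).card + c * ((Finset.Ico a (a + n)).filter A).card := by
  classical
  by_cases hA : ∀ j, a < j → j < a + n → ¬ A j
  · refine le_trans ?_ (Nat.le_add_right _ _)
    rw [count_Ico_eq]
    refine (tw_arc_count hn hc o (s a)).trans (Finset.card_le_card ?_)
    intro i hi
    rw [Finset.mem_filter] at hi ⊢
    refine ⟨Finset.mem_univ _, hP _ ?_⟩
    rw [tw_stretch hs a i fun j h1 h2 => hA j h1 (by have := i.2; omega)]
    exact hi.2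
  · push Not at hA
    obtain ⟨j, h1, h2, h3⟩ := hA
    have h4 : 0 < ((Finset.Ico a (a + n)).filter A).card :=
      Finset.card_pos.2 ⟨j, Finset.mem_filter.2 ⟨Finset.mem_Ico.2 ⟨h1.le, h2⟩, h3⟩⟩
    calc c = c * 1 := (mul_one c).symm
      _ ≤ c * _ := Nat.mul_le_mul_left _ h4
      _ ≤ _ := Nat.le_add_left _ _

theorem tw_block {q L n c : ℕ} (hn : n = q * L + 1)
    (hs : ∀ j, ¬ A (j + 1) → s (j + 1) = s j + q) (hc : c ≤ n) (o : ℝ) (P : ℕ → Prop)
    [DecidablePred P]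
    (hP : ∀ j, (∃ k : ℤ, o ≤ s j - n * k ∧ s j - n * k ≤ o + c) → P j) (a B : ℕ) :
    c * B ≤ ((Finset.Ico a (a + n * B)).filter P).card +
      c * ((Finset.Ico a (a + n * B)).filter A).card := by
  induction B with
  | zero => simp
  | succ B ih =>
    have h1 := tw_block_one hn hs hc o P hP (a + n * B)
    have h2 : a + n * (B + 1) = a + n * B + n := by ring
    rw [h2, filter_Ico_split P (Nat.le_add_right a (n * B)) (Nat.le_add_right _ n),
      filter_Ico_split A (Nat.le_add_right a (n * B)) (Nat.le_add_right _ n)]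
    nlinarith

/-- the times close to a reset are rare -/
theorem tw_sparse {H : ℕ} (hH : 0 < H) (L N : ℕ) (R : ℕ → Prop) [DecidablePred R]
    (hsep : ∀ i j, i < j → R i → R j → H ≤ j - i) (hA : ∀ j, A j → ∃ k ≤ L, R (j + k)) :
    H * ((Finset.Ico 0 N).filter A).card ≤ (L + 1) * (N + L + H) := by
  have h1 := sparse_count hH 0 (N + L) R hsep
  have h2 : ((Finset.Ico 0 N).filter A).card ≤
      (((Finset.Ico 0 (N + L)).filter R) ×ˢ Finset.range (L + 1)).card := by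
    choose! k hk using hA
    refine Finset.card_le_card_of_injOn (fun j => (j + k j, k j)) ?_ ?_
    · intro j hj
      rw [Finset.mem_coe, Finset.mem_filter, Finset.mem_Ico] at hj
      obtain ⟨h3, h4⟩ := hk j hj.2
      show (j + k j, k j) ∈ _
      rw [Finset.mem_coe, Finset.mem_product, Finset.mem_filter, Finset.mem_Ico, Finset.mem_range]
      exact ⟨⟨⟨Nat.zero_le _, by omega⟩, h4⟩, by omega⟩
    · intro i _ j _ hij
      simp only [Prod.mk.injEq] at hij
      omega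
  rw [Finset.card_product, Finset.card_range] at h2
  calc H * ((Finset.Ico 0 N).filter A).card
      ≤ H * (((Finset.Ico 0 (N + L)).filter R).card * (L + 1)) := Nat.mul_le_mul_left _ h2
    _ = (L + 1) * (H * ((Finset.Ico 0 (N + L)).filter R).card) := by ring
    _ ≤ (L + 1) * ((N + L - 0) + H) := Nat.mul_le_mul_left _ h1
    _ = (L + 1) * (N + L + H) := by rw [Nat.sub_zero]

end count

section tower

variable {X : Type*} [MetricSpace X]

/-- the tower function -/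
theorem tw_def (h : X ≃ₜ X) (L q : ℕ) (w nn : C(X, ℝ)) :
    ∃ ω : C(X, ℝ), ∀ x, ω x = arc (q * L + 1) 1 ((q : ℝ) - 2) 1 (q * nn x) *
      ∏ k ∈ Finset.Icc 1 L, max 0 (1 - 2 * |w ((h ^ (k : ℤ)) x)|) := by
  refine ⟨⟨_, ?_⟩, fun x => rfl⟩
  refine ((arc_continuous _ _ _ _).comp (by fun_prop)).mul (continuous_finsetProd _ fun k _ => ?_)
  have := (h ^ (k : ℤ)).continuous
  fun_prop

variable {h : X ≃ₜ X} {L q : ℕ} {w nn ω : C(X, ℝ)}

theorem tw_nonneg (hω : ∀ x, ω x = arc (q * L + 1) 1 ((q : ℝ) - 2) 1 (q * nn x) *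
    ∏ k ∈ Finset.Icc 1 L, max 0 (1 - 2 * |w ((h ^ (k : ℤ)) x)|)) (x : X) :
    0 ≤ ω x ∧ ω x ≤ 1 := by
  rw [hω]
  have h1 : 0 ≤ ∏ k ∈ Finset.Icc 1 L, max 0 (1 - 2 * |w ((h ^ (k : ℤ)) x)|) :=
    Finset.prod_nonneg fun k _ => le_max_left _ _
  have h2 : ∏ k ∈ Finset.Icc 1 L, max 0 (1 - 2 * |w ((h ^ (k : ℤ)) x)|) ≤ 1 := by
    refine Finset.prod_le_one (fun k _ => le_max_left _ _) fun k _ => max_le zero_le_one ?_
    have := abs_nonneg (w ((h ^ (k : ℤ)) x))
    linarith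
  exact ⟨mul_nonneg (arc_nonneg _ _ _ _ _) h1,
    mul_le_one₀ (arc_le_one _ _ _ _ _) h1 h2⟩

/-- the support of the tower function -/
theorem tw_supp (hω : ∀ x, ω x = arc (q * L + 1) 1 ((q : ℝ) - 2) 1 (q * nn x) *
    ∏ k ∈ Finset.Icc 1 L, max 0 (1 - 2 * |w ((h ^ (k : ℤ)) x)|)) {x : X} (hx : ω x ≠ 0) :
    (∃ k : ℤ, 0 < q * nn x - (q * L + 1) * k ∧ q * nn x - (q * L + 1) * k < q) ∧
      ∀ k : ℕ, 1 ≤ k → k ≤ L → |w ((h ^ (k : ℤ)) x)| ≤ 1 / 2 := by
  rw [hω] at hx
  constructor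
  · obtain ⟨k, h1, h2⟩ := arc_ne_zero one_pos (left_ne_zero_of_mul hx)
    refine ⟨k, ?_, ?_⟩
    · push_cast at h1
      linarith
    · push_cast at h2
      linarith
  · intro k h1 h2
    have h3 := (Finset.prod_ne_zero_iff.1 (right_ne_zero_of_mul hx)) k (Finset.mem_Icc.2 ⟨h1, h2⟩)
    by_contra h4
    rw [not_le] at h4
    exact h3 (max_eq_left (by linarith))

variable [CompactSpace X]

theorem tw_zpow_succ (h : X ≃ₜ X) (i : ℤ) (x : X) : (h ^ (i + 1)) x = h ((h ^ i) x) := by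
  rw [add_comm, zpow_add_apply', zpow_one]

theorem tw_sep (hnn : ∀ x, |w (h x)| ≤ 1 / 2 → nn (h x) = nn x + 1)
    (hω : ∀ x, ω x = arc (q * L + 1) 1 ((q : ℝ) - 2) 1 (q * nn x) *
    ∏ k ∈ Finset.Icc 1 L, max 0 (1 - 2 * |w ((h ^ (k : ℤ)) x)|)) (x : X) (i j : ℤ) (hij : i < j)
    (hi : ω ((h ^ i) x) ≠ 0) (hj : ω ((h ^ j) x) ≠ 0) : (L : ℤ) ≤ j - i := by
  by_contra hlt
  rw [not_le] at hlt
  obtain ⟨⟨k₁, a1, a2⟩, a3⟩ := tw_supp hω hi
  obtain ⟨⟨k₂, b1, b2⟩, -⟩ := tw_supp hω hj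
  obtain ⟨t, ht⟩ : ∃ t : ℕ, j = i + t := ⟨(j - i).toNat, by omega⟩
  have key : ∀ t : ℕ, t ≤ L → nn ((h ^ (i + t)) x) = nn ((h ^ i) x) + t := by
    intro t
    induction t with
    | zero => intro _; simp
    | succ t ih =>
      intro htL
      have h1 := a3 (t + 1) (by omega) htL
      rw [← zpow_add_apply'] at h1
      have h2 : ((t + 1 : ℕ) : ℤ) + i = (i + t) + 1 := by push_cast; ring
      rw [h2, tw_zpow_succ] at h1
      have h3 := hnn _ h1
      have h4 : i + ((t + 1 : ℕ) : ℤ) = (i + t) + 1 := by push_cast; ring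
      rw [h4, tw_zpow_succ, h3, ih (by omega)]
      push_cast
      ring
  subst ht
  have ht1 : 1 ≤ t := by omega
  have htL : t + 1 ≤ L := by omega
  rw [key t (by omega)] at b1 b2
  -- integer inequality
  have c1 : ((q : ℤ) * t - (q * L + 1) * (k₂ - k₁) : ℤ) < q := by
    have : (((q : ℤ) * t - (q * L + 1) * (k₂ - k₁) : ℤ) : ℝ) < ((q : ℤ) : ℝ) := by
      push_cast
      linarith
    exact_mod_cast this
  have c2 : -(q : ℤ) < ((q : ℤ) * t - (q * L + 1) * (k₂ - k₁) : ℤ) := by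
    have : ((-(q : ℤ) : ℤ) : ℝ) < (((q : ℤ) * t - (q * L + 1) * (k₂ - k₁) : ℤ) : ℝ) := by
      push_cast
      linarith
    exact_mod_cast this
  have hq : (0 : ℤ) ≤ q := Int.natCast_nonneg q
  have ht1' : (1 : ℤ) ≤ t := by exact_mod_cast ht1
  have htL' : (t : ℤ) + 1 ≤ L := by exact_mod_cast htL
  rcases le_or_gt (k₂ - k₁) 0 with hk | hk
  · have e1 : (0 : ℤ) ≤ (q * L + 1) * -(k₂ - k₁) := by
      refine mul_nonneg ?_ (by omega)
      positivity
    have e2 : (q : ℤ) * 1 ≤ q * t := mul_le_mul_of_nonneg_left ht1' hq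
    linarith
  · have e1 : ((q : ℤ) * L + 1) * 1 ≤ (q * L + 1) * (k₂ - k₁) := by
      refine mul_le_mul_of_nonneg_left (by omega) ?_
      positivity
    have e2 : (q : ℤ) * (t + 1) ≤ q * L := mul_le_mul_of_nonneg_left htL' hq
    linarith

end tower

open scoped Classical in
theorem exists_towerA {X : Type*} [MetricSpace X] [CompactSpace X] [Infinite X] (h : X ≃ₜ X)
    (hmin : IsMinimalHomeo h) (L : ℕ) (hL : 0 < L) {ε : ℝ} (hε : 0 < ε) :
    ∃ ω : C(X, ℝ), (∀ x, 0 ≤ ω x) ∧ (∀ x, ω x ≤ 1) ∧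
      (∀ x (i j : ℤ), i < j → ω ((h ^ i) x) ≠ 0 → ω ((h ^ j) x) ≠ 0 → (L : ℤ) ≤ j - i) ∧
      ∃ C : ℝ, ∀ x (N : ℕ), (1 - ε) * N / L - C ≤
        ((Finset.range N).filter fun i : ℕ => ω ((h ^ (i : ℤ)) x) = 1).card := by
  have hL' : (0 : ℝ) < L := by exact_mod_cast hL
  obtain ⟨q, hq⟩ := exists_nat_ge (6 / ε + 2)
  have hq2 : 2 ≤ q := by
    have : (2 : ℝ) ≤ q := by
      have := div_pos (show (0 : ℝ) < 6 by norm_num) hε
      linarith
    exact_mod_cast this
  obtain ⟨c, rfl⟩ : ∃ c, q = c + 2 := ⟨q - 2, by omega⟩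
  obtain ⟨n, hn⟩ : ∃ n, n = (c + 2) * L + 1 := ⟨_, rfl⟩
  have hn0 : 0 < n := by omega
  obtain ⟨H, hH⟩ := exists_nat_ge (2 * L * (c + 1) * (L + 1) / ε + 1)
  have hH0 : 0 < H := by
    have : (0 : ℝ) < H := lt_of_lt_of_le (by positivity) hH
    exact_mod_cast this
  obtain ⟨w, nn, hsep, hnn⟩ := exists_lind h hmin H
  obtain ⟨ω, hω⟩ := tw_def h L (c + 2) w nn
  refine ⟨ω, fun x => (tw_nonneg hω x).1, fun x => (tw_nonneg hω x).2, tw_sep hnn hω,
    c + (c + 1) * (L + 1) * (L + 1), fun x N => ?_⟩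
  -- resets
  let R : ℕ → Prop := fun j => w ((h ^ (j : ℤ)) x) ≠ 0
  let A : ℕ → Prop := fun j => ∃ k ≤ L, R (j + k)
  let s : ℕ → ℝ := fun j => ((c + 2 : ℕ) : ℝ) * nn ((h ^ (j : ℤ)) x)
  let P : ℕ → Prop := fun j => ω ((h ^ (j : ℤ)) x) = 1
  let P' : ℕ → Prop := fun j => P j ∨ A j
  have hstep : ∀ j, ¬ A (j + 1) → s (j + 1) = s j + ((c + 2 : ℕ) : ℝ) := by
    intro j hj
    have h1 : w ((h ^ ((j + 1 : ℕ) : ℤ)) x) = 0 := by
      by_contra h1
      exact hj ⟨0, Nat.zero_le _, h1⟩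
    have h2 : (((j + 1 : ℕ) : ℤ)) = (j : ℤ) + 1 := by push_cast; ring
    rw [h2, tw_zpow_succ] at h1
    have h3 := hnn _ (show |w (h ((h ^ (j : ℤ)) x))| ≤ 1 / 2 by rw [h1, abs_zero]; norm_num)
    show ((c + 2 : ℕ) : ℝ) * nn ((h ^ ((j + 1 : ℕ) : ℤ)) x) = _
    rw [h2, tw_zpow_succ, h3]
    ring
  have hP : ∀ j, (∃ k : ℤ, (1 : ℝ) ≤ s j - n * k ∧ s j - n * k ≤ 1 + c) → P' j := by
    rintro j ⟨k, h1, h2⟩
    by_cases hA : A j
    · exact Or.inr hA
    · left
      show ω ((h ^ (j : ℤ)) x) = 1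
      rw [hω]
      have h3 : arc ((c + 2) * L + 1) 1 (((c + 2 : ℕ) : ℝ) - 2) 1
          (((c + 2 : ℕ) : ℝ) * nn ((h ^ (j : ℤ)) x)) = 1 := by
        rw [← hn]
        refine arc_eq_one one_pos k h1 ?_
        refine h2.trans (le_of_eq ?_)
        push_cast
        ring
      rw [h3, one_mul]
      refine Finset.prod_eq_one fun k hk => ?_
      rw [Finset.mem_Icc] at hk
      have h4 : w ((h ^ (k : ℤ)) ((h ^ (j : ℤ)) x)) = 0 := by
        by_contra h4
        refine hA ⟨k, hk.2, ?_⟩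
        show w ((h ^ ((j + k : ℕ) : ℤ)) x) ≠ 0
        rw [← zpow_add_apply'] at h4
        have h5 : (((j + k : ℕ) : ℤ)) = (k : ℤ) + j := by push_cast; ring
        rw [h5]
        exact h4
      rw [h4, abs_zero]
      norm_num
  have hcn : c ≤ n := by
    have := Nat.mul_le_mul_left (c + 2) hL
    omega
  have h1 := tw_block hn hstep hcn 1 P' hP 0 (N / n)
  have hNn : n * (N / n) ≤ N := Nat.mul_div_le N n
  have h2 : ((Finset.Ico 0 (0 + n * (N / n))).filter P').card ≤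
      ((Finset.range N).filter P).card + ((Finset.Ico 0 N).filter A).card := by
    refine le_trans (Finset.card_le_card ?_) (Finset.card_union_le _ _)
    intro j hj
    rw [Finset.mem_filter, Finset.mem_Ico] at hj
    rw [Finset.mem_union, Finset.mem_filter, Finset.mem_filter, Finset.mem_range, Finset.mem_Ico]
    rcases hj.2 with h3 | h3
    · exact Or.inl ⟨by omega, h3⟩
    · exact Or.inr ⟨⟨Nat.zero_le _, by omega⟩, h3⟩
  have h3 : ((Finset.Ico 0 (0 + n * (N / n))).filter A).card ≤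
      ((Finset.Ico 0 N).filter A).card := by
    refine Finset.card_le_card (Finset.filter_subset_filter _ ?_)
    exact Finset.Ico_subset_Ico le_rfl (by omega)
  have h4 : H * ((Finset.Ico 0 N).filter A).card ≤ (L + 1) * (N + L + H) := by
    refine tw_sparse hH0 L N R ?_ (fun j hj => hj)
    intro i j hij hi hj
    have := hsep x i j (by exact_mod_cast hij) hi hj
    omega
  show (1 - ε) * N / L - (c + (c + 1) * (L + 1) * (L + 1)) ≤ (((Finset.range N).filter P).card : ℝ)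
  generalize ((Finset.range N).filter P).card = p at *
  generalize ((Finset.Ico 0 N).filter A).card = a at *
  generalize ((Finset.Ico 0 (0 + n * (N / n))).filter P').card = p' at *
  generalize ((Finset.Ico 0 (0 + n * (N / n))).filter A).card = a' at *
  have h5 : c * (N / n) ≤ p + (c + 1) * a := by
    have := Nat.mul_le_mul_left c h3
    linarith
  have h6 : N < n * (N / n) + n := by
    have := Nat.lt_mul_div_succ N hn0
    rwa [Nat.mul_add, Nat.mul_one] at this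
  generalize N / n = e at *
  have g1 : (c : ℝ) * ε ≥ 6 := by
    have : 6 / ε ≤ c := by push_cast at hq; linarith
    rwa [div_le_iff₀ hε] at this
  have g2 : 2 * L * ((c : ℝ) + 1) * (L + 1) ≤ H * ε := by
    have : 2 * L * ((c : ℝ) + 1) * (L + 1) / ε ≤ H := by linarith
    rwa [div_le_iff₀ hε] at this
  have hL1 : (1 : ℝ) ≤ L := by exact_mod_cast hL
  have hH1 : (1 : ℝ) ≤ H := by exact_mod_cast hH0
  have h5' : (c : ℝ) * e ≤ p + (c + 1) * a := by exact_mod_cast h5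
  have h6' : (N : ℝ) ≤ n * (e + 1) := by
    have : (N : ℝ) < n * e + n := by exact_mod_cast h6
    linarith
  have h4' : (H : ℝ) * a ≤ (L + 1) * (N + L + H) := by exact_mod_cast h4
  have hn' : (n : ℝ) = (c + 2) * L + 1 := by rw [hn]; push_cast; ring
  have hc0 : (0 : ℝ) ≤ c := Nat.cast_nonneg c
  have he0 : (0 : ℝ) ≤ e := Nat.cast_nonneg e
  have hN0 : (0 : ℝ) ≤ N := Nat.cast_nonneg N
  have k1 : (1 - ε / 2) * N ≤ c * (e + 1) * L := by
    rcases le_or_gt (1 - ε / 2) 0 with h0 | h0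
    · exact (mul_nonpos_of_nonpos_of_nonneg h0 hN0).trans (by positivity)
    · have e1 : (1 - ε / 2) * n ≤ c * L := by
        rw [hn']
        have f1 := mul_le_mul_of_nonneg_right g1.le hL'.le
        have f2 : 0 ≤ ε * (2 * (L : ℝ) + 1) := by positivity
        linarith
      calc (1 - ε / 2) * N ≤ (1 - ε / 2) * (n * (e + 1)) := mul_le_mul_of_nonneg_left h6' h0.le
        _ = ((1 - ε / 2) * n) * (e + 1) := by ring
        _ ≤ (c * L) * (e + 1) := mul_le_mul_of_nonneg_right e1 (by linarith)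
        _ = c * (e + 1) * L := by ring
  have k2 : (c + 1) * a * L ≤ ε / 2 * N + (c + 1) * (L + 1) * (L + 1) * (L : ℝ) := by
    have e1 : (H : ℝ) * ((c + 1) * a * L) ≤
        H * (ε / 2 * N + (c + 1) * (L + 1) * (L + 1) * (L : ℝ)) := by
      have e2 : (H : ℝ) * ((c + 1) * a * L) ≤ (c + 1) * L * ((L + 1) * (N + L + H)) := by
        have := mul_le_mul_of_nonneg_left h4' (show (0 : ℝ) ≤ (c + 1) * L by positivity)
        linarith
      have e3 : (c + 1) * L * (L + 1) * (N : ℝ) ≤ H * (ε / 2 * N) := by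
        have := mul_le_mul_of_nonneg_right g2 hN0
        linarith
      have e4 : (L : ℝ) + H ≤ H * (L + 1) := by
        have := mul_le_mul_of_nonneg_right hH1 hL'.le
        linarith
      have e5 : (c + 1) * L * (L + 1) * ((L : ℝ) + H) ≤ (c + 1) * L * (L + 1) * (H * (L + 1)) :=
        mul_le_mul_of_nonneg_left e4 (by positivity)
      linarith
    exact le_of_mul_le_mul_left e1 (by linarith)
  rw [sub_le_iff_le_add, div_le_iff₀ hL']
  have k3 : (c : ℝ) * (e + 1) * L ≤ (p + (c + 1) * a + c) * L := by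
    refine mul_le_mul_of_nonneg_right ?_ hL'.le
    linarith
  linarith

end Vale.Agent.P093.Hom
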