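import Mathlib
import Vale.Agent.P093.Lind
import Vale.Agent.P093.Hom.TowerA

/-!
TASK HOM-H2: continuous towers.

Proof. Let `ε < 1` (otherwise `ω = 0`... note that for `ε ≥ 1` the zero function works). Choose
`q ≥ 8/ε`, `d = ε/16`, the period `λ = L + 1/q` and `H` a huge integer (`H ≥ 100 q L² / ε` or so).
`exists_lind h hmin H` gives `w`, `nn : C(X, ℝ)` (`w ≠ 0` at times at least `H` apart, and
`nn (h x) = nn x + 1` if `|w (h x)| ≤ 1/2`). Let `bump : ℝ → ℝ` be continuous, `λ`-periodic, with values in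
`[0,1]`, positive exactly on `(0,1) + λℤ` and `= 1` on `[d, 1-d] + λℤ` (e.g. in terms of the distance to
`1/2 + λℤ`, cf. `latDist` and `arc` in `Vale/Agent/P093/Phase.lean`, where the period is an integer; scale
or copy), and `ω x = bump (nn x) * ∏_{k=1}^{L} max 0 (1 - 2 |w (h^k x)|)`.
Separation: if `ω (h^i x) ≠ 0` and `ω (h^j x) ≠ 0`, `i < j`, `j - i < L`, then there is no reset between
them: `nn (h^j x) = nn (h^i x) + (j - i)`, both in `(0,1) + λℤ`, so `j - i ∈ λ k + (-1,1)` for an integer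
`k`; `1 ≤ j - i ≤ L - 1` is impossible: `k = 0` gives `j - i < 1`, `k ≥ 1` gives `j - i > λ - 1 > L - 1`.
Count: `ω (h^i x) = 1` as soon as `nn (h^i x) ∈ [d, 1-d] + λℤ` and `w (h^{i+k} x) = 0` for `1 ≤ k ≤ L`.
The number of `i < N + L` with `w (h^i x) ≠ 0` is at most `(N+L)/H + 1`; they cut the time interval into
at most `(N+L)/H + 2` stretches on which the phase increases by one in each step and `w = 0`. On a stretch of
length `T`, with phases `s, s+1, …`, consider the integers `k` with `λ k` well inside; the interval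
`λ k + [d, 1-d]` contains a phase unless the fractional part of `s - λ k` is in a fixed interval
of length `2d` modulo 1; as `λ k = L k + k/q`, among `q` consecutive `k` at most `2 d q + 1` are bad. So the
number of good `i` in a stretch of length `T` is at least `(T / (q λ) - 2) (q - 2dq - 1) ≥
(1 - ε/2) T / L - 2 q` (as `λ = L (1 + 1/(qL))`). Sum over the stretches: at least
`(1 - ε) N / L - C`.

`exists_scalar`: let `δ = (s' - s)/4`, `n ≥ s' + 1` a natural number, `L` large (`n / L ≤ δ`), `c ≤ L` natural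
with `n c / L ∈ [s + δ, s + 2δ]`, and `ω` from `exists_tower` for `L` and `ε = min 1 (δ / (n + 1))`, so that
`n c (1 - ε)/L ≥ s`. Put `ω₁ = max 0 (2ω - 1)`, `ω₂ = min 1 (2ω)` and for all `l`
`g l x = ∑_{k<c} ω₁ (h^{-k} x)`, `G l x = ∑_{k<c} ω₂ (h^{-k} x)`. Since `c ≤ L`, at most one summand is nonzero.
`g l x ≠ 0` gives `k` with `ω (h^{-k} x) > 1/2`, so `ω₂ = 1` there. The sum of `G` over `j < N` is at most
`n * ∑_{k<c} #{i ∈ [-k, N-k) | ω (h^i x) ≠ 0} ≤ n c (N/L + 2)`. If `ω (h^i x) = 1`, `0 ≤ i`, `k < c`,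
`i + k < N` then `g (h^{i+k} x) = 1`, and different pairs `(i,k)` give different `i + k`.
-/

open Filter Topology Set

namespace Vale.Agent.P093.Hom

open scoped Classical in
theorem exists_tower {X : Type*} [MetricSpace X] [CompactSpace X] [Infinite X] (h : X ≃ₜ X)
    (hmin : IsMinimalHomeo h) (L : ℕ) (hL : 0 < L) {ε : ℝ} (hε : 0 < ε) :
    ∃ ω : C(X, ℝ), (∀ x, 0 ≤ ω x) ∧ (∀ x, ω x ≤ 1) ∧
      (∀ x (i j : ℤ), i < j → ω ((h ^ i) x) ≠ 0 → ω ((h ^ j) x) ≠ 0 → (L : ℤ) ≤ j - i) ∧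
      ∃ C : ℝ, ∀ x (N : ℕ), (1 - ε) * N / L - C ≤
        ((Finset.range N).filter fun i : ℕ => ω ((h ^ (i : ℤ)) x) = 1).card :=
  exists_towerA h hmin L hL hε

end Vale.Agent.P093.Hom
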