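import Mathlib
import Vale.Agent.P093.Hom.Tower

/-!
TASK HOM-H2b: scalar elements, from continuous towers.
-/

open Filter Topology Set

namespace Vale.Agent.P093.Hom

/-- a set of times `< N` with gaps at least `L` has at most `N / L + 1` elements. -/
theorem card_le_of_gap (S : Finset ℕ) (N L : ℕ) (hL : 0 < L) (hS : ∀ i ∈ S, i < N)
    (hgap : ∀ i ∈ S, ∀ j ∈ S, i < j → L ≤ j - i) : (S.card : ℝ) ≤ N / L + 1 := by
  have h1 : S.card ≤ (Finset.range (N / L + 1)).card := by
    refine Finset.card_le_card_of_injOn (fun i => i / L) (fun i hi => ?_) ?_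
    · have h2 := hS i (by simpa using hi)
      simp only [Finset.coe_range, Set.mem_Iio]
      exact Nat.lt_succ_of_le (Nat.div_le_div_right h2.le)
    · intro i hi j hj hij
      simp only at hij
      have hi' : i ∈ S := by simpa using hi
      have hj' : j ∈ S := by simpa using hj
      have e1 := Nat.div_add_mod i L
      have e2 := Nat.div_add_mod j L
      have e3 := Nat.mod_lt i hL
      have e4 := Nat.mod_lt j hL
      rw [hij] at e1
      rcases lt_trichotomy i j with h3 | h3 | h3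
      · have := hgap i hi' j hj' h3
        omega
      · exact h3
      · have := hgap j hj' i hi' h3
        omega
  rw [Finset.card_range] at h1
  have h2 : ((N / L : ℕ) : ℝ) ≤ (N : ℝ) / L := Nat.cast_div_le
  have h3 : (S.card : ℝ) ≤ ((N / L : ℕ) : ℝ) + 1 := by exact_mod_cast h1
  linarith

open scoped Classical in
/-- scalar elements: positive functions with prescribed density -/
theorem exists_scalar {X : Type*} [MetricSpace X] [CompactSpace X] [Infinite X] (h : X ≃ₜ X)
    (hmin : IsMinimalHomeo h) {s s' : ℝ} (hs : 0 ≤ s) (hss : s < s') :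
    ∃ (n : ℕ) (g G : Fin n → C(X, ℝ)), (∀ l x, 0 ≤ g l x) ∧ (∀ l x, g l x ≤ 1) ∧
      (∀ l x, 0 ≤ G l x) ∧ (∀ l x, g l x ≠ 0 → 1 ≤ G l x) ∧
      ∃ C : ℝ, ∀ x (N : ℕ), (∑ j ∈ Finset.range N, ∑ l, G l ((h ^ (j : ℤ)) x) ≤ s' * N + C) ∧
        s * N - C ≤ (Finset.univ.filter
          (fun p : Fin N × Fin n => g p.2 ((h ^ ((p.1 : ℕ) : ℤ)) x) = 1)).card := by
  -- the parameters
  obtain ⟨δ, hδ, hδs⟩ : ∃ δ : ℝ, 0 < δ ∧ s' = s + 4 * δ := ⟨(s' - s) / 4, by linarith, by ring⟩
  obtain ⟨n, hn⟩ := exists_nat_ge (s' + 1)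
  have hn1 : (1 : ℝ) ≤ n := by linarith
  have hn0 : (0 : ℝ) < n := by linarith
  obtain ⟨L, hLn⟩ := exists_nat_ge (n / δ)
  have hL0 : (0 : ℝ) < L := lt_of_lt_of_le (by positivity) hLn
  have hL : 0 < L := by exact_mod_cast hL0
  have hLδ : (n : ℝ) ≤ δ * L := by rwa [div_le_iff₀' hδ] at hLn
  obtain ⟨c, hc⟩ : ∃ c : ℕ, c = ⌈(s + δ) * L / n⌉₊ := ⟨_, rfl⟩
  have hc1 : (s + δ) * L ≤ n * c := by
    have h1 : (s + δ) * L / n ≤ c := by
      rw [hc]
      exact Nat.le_ceil _
    rwa [div_le_iff₀' hn0] at h1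
  have hc2 : n * (c : ℝ) ≤ (s + 2 * δ) * L := by
    have h1 : (c : ℝ) < (s + δ) * L / n + 1 := by
      rw [hc]
      exact Nat.ceil_lt_add_one (by positivity)
    have h2 : n * (c : ℝ) ≤ n * ((s + δ) * L / n + 1) := by gcongr
    rw [mul_add, mul_div_cancel₀ _ hn0.ne'] at h2
    nlinarith
  have hcL : c ≤ L := by
    have h1 : n * (c : ℝ) ≤ n * L := by nlinarith
    exact_mod_cast le_of_mul_le_mul_left h1 hn0
  obtain ⟨ω, h0, h1, hsep, C₀, hC₀⟩ := exists_tower h hmin L hL (ε := δ / n) (by positivity)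
  -- the functions
  let ω₁ : C(X, ℝ) := ⟨fun x => max 0 (2 * ω x - 1), by fun_prop⟩
  let ω₂ : C(X, ℝ) := ⟨fun x => min 1 (2 * ω x), by fun_prop⟩
  have hcont : ∀ k : ℤ, Continuous fun x => (h ^ k) x := fun k => (h ^ k).continuous
  let g : C(X, ℝ) := ⟨fun x => ∑ k ∈ Finset.range c, ω₁ ((h ^ (-(k : ℤ))) x),
    continuous_finsetSum _ fun k _ => ω₁.continuous.comp (hcont _)⟩
  let G : C(X, ℝ) := ⟨fun x => ∑ k ∈ Finset.range c, ω₂ ((h ^ (-(k : ℤ))) x),
    continuous_finsetSum _ fun k _ => ω₂.continuous.comp (hcont _)⟩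
  have hω₁ : ∀ x, ω₁ x = max 0 (2 * ω x - 1) := fun x => rfl
  have hω₂ : ∀ x, ω₂ x = min 1 (2 * ω x) := fun x => rfl
  have hg : ∀ x, g x = ∑ k ∈ Finset.range c, ω₁ ((h ^ (-(k : ℤ))) x) := fun x => rfl
  have hG : ∀ x, G x = ∑ k ∈ Finset.range c, ω₂ ((h ^ (-(k : ℤ))) x) := fun x => rfl
  have hω₁0 : ∀ x, 0 ≤ ω₁ x := fun x => le_max_left _ _
  have hω₁1 : ∀ x, ω₁ x ≤ 1 := fun x => max_le zero_le_one (by linarith [h1 x])
  have hω₂0 : ∀ x, 0 ≤ ω₂ x := fun x => le_min zero_le_one (by linarith [h0 x])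
  have hω₂1 : ∀ x, ω₂ x ≤ 1 := fun x => min_le_left _ _
  have huniq : ∀ x, ∀ i j : ℤ, |i - j| < L → ω ((h ^ i) x) ≠ 0 → ω ((h ^ j) x) ≠ 0 → i = j := by
    intro x i j hij hi hj
    rw [abs_lt] at hij
    rcases lt_trichotomy i j with h3 | h3 | h3
    · have := hsep x i j h3 hi hj
      omega
    · exact h3
    · have := hsep x j i h3 hj hi
      omega
  have hg0 : ∀ x, 0 ≤ g x := by
    intro x
    rw [hg]
    exact Finset.sum_nonneg fun k _ => hω₁0 _
  have hg1 : ∀ x, g x ≤ 1 := by
    intro x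
    rw [hg]
    by_cases hk : ∃ k ∈ Finset.range c, ω ((h ^ (-(k : ℤ))) x) ≠ 0
    · obtain ⟨k, hk, hk'⟩ := hk
      rw [Finset.sum_eq_single_of_mem k hk]
      · exact hω₁1 _
      · intro l hl hlk
        have h3 : ω ((h ^ (-(l : ℤ))) x) = 0 := by
          by_contra h3
          rw [Finset.mem_range] at hk hl
          have := huniq x _ _ (by rw [abs_lt]; omega) h3 hk'
          exact hlk (by omega)
        rw [hω₁, h3]
        norm_num
    · push Not at hk
      rw [Finset.sum_eq_zero]
      · exact zero_le_one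
      · intro l hl
        rw [hω₁, hk l hl]
        norm_num
  have hG0 : ∀ x, 0 ≤ G x := by
    intro x
    rw [hG]
    exact Finset.sum_nonneg fun k _ => hω₂0 _
  have hgG : ∀ x, g x ≠ 0 → 1 ≤ G x := by
    intro x hx
    rw [hg] at hx
    obtain ⟨k, hk, hk'⟩ := Finset.exists_ne_zero_of_sum_ne_zero hx
    have h3 : 1 ≤ ω₂ ((h ^ (-(k : ℤ))) x) := by
      rw [hω₁] at hk'
      rw [hω₂]
      refine le_min le_rfl ?_
      by_contra h4
      push Not at h4
      exact hk' (max_eq_left (by linarith))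
    exact h3.trans (Finset.single_le_sum (f := fun k : ℕ => ω₂ ((h ^ (-(k : ℤ))) x))
      (fun _ _ => hω₂0 _) hk)
  have hgone : ∀ x, ∀ k < c, ω ((h ^ (-(k : ℤ))) x) = 1 → g x = 1 := by
    intro x k hk hx
    refine le_antisymm (hg1 x) ?_
    have h3 : ω₁ ((h ^ (-(k : ℤ))) x) = 1 := by
      rw [hω₁, hx]
      norm_num
    rw [← h3]
    exact Finset.single_le_sum (f := fun k : ℕ => ω₁ ((h ^ (-(k : ℤ))) x))
      (fun _ _ => hω₁0 _) (Finset.mem_range.2 hk)
  -- upper bound
  have hup : ∀ x (N : ℕ), ∑ j ∈ Finset.range N, G ((h ^ (j : ℤ)) x) ≤ c * (N / L + 1) := by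
    intro x N
    simp only [hG]
    rw [Finset.sum_comm, ← nsmul_eq_mul]
    refine (Finset.sum_le_card_nsmul _ _ ((N : ℝ) / L + 1) fun k _ => ?_).trans_eq
      (by rw [Finset.card_range])
    have h3 : ∀ j ∈ Finset.range N, ω₂ ((h ^ (-(k : ℤ))) ((h ^ (j : ℤ)) x)) ≤
        if ω ((h ^ ((j : ℤ) - k)) x) ≠ 0 then 1 else 0 := by
      intro j _
      rw [← zpow_add_apply', neg_add_eq_sub]
      split_ifs with h4
      · exact hω₂1 _
      · push Not at h4
        rw [hω₂, h4]
        norm_num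
    refine (Finset.sum_le_sum h3).trans ?_
    rw [Finset.sum_boole]
    refine card_le_of_gap _ N L hL (fun i hi => ?_) fun i hi j hj hij => ?_
    · exact Finset.mem_range.1 (Finset.mem_filter.1 hi).1
    · have := hsep x _ _ (by omega : (i : ℤ) - k < (j : ℤ) - k) (Finset.mem_filter.1 hi).2
        (Finset.mem_filter.1 hj).2
      omega
  -- lower bound
  have hlow : ∀ x (N : ℕ), (c : ℝ) * ((1 - δ / n) * N / L - C₀) - c ≤
      ((Finset.range N).filter fun j : ℕ => g ((h ^ (j : ℤ)) x) = 1).card := by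
    intro x N
    have h3 : c * ((Finset.range N).filter fun i : ℕ => ω ((h ^ (i : ℤ)) x) = 1).card ≤
        ((Finset.range N).filter fun j : ℕ => g ((h ^ (j : ℤ)) x) = 1).card + c := by
      calc c * ((Finset.range N).filter fun i : ℕ => ω ((h ^ (i : ℤ)) x) = 1).card
          = (((Finset.range N).filter fun i : ℕ => ω ((h ^ (i : ℤ)) x) = 1) ×ˢ
              Finset.range c).card := by
            rw [Finset.card_product, Finset.card_range, mul_comm]
        _ ≤ ((Finset.range (N + c)).filter fun j : ℕ => g ((h ^ (j : ℤ)) x) = 1).card := by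
            refine Finset.card_le_card_of_injOn (fun p => p.1 + p.2) (fun p hp => ?_) ?_
            · simp only [Finset.coe_product, Finset.coe_filter, Finset.coe_range, Set.mem_prod,
                Finset.mem_range, Set.mem_Iio] at hp
              obtain ⟨⟨hp1, hp2⟩, hp3⟩ := hp
              refine Finset.mem_coe.2 (Finset.mem_filter.2
                ⟨Finset.mem_range.2 (add_lt_add hp1 hp3), hgone _ p.2 hp3 ?_⟩)
              rw [← zpow_add_apply']
              push_cast
              rw [neg_add_eq_sub, add_sub_cancel_right]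
              exact hp2
            · rintro ⟨i, k⟩ hp ⟨i', k'⟩ hp' heq
              simp only [Finset.coe_product, Finset.coe_filter, Finset.coe_range, Set.mem_prod,
                Finset.mem_range, Set.mem_Iio] at hp hp'
              simp only at heq
              obtain ⟨⟨hp1, hp2⟩, hp3⟩ := hp
              obtain ⟨⟨hp1', hp2'⟩, hp3'⟩ := hp'
              have := huniq x i i' (by rw [abs_lt]; omega) (by rw [hp2]; exact one_ne_zero)
                (by rw [hp2']; exact one_ne_zero)
              have h5 : i = i' := by exact_mod_cast this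
              subst h5
              have h6 : k = k' := by omega
              rw [h6]
        _ ≤ (((Finset.range N).filter fun j : ℕ => g ((h ^ (j : ℤ)) x) = 1) ∪
              Finset.Ico N (N + c)).card := by
            refine Finset.card_le_card fun j hj => ?_
            rw [Finset.mem_filter, Finset.mem_range] at hj
            rw [Finset.mem_union, Finset.mem_filter, Finset.mem_range, Finset.mem_Ico]
            by_cases h4 : j < N
            · exact Or.inl ⟨h4, hj.2⟩
            · exact Or.inr ⟨by omega, hj.1⟩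
        _ ≤ _ := by
            refine (Finset.card_union_le _ _).trans ?_
            rw [Nat.card_Ico]
            omega
    have h4 := hC₀ x N
    have h5 : (c : ℝ) * ((Finset.range N).filter fun i : ℕ => ω ((h ^ (i : ℤ)) x) = 1).card ≤
        ((Finset.range N).filter fun j : ℕ => g ((h ^ (j : ℤ)) x) = 1).card + c := by
      exact_mod_cast h3
    have h6 : (c : ℝ) * ((1 - δ / n) * N / L - C₀) ≤
        c * ((Finset.range N).filter fun i : ℕ => ω ((h ^ (i : ℤ)) x) = 1).card := by gcongr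
    linarith
  refine ⟨n, fun _ => g, fun _ => G, fun _ => hg0, fun _ => hg1, fun _ => hG0, fun _ => hgG,
    n * c * (|C₀| + 1), fun x N => ⟨?_, ?_⟩⟩
  · simp only [Finset.sum_const, Finset.card_univ, Fintype.card_fin, nsmul_eq_mul]
    rw [← Finset.mul_sum]
    have h3 := hup x N
    have h4 : (n : ℝ) * ∑ j ∈ Finset.range N, G ((h ^ (j : ℤ)) x) ≤ n * (c * (N / L + 1)) := by
      gcongr
    have h5 : (n : ℝ) * (c * (N / L + 1)) = (n * c) * (N / L) + n * c := by ring
    have h6 : (n * c : ℝ) * (N / L) ≤ (s + 2 * δ) * L * (N / L) := by gcongr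
    have h7 : (s + 2 * δ) * L * ((N : ℝ) / L) = (s + 2 * δ) * N := by
      field_simp
    have h8 : (s + 2 * δ) * N ≤ s' * N := by
      rw [hδs]
      gcongr
      linarith
    have h9 : (n * c : ℝ) ≤ n * c * (|C₀| + 1) := by
      nlinarith [abs_nonneg C₀, (by positivity : (0 : ℝ) ≤ n * c)]
    linarith
  · have hcard : (Finset.univ.filter
        (fun p : Fin N × Fin n => g ((h ^ ((p.1 : ℕ) : ℤ)) x) = 1)).card =
        ((Finset.range N).filter fun j : ℕ => g ((h ^ (j : ℤ)) x) = 1).card * n := by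
      have h3 : (Finset.univ.filter
          (fun p : Fin N × Fin n => g ((h ^ ((p.1 : ℕ) : ℤ)) x) = 1)) =
          (Finset.univ.filter fun j : Fin N => g ((h ^ ((j : ℕ) : ℤ)) x) = 1) ×ˢ
            (Finset.univ : Finset (Fin n)) := by
        ext p
        simp
      rw [h3, Finset.card_product, Finset.card_univ, Fintype.card_fin]
      congr 1
      rw [Finset.card_filter, Finset.card_filter]
      exact Fin.sum_univ_eq_sum_range (fun j => if g ((h ^ (j : ℤ)) x) = 1 then 1 else 0) N
    rw [hcard]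
    push_cast
    have h3 := hlow x N
    have h4 : ((c : ℝ) * ((1 - δ / n) * N / L - C₀) - c) * n ≤
        ((Finset.range N).filter fun j : ℕ => g ((h ^ (j : ℤ)) x) = 1).card * n := by gcongr
    refine le_trans ?_ h4
    have h5 : ((c : ℝ) * ((1 - δ / n) * N / L - C₀) - c) * n =
        (n * c) * (N / L) - δ * c * (N / L) - n * c * (C₀ + 1) := by
      field_simp
      ring
    have h6 : (s + δ) * L * ((N : ℝ) / L) ≤ (n * c) * (N / L) := by gcongr
    have h7 : (s + δ) * L * ((N : ℝ) / L) = (s + δ) * N := by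
      field_simp
    have h8 : δ * c * ((N : ℝ) / L) ≤ δ * L * (N / L) := by
      gcongr
    have h9 : δ * L * ((N : ℝ) / L) = δ * N := by
      field_simp
    have h10 : n * c * (C₀ + 1) ≤ n * c * (|C₀| + 1) := by
      gcongr
      exact le_abs_self _
    rw [h5]
    linarith

end Vale.Agent.P093.Hom
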