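import Mathlib
import Vale.Agent.P093.Hom.Elt
import Vale.Agent.P093.Hom.Tower
import Vale.Agent.P093.Hom.Scalar

/-!
TASK HOM-H4: the nowhere vanishing multihomogeneous family.

Proof. Choose `s < s' < r'' := κ t (1-ε)/L - r'` with `r < r'` (possible by `hs`); `exists_scalar` for
`s < s'` gives `n, g, G`, `C₁`; `exists_b` gives `β` (reindex `Fin t × Fin κ × Fin 2 ≃ Fin (t*(κ*2))`,
`finProdFinEquiv`). Trace condition of `exists_core` for `N₀` large:
`∑_{j<N₀} ∑_l G l (h^j x) + r' N₀ ≤ s' N₀ + C₁ + r' N₀ ≤ κ t ((1-ε) N₀/L - C₀)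
 ≤ ∑_{j<N₀} tr β (h^j x)` (`hcount`; the trace is `≥ t κ` where `ω = 1` and `≥ 0` everywhere).
`exists_core` gives `R, K`. Given `N` and `p = 2κa` with `p + 1 ≤ s N - C` (`C = C₁ + 1`), let
`I = [0, N)`, `node j l = j n + l` (complex number, distinct for distinct `(j,l)`, `l < n`),
`φ y = max 0 (y - 3/4)`,
`z x q j l = φ (g l (h^j x)) * ∏_{i : Fin p} (q i 0 + q i 1 * node j l)`,
`u x q i κ' = ∑ l, ∑ j ∈ I, if i ∈ [j-R, j+R] then K κ' l i j x * z x q j l else 0`,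
`F (i, G) k e x q = ∑ κ', β (G,k,e) κ' (h^{i-R} x) * u x q (i-R) κ'` for `i : Fin (N + 2R)`.
Continuity, multihomogeneity (`∏ (c i q i 0 + c i q i 1 ν) = ∏ c i ∏ …`), symmetry are clear.
Nonvanishing: suppose all `F (i,G) k e x q = 0`; for times `i ∉ [-R, N+R)` `u = 0`; so by `exists_core`
`z x q j l = 0` for all `j ∈ I`, `l`. But there are at least `p + 1` pairs `(j,l)` with
`g l (h^j x) = 1`, `φ = 1/4`; for each `i : Fin p` at most one node `ν` has `q i 0 + q i 1 ν = 0`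
(`q i ≠ 0`: if `q i 1 = 0` none, else exactly one value of `ν`), so some pair has `z ≠ 0`.
-/

open Filter Topology Set
open scoped ENNReal ComplexOrder

namespace Vale.Agent.P093.Hom

/-! ### auxiliary definitions -/

/-- the nodes -/
noncomputable def famNode (n : ℕ) (j : ℤ) (l : Fin n) : ℂ := ((j * n + (l : ℕ) : ℤ) : ℂ)

theorem famNode_inj {n : ℕ} {j j' : ℤ} {l l' : Fin n} (h : famNode n j l = famNode n j' l') :
    j = j' ∧ l = l' := by
  unfold famNode at h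
  have h1 : j * n + (l : ℕ) = j' * n + (l' : ℕ) := by exact_mod_cast h
  have hl := l.2
  have hl' := l'.2
  have hn : (0 : ℤ) < n := by omega
  have h2 : j = j' := by
    have a1 : (j * n + (l : ℕ)) / n = j := by
      rw [Int.add_comm, Int.add_mul_ediv_right _ _ hn.ne',
        Int.ediv_eq_zero_of_lt (by omega) (by omega), zero_add]
    have a2 : (j' * n + (l' : ℕ)) / n = j' := by
      rw [Int.add_comm, Int.add_mul_ediv_right _ _ hn.ne',
        Int.ediv_eq_zero_of_lt (by omega) (by omega), zero_add]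
    rw [← a1, ← a2, h1]
  subst h2
  refine ⟨rfl, Fin.ext ?_⟩
  omega

section

variable {X : Type*} [TopologicalSpace X] {n m p : ℕ}

/-- the values at the nodes -/
noncomputable def famZ (h : X ≃ₜ X) (g : Fin n → C(X, ℝ)) (x : X) (q : Fin p → Fin 2 → ℂ) (j : ℤ)
    (l : Fin n) : ℂ :=
  ((max 0 (g l ((h ^ j) x) - 3 / 4) : ℝ) : ℂ) * ∏ i, (q i 0 + q i 1 * famNode n j l)

/-- the vector `u` -/
noncomputable def famU (h : X ≃ₜ X) (g : Fin n → C(X, ℝ)) (K : Fin m → Fin n → ℤ → ℤ → C(X, ℂ))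
    (R N : ℕ) (x : X) (q : Fin p → Fin 2 → ℂ) (i : ℤ) (κ' : Fin m) : ℂ :=
  ∑ l, ∑ j ∈ Finset.Ico (0 : ℤ) N,
    if i ∈ Finset.Icc (j - (R : ℤ)) (j + R) then K κ' l i j x * famZ h g x q j l else 0

theorem famZ_cont (h : X ≃ₜ X) (g : Fin n → C(X, ℝ)) (j : ℤ) (l : Fin n) :
    Continuous fun z : X × (Fin p → Fin 2 → ℂ) => famZ h g z.1 z.2 j l := by
  unfold famZ
  refine Continuous.mul ?_ ?_
  · refine Complex.continuous_ofReal.comp (continuous_const.max ?_)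
    exact (((g l).continuous.comp ((h ^ j).continuous.comp continuous_fst)).sub continuous_const)
  · refine continuous_finsetProd _ fun i _ => ?_
    fun_prop

theorem famU_cont (h : X ≃ₜ X) (g : Fin n → C(X, ℝ)) (K : Fin m → Fin n → ℤ → ℤ → C(X, ℂ))
    (R N : ℕ) (i : ℤ) (κ' : Fin m) :
    Continuous fun z : X × (Fin p → Fin 2 → ℂ) => famU h g K R N z.1 z.2 i κ' := by
  unfold famU
  refine continuous_finsetSum _ fun l _ => continuous_finsetSum _ fun j _ => ?_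
  split_ifs
  · exact ((K κ' l i j).continuous.comp continuous_fst).mul (famZ_cont h g j l)
  · exact continuous_const

theorem famZ_hom (h : X ≃ₜ X) (g : Fin n → C(X, ℝ)) (x : X) (q : Fin p → Fin 2 → ℂ)
    (c : Fin p → ℂ) (j : ℤ) (l : Fin n) :
    famZ h g x (fun j e => c j * q j e) j l = (∏ j, c j) * famZ h g x q j l := by
  unfold famZ
  have h1 : ∀ i, c i * q i 0 + c i * q i 1 * famNode n j l =
      c i * (q i 0 + q i 1 * famNode n j l) := by
    intro i; ring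
  simp only [h1, Finset.prod_mul_distrib]
  ring

theorem famU_hom (h : X ≃ₜ X) (g : Fin n → C(X, ℝ)) (K : Fin m → Fin n → ℤ → ℤ → C(X, ℂ))
    (R N : ℕ) (x : X) (q : Fin p → Fin 2 → ℂ) (c : Fin p → ℂ) (i : ℤ) (κ' : Fin m) :
    famU h g K R N x (fun j e => c j * q j e) i κ' = (∏ j, c j) * famU h g K R N x q i κ' := by
  unfold famU
  rw [Finset.mul_sum]
  refine Finset.sum_congr rfl fun l _ => ?_
  rw [Finset.mul_sum]
  refine Finset.sum_congr rfl fun j _ => ?_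
  split_ifs
  · rw [famZ_hom]; ring
  · rw [mul_zero]

theorem famZ_symm (h : X ≃ₜ X) (g : Fin n → C(X, ℝ)) (x : X) (q : Fin p → Fin 2 → ℂ)
    (σ : Equiv.Perm (Fin p)) (j : ℤ) (l : Fin n) :
    famZ h g x (fun j => q (σ j)) j l = famZ h g x q j l := by
  unfold famZ
  congr 1
  exact Equiv.prod_comp σ fun i => q i 0 + q i 1 * famNode n j l

theorem famU_symm (h : X ≃ₜ X) (g : Fin n → C(X, ℝ)) (K : Fin m → Fin n → ℤ → ℤ → C(X, ℂ))
    (R N : ℕ) (x : X) (q : Fin p → Fin 2 → ℂ) (σ : Equiv.Perm (Fin p)) (i : ℤ) (κ' : Fin m) :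
    famU h g K R N x (fun j => q (σ j)) i κ' = famU h g K R N x q i κ' := by
  unfold famU
  simp only [famZ_symm]

theorem famU_zero (h : X ≃ₜ X) (g : Fin n → C(X, ℝ)) (K : Fin m → Fin n → ℤ → ℤ → C(X, ℂ))
    (R N : ℕ) (x : X) (q : Fin p → Fin 2 → ℂ) (i : ℤ) (κ' : Fin m)
    (hi : i < -(R : ℤ) ∨ (N : ℤ) + R ≤ i) : famU h g K R N x q i κ' = 0 := by
  unfold famU
  refine Finset.sum_eq_zero fun l _ => Finset.sum_eq_zero fun j hj => ?_
  rw [if_neg]
  rw [Finset.mem_Ico] at hj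
  rw [Finset.mem_Icc]
  omega

theorem famZ_ne (h : X ≃ₜ X) (g : Fin n → C(X, ℝ)) (x : X) (q : Fin p → Fin 2 → ℂ) (j : ℤ)
    (l : Fin n) (hz : famZ h g x q j l ≠ 0) : 3 / 4 ≤ g l ((h ^ j) x) := by
  by_contra hlt
  apply hz
  unfold famZ
  rw [max_eq_left (by linarith [not_le.1 hlt])]
  simp

/-- too many nodes -/
theorem famZ_nonvanishing (h : X ≃ₜ X) (g : Fin n → C(X, ℝ)) (x : X) (q : Fin p → Fin 2 → ℂ)
    (hq : ∀ j, q j ≠ 0) (N : ℕ) (S : Finset (Fin N × Fin n))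
    (hS : ∀ a ∈ S, g a.2 ((h ^ ((a.1 : ℕ) : ℤ)) x) = 1) (hcard : p + 1 ≤ S.card)
    (hz : ∀ j ∈ Finset.Ico (0 : ℤ) N, ∀ l, famZ h g x q j l = 0) : False := by
  have h1 : ∀ a ∈ S, ∃ i : Fin p, q i 0 + q i 1 * famNode n ((a.1 : ℕ) : ℤ) a.2 = 0 := by
    intro a ha
    have h2 := hz ((a.1 : ℕ) : ℤ) (by rw [Finset.mem_Ico]; omega) a.2
    unfold famZ at h2
    rw [hS a ha, mul_eq_zero] at h2
    rcases h2 with h2 | h2
    · exfalso
      rw [max_eq_right (by norm_num)] at h2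
      norm_num at h2
    · obtain ⟨i, -, hi⟩ := Finset.prod_eq_zero_iff.1 h2
      exact ⟨i, hi⟩
  obtain ⟨a₀, ha₀⟩ : S.Nonempty := Finset.card_pos.1 (by omega)
  obtain ⟨i₀, -⟩ := h1 a₀ ha₀
  have : Nonempty (Fin p) := ⟨i₀⟩
  choose! f hf using h1
  have h3 : (Finset.univ : Finset (Fin p)).card < S.card := by
    rw [Finset.card_univ, Fintype.card_fin]; omega
  obtain ⟨a, ha, b, hb, hab, hfab⟩ := Finset.exists_ne_map_eq_of_card_lt_of_maps_to h3
    (f := f) (fun a _ => Finset.mem_univ _)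
  have e1 := hf a ha
  have e2 := hf b hb
  rw [← hfab] at e2
  have e3 : q (f a) 1 * (famNode n ((a.1 : ℕ) : ℤ) a.2 - famNode n ((b.1 : ℕ) : ℤ) b.2) = 0 := by
    linear_combination e1 - e2
  rcases mul_eq_zero.1 e3 with e4 | e4
  · rw [e4, zero_mul, add_zero] at e1
    apply hq (f a)
    funext e
    fin_cases e
    · exact e1
    · exact e4
  · obtain ⟨e5, e6⟩ := famNode_inj (sub_eq_zero.1 e4)
    apply hab
    refine Prod.ext (Fin.ext ?_) e6
    exact_mod_cast e5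

end

open scoped Classical in
theorem exists_family {X : Type*} [MetricSpace X] [CompactSpace X] [Infinite X]
    {A : Type*} [CStarAlgebra A] [PartialOrder A] [StarOrderedRing A] {h : X ≃ₜ X}
    (hmin : IsMinimalHomeo h) (hA : IsCrossedProduct h A) {r : ℝ} (hr : IsComparisonBound A r)
    {κ t L : ℕ} (hL : 0 < L) (ω : C(X, ℝ)) (hω0 : ∀ x, 0 ≤ ω x) (hω1 : ∀ x, ω x ≤ 1)
    {ε : ℝ} (hcount : ∃ C : ℝ, ∀ x (N : ℕ), (1 - ε) * N / L - C ≤
      ((Finset.range N).filter fun i : ℕ => ω ((h ^ (i : ℤ)) x) = 1).card)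
    (ψ : Fin t → ℕ → C(X, ℝ)) {s : ℝ} (hs0 : 0 ≤ s) (hs : s + r < κ * t * (1 - ε) / L) :
    ∃ (R : ℕ) (C : ℝ), ∀ (N a : ℕ), (2 * κ * a + 1 : ℝ) ≤ s * N - C →
      ∃ F : Fin (N + 2 * R) → Fin t → Fin κ → Fin 2 → X → (Fin (2 * κ * a) → Fin 2 → ℂ) → ℂ,
        (∀ i G k e, Continuous fun z : X × (Fin (2 * κ * a) → Fin 2 → ℂ) => F i G k e z.1 z.2) ∧
        (∀ i G k e x, MultiHom (F i G k e x)) ∧
        (∀ i G k e x (σ : Equiv.Perm (Fin (2 * κ * a))) q,
          F i G k e x (fun j => q (σ j)) = F i G k e x q) ∧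
        (∀ x q, (∀ j, q j ≠ 0) → ∃ i G k e, F i G k e x q ≠ 0) ∧
        (∀ (i : Fin (N + 2 * R)) G k e x q, F i G k e x q ≠ 0 → 3 / 4 < ω ((h ^ ((i : ℕ) - (R : ℤ) : ℤ)) x)) ∧
        ∀ (i : Fin (N + 2 * R)) G (k : Fin κ) x q, let x' := (h ^ ((i : ℕ) - (R : ℤ) : ℤ)) x
          rho k / 2 ≤ rad (nF (fun j x => ψ G j x - 1 / 2) rho k)
            (fun x => ψ G (2 * k + 1) x - 1 / 2) (fun x => ψ G (2 * k + 2) x - 1 / 2) x' →
          HopfRel (nF (fun j x => ψ G j x - 1 / 2) rho k x')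
            (ψ G (2 * k + 1) x' - 1 / 2) (ψ G (2 * k + 2) x' - 1 / 2)
            (F i G k 0 x q) (F i G k 1 x q) := by
  have hfree : ∀ (k : ℤ) (x : X), k ≠ 0 → (h ^ k) x ≠ x := by
    intro k x hk
    rcases lt_trichotomy k 0 with h0 | h0 | h0
    · intro hx
      refine not_periodic h hmin x (n := -k) (by omega) ?_
      have h1 : (h ^ (-k)) ((h ^ k) x) = x := by
        rw [← zpow_add_apply']; simp
      rwa [hx] at h1
    · exact absurd h0 hk
    · exact not_periodic h hmin x h0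
  obtain ⟨C₀, hC₀⟩ := hcount
  obtain ⟨M, hM⟩ : ∃ M : ℝ, M = κ * t * (1 - ε) / L := ⟨_, rfl⟩
  obtain ⟨δ, hδ⟩ : ∃ δ : ℝ, δ = (M - s - r) / 3 := ⟨_, rfl⟩
  have hδ0 : 0 < δ := by rw [hδ, hM]; linarith
  obtain ⟨n, g, G, hg0, hg1, hG0, hG, C₁, hC₁⟩ := exists_scalar h hmin hs0 (s' := s + δ) (by linarith)
  obtain ⟨β', hβ'1, hβ'2, hβ'3, hβ'4, hβ'5, hβ'6⟩ := exists_b (κ := κ) ω hω0 hω1 ψ
  obtain ⟨m, E, -⟩ : ∃ (m : ℕ) (E : Fin t × Fin κ × Fin 2 ≃ Fin m), True :=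
    ⟨_, Fintype.equivFin _, trivial⟩
  let β : Fin m → Fin m → C(X, ℂ) := fun k k' => β' (E.symm k) (E.symm k')
  obtain ⟨N₀, hN₀⟩ := exists_nat_gt ((C₁ + t * κ * C₀) / δ)
  have hN₀' : C₁ + t * κ * C₀ ≤ δ * (N₀ + 1 : ℕ) := by
    rw [div_lt_iff₀ hδ0] at hN₀
    push_cast
    nlinarith
  have b1 : ∀ x, (Matrix.of fun k k' => β k k' x).PosSemidef := fun x =>
    (hβ'1 x).submatrix E.symm
  have b2 : ∀ x, (1 - Matrix.of fun k k' => β k k' x).PosSemidef := by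
    intro x
    have h1 := (hβ'2 x).submatrix E.symm
    have h2 : (1 - Matrix.of fun k k' => β k k' x) =
        (1 - Matrix.of fun k k' => β' k k' x).submatrix E.symm E.symm := by
      ext i j
      simp [β, Matrix.one_apply]
    rw [h2]; exact h1
  have b3 : ∀ x, ∑ j ∈ Finset.range (N₀ + 1), ∑ l, G l ((h ^ (j : ℤ)) x) +
      (r + δ) * (N₀ + 1 : ℕ) ≤
      ∑ j ∈ Finset.range (N₀ + 1), ∑ k, (β k k ((h ^ (j : ℤ)) x)).re := by
    intro x
    have h1 := (hC₁ x (N₀ + 1)).1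
    have h2 := hC₀ x (N₀ + 1)
    have h3 : ∀ j : ℕ, (if ω ((h ^ (j : ℤ)) x) = 1 then (t * κ : ℝ) else 0) ≤
        ∑ k, (β k k ((h ^ (j : ℤ)) x)).re := by
      intro j
      have e : ∑ k, (β k k ((h ^ (j : ℤ)) x)).re = ∑ k, (β' k k ((h ^ (j : ℤ)) x)).re :=
        Equiv.sum_comp E.symm fun k => (β' k k ((h ^ (j : ℤ)) x)).re
      rw [e]
      split_ifs with h4
      · exact hβ'3 _ h4
      · exact hβ'4 _
    have h5 := Finset.sum_le_sum (s := Finset.range (N₀ + 1)) fun j _ => h3 j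
    rw [← Finset.sum_filter, Finset.sum_const, nsmul_eq_mul] at h5
    have h6 : (t * κ : ℝ) * ((1 - ε) * (N₀ + 1 : ℕ) / L - C₀) ≤
        (((Finset.range (N₀ + 1)).filter fun i : ℕ => ω ((h ^ (i : ℤ)) x) = 1).card : ℝ) *
          (t * κ) := by
      rw [mul_comm]
      exact mul_le_mul_of_nonneg_right h2 (by positivity)
    have h7 : (t * κ : ℝ) * ((1 - ε) * (N₀ + 1 : ℕ) / L - C₀) =
        M * (N₀ + 1 : ℕ) - t * κ * C₀ := by
      rw [hM]; ring
    have h8 : M = s + r + 3 * δ := by rw [hδ]; ring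
    rw [h7, h8] at h6
    linarith
  obtain ⟨R, K, hcore⟩ := exists_core (β := β) hfree hA hr g G (r + δ) (N₀ + 1) (Nat.succ_pos _)
    (by linarith) hg0 hg1 hG0 hG b1 b2 b3
  refine ⟨R, C₁, fun N a hNa => ?_⟩
  refine ⟨fun i G k e x q => ∑ κ', β' (G, k, e) κ' ((h ^ ((i : ℕ) - (R : ℤ) : ℤ)) x) *
    famU h g K R N x q ((i : ℕ) - (R : ℤ) : ℤ) (E κ'), ?_, ?_, ?_, ?_, ?_, ?_⟩
  · intro i G k e
    refine continuous_finsetSum _ fun κ' _ => ?_
    exact ((β' (G, k, e) κ').continuous.comp ((h ^ _).continuous.comp continuous_fst)).mul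
      (famU_cont h g K R N _ _)
  · intro i G k e x q c
    dsimp only
    rw [Finset.mul_sum]
    refine Finset.sum_congr rfl fun κ' _ => ?_
    rw [famU_hom]; ring
  · intro i G k e x σ q
    dsimp only
    refine Finset.sum_congr rfl fun κ' _ => ?_
    rw [famU_symm]
  · intro x q hq
    by_contra hcon
    push Not at hcon
    have hz := hcore x (Finset.Ico (0 : ℤ) N) (famZ h g x q)
      (fun j _ l hz => famZ_ne h g x q j l hz) ?_
    · refine famZ_nonvanishing h g x q hq N (Finset.univ.filter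
        (fun p : Fin N × Fin n => g p.2 ((h ^ ((p.1 : ℕ) : ℤ)) x) = 1)) ?_ ?_ hz
      · intro a ha
        exact (Finset.mem_filter.1 ha).2
      · have h1 := (hC₁ x N).2
        have h2 : ((2 * κ * a + 1 : ℕ) : ℝ) ≤ ((Finset.univ.filter
          (fun p : Fin N × Fin n => g p.2 ((h ^ ((p.1 : ℕ) : ℤ)) x) = 1)).card : ℝ) := by
          push_cast
          linarith
        exact_mod_cast h2
    · intro i κ₁
      change ∑ κ', β κ₁ κ' ((h ^ i) x) * famU h g K R N x q i κ' = 0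
      by_cases hi : i < -(R : ℤ) ∨ (N : ℤ) + R ≤ i
      · refine Finset.sum_eq_zero fun κ' _ => ?_
        rw [famU_zero h g K R N x q i κ' hi, mul_zero]
      · push Not at hi
        obtain ⟨i', hi'⟩ : ∃ i' : Fin (N + 2 * R), i = (i' : ℕ) - (R : ℤ) := by
          refine ⟨⟨(i + R).toNat, ?_⟩, ?_⟩
          · omega
          · dsimp only
            omega
        have h1 := hcon i' (E.symm κ₁).1 (E.symm κ₁).2.1 (E.symm κ₁).2.2
        rw [← hi'] at h1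
        rw [← Equiv.sum_comp E]
        simpa [β] using h1
  · intro i G k e x q hne
    obtain ⟨κ', -, hκ'⟩ := Finset.exists_ne_zero_of_sum_ne_zero hne
    exact hβ'5 _ _ _ (left_ne_zero_of_mul hκ')
  · intro i G k x q x' hx'
    exact hβ'6 x' (fun κ' => famU h g K R N x q ((i : ℕ) - (R : ℤ) : ℤ) (E κ')) G k hx'

end Vale.Agent.P093.Hom
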