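import Mathlib
import Vale.Agent.P093.Hom.GridClose
import Vale.Agent.P093.Hom.GridInt

/-!
TASK HOM-E1: the cocycle `η` supported near the common zeros of `p` quasi-periodic functions.

Proof. `α m y = arg (A m y)/(2π)`, `E m = {y | d ≤ ‖A m y‖}`, `n m = rn (E m) (α m) thc`,
`T m = fun l => tc l - dl (n m) l`, `η = cprod [T 0, …, T (p-1)]`.
* On tuples of `S` with all vertices in `E m`: `dl (n m) = tc` (`round_cochain` with `T = tc`:
  (h1) is `arg_close` since `‖A m y₁ * ph (thc y₀ y₁) - A m y₀‖ ≤ d/100 ≤ ‖A m y₀‖/100`, (h2) is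
  `thc_coboundary` and `p/ℓ ≤ 1/16`), so `T m = 0` there.
* closed: `dl (T m) = dl tc - dl dl = 0` on `S`; Leibniz for products of even cocycles.
* degree: `T m` is nonzero only on lists of length 3.
* `cprod - cpow tc p = dl ζ` on `S`: `T_0…T_{k-1} ∪ tc^{p-k}` telescopes:
  `tc^p - T_0 ∪ … ∪ T_{p-1} = ∑_k T_0…T_{k-1} ∪ (tc - T_k) ∪ tc^{p-1-k}
  = ∑_k T_0…T_{k-1} ∪ dl n_k ∪ tc^{p-1-k} = dl (∑_k T_0…T_{k-1} ∪ n_k ∪ tc^{p-1-k})`.
* support: `cprod [T 0, …] l ≠ 0` implies for every `m` that `T m l' ≠ 0` for a sublist `l'` of `l`,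
  so some vertex of `l` is not in `E m`, i.e. `‖A m y‖ < d`.
* invariance: `act σ` preserves `thc`, `tc`, `A m`.
-/

namespace Vale.Agent.P093.Hom

variable {X : Type*} {p ℓ : ℕ}

/-- product of a list of cochains -/
def cprod {Y : Type*} : List (List Y → ℤ) → List Y → ℤ
  | [] => unit 1
  | f :: fs => cup f (cprod fs)

theorem eta_cup_ne {Y : Type*} (f G : List Y → ℤ) (l : List Y) (h : cup f G l ≠ 0) :
    ∃ l₁ y l₂, l = l₁ ++ y :: l₂ ∧ f (l₁ ++ [y]) ≠ 0 ∧ G (y :: l₂) ≠ 0 := by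
  induction l generalizing f with
  | nil => exact absurd (cup_nil f G) h
  | cons y l ih =>
    rw [cup_cons] at h
    by_cases h0 : f [y] • G (y :: l) = 0
    · rw [h0, zero_add] at h
      obtain ⟨l₁, z, l₂, rfl, h1, h2⟩ := ih _ h
      exact ⟨y :: l₁, z, l₂, rfl, h1, h2⟩
    · rw [smul_eq_mul] at h0
      obtain ⟨h1, h2⟩ := mul_ne_zero_iff.1 h0
      exact ⟨[], y, l, rfl, h1, h2⟩

theorem eta_cprod_nil {Y : Type*} (fs : List (List Y → ℤ)) : cprod fs [] = 0 := by
  cases fs with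
  | nil => rfl
  | cons f fs => exact cup_nil _ _

theorem eta_cpow_nil {Y : Type*} (t : List Y → ℤ) (k : ℕ) : cpow t k [] = 0 := by
  cases k with
  | zero => rfl
  | succ k => exact cup_nil _ _

theorem eta_unit_len {Y : Type*} (l : List Y) (h : unit (1 : ℤ) l ≠ 0) : l.length = 1 := by
  rcases l with _ | ⟨y, _ | ⟨y', l⟩⟩
  · exact absurd rfl h
  · rfl
  · exact absurd rfl h

/-- degree of a product of cochains of degree two -/
theorem eta_cprod_len {Y : Type*} (fs : List (List Y → ℤ))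
    (hf : ∀ f ∈ fs, ∀ l, f l ≠ 0 → l.length = 3) (l : List Y) (h : cprod fs l ≠ 0) :
    l.length = 2 * fs.length + 1 := by
  induction fs generalizing l with
  | nil => exact eta_unit_len l h
  | cons f fs ih =>
    obtain ⟨l₁, y, l₂, rfl, h1, h2⟩ := eta_cup_ne f (cprod fs) l h
    have e1 := hf f (List.mem_cons_self ..) _ h1
    have e2 := ih (fun g hg => hf g (List.mem_cons_of_mem _ hg)) _ h2
    rw [List.length_append, List.length_cons, List.length_nil] at e1
    rw [List.length_append, List.length_cons]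
    rw [List.length_cons] at e2 ⊢
    omega

/-- support of a product of cochains -/
theorem eta_cprod_mem {Y : Type*} (fs : List (List Y → ℤ)) (l : List Y) (h : cprod fs l ≠ 0)
    (f : List Y → ℤ) (hf : f ∈ fs) : ∃ l' : List Y, (∀ y ∈ l', y ∈ l) ∧ f l' ≠ 0 := by
  induction fs generalizing l with
  | nil => exact absurd hf List.not_mem_nil
  | cons g fs ih =>
    obtain ⟨l₁, y, l₂, rfl, h1, h2⟩ := eta_cup_ne g (cprod fs) l h
    rcases List.mem_cons.1 hf with rfl | hf
    · refine ⟨l₁ ++ [y], fun z hz => ?_, h1⟩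
      rw [List.mem_append] at hz ⊢
      rcases hz with hz | hz
      · exact Or.inl hz
      · rw [List.mem_singleton] at hz
        exact Or.inr (hz ▸ List.mem_cons_self ..)
    · obtain ⟨l', h3, h4⟩ := ih _ h2 hf
      exact ⟨l', fun z hz => List.mem_append.2 (Or.inr (h3 z hz)), h4⟩

theorem eta_dl_unit {Y : Type*} (l : List Y) : dl (unit (1 : ℤ)) l = 0 := by
  rcases l with _ | ⟨y, _ | ⟨y', l⟩⟩
  · rfl
  · rw [dl_singleton]
    rfl
  · have h : (fun l' => unit (1 : ℤ) (y :: y' :: l')) = fun _ => (0 : ℤ) := rfl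
    rw [dl_cons, dl_cons, h, dl_zero]
    rcases l with _ | ⟨z, l⟩
    · rfl
    · rfl

theorem eta_dl_cup_closed {Y : Type*} {S : Set (List Y)} (hS : Hered S) {f G : List Y → ℤ}
    (hf : f [] = 0) (hG : G [] = 0) (h1 : ∀ l ∈ S, dl f l = 0) (h2 : ∀ l ∈ S, dl G l = 0) :
    ∀ l ∈ S, dl (cup f G) l = 0 := by
  intro l hl
  rw [dl_cup' f G hf hG,
    cup_congr hS (f := dl f) (g := fun _ => 0) (F := G) (G := G) h1 (fun _ _ => rfl) hl,
    cup_congr hS (f := sg f) (g := sg f) (F := dl G) (G := fun _ => 0) (fun _ _ => rfl) h2 hl,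
    cup_zero_left, cup_zero_right, add_zero]

/-- products of closed cochains are closed -/
theorem eta_cprod_closed {Y : Type*} {S : Set (List Y)} (hS : Hered S) (fs : List (List Y → ℤ))
    (h0 : ∀ f ∈ fs, f [] = 0) (hf : ∀ f ∈ fs, ∀ l ∈ S, dl f l = 0) :
    ∀ l ∈ S, dl (cprod fs) l = 0 := by
  induction fs with
  | nil => exact fun l _ => eta_dl_unit l
  | cons f fs ih =>
    exact eta_dl_cup_closed hS (h0 f (List.mem_cons_self ..)) (eta_cprod_nil fs)
      (hf f (List.mem_cons_self ..))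
      (ih (fun g hg => h0 g (List.mem_cons_of_mem _ hg))
        (fun g hg => hf g (List.mem_cons_of_mem _ hg)))

theorem eta_cpow_closed {Y : Type*} {S : Set (List Y)} (hS : Hered S) {t : List Y → ℤ}
    (h0 : t [] = 0) (ht : ∀ l ∈ S, dl t l = 0) (k : ℕ) : ∀ l ∈ S, dl (cpow t k) l = 0 := by
  induction k with
  | zero => exact fun l _ => eta_dl_unit l
  | succ k ih => exact eta_dl_cup_closed hS h0 (eta_cpow_nil t k) ht ih

theorem eta_sg_even {Y : Type*} {f : List Y → ℤ} (hf : ∀ l, f l ≠ 0 → l.length = 3) :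
    sg f = f := by
  funext l
  unfold sg
  by_cases h : f l = 0
  · rw [h, smul_zero]
  · rw [hf l h, show (-1 : ℤ) ^ (3 + 1) = 1 by norm_num, one_smul]

/-- a product of cochains cohomologous to `t` is cohomologous to a power of `t` -/
theorem eta_cprod_cpow {Y : Type*} {S : Set (List Y)} (hS : Hered S) {t : List Y → ℤ}
    (ht0 : t [] = 0) (ht : ∀ l ∈ S, dl t l = 0) {ι : Type*} (T n : ι → List Y → ℤ)
    (hn0 : ∀ i, n i [] = 0) (hT : ∀ i l, T i l = t l - dl (n i) l)
    (hT3 : ∀ i l, T i l ≠ 0 → l.length = 3) (is : List ι) :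
    ∃ ζ : List Y → ℤ, ζ [] = 0 ∧ ∀ l ∈ S, cprod (is.map T) l = cpow t is.length l + dl ζ l := by
  have hT0 : ∀ i, T i [] = 0 := fun i => by rw [hT, ht0, dl_nil, sub_zero]
  have hTc : ∀ i, ∀ l ∈ S, dl (T i) l = 0 := fun i l hl => by
    have e : T i = fun l => t l - dl (n i) l := funext (hT i)
    rw [e, dl_sub, ht l hl, dl_dl, sub_zero]
  induction is with
  | nil => exact ⟨fun _ => 0, rfl, fun l _ => by rw [dl_zero, add_zero]; rfl⟩
  | cons i is ih =>
    obtain ⟨ζ, hζ0, hζ⟩ := ih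
    refine ⟨fun l => cup (T i) ζ l - cup (n i) (cpow t is.length) l, ?_, fun l hl => ?_⟩
    · show cup (T i) ζ [] - cup (n i) (cpow t is.length) [] = 0
      rw [cup_nil, cup_nil, sub_zero]
    · have e1 : cprod ((i :: is).map T) l =
          cup (T i) (fun l => cpow t is.length l + dl ζ l) l := by
        show cup (T i) (cprod (is.map T)) l = _
        exact cup_congr hS (fun _ _ => rfl) hζ hl
      have e2 : cup (T i) (dl ζ) l = dl (cup (T i) ζ) l := by
        rw [dl_cup' (T i) ζ (hT0 i) hζ0, eta_sg_even (hT3 i),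
          cup_congr hS (f := dl (T i)) (g := fun _ => 0) (F := ζ) (G := ζ) (hTc i)
            (fun _ _ => rfl) hl, cup_zero_left, zero_add]
      have e3 : dl (cup (n i) (cpow t is.length)) l = cup (dl (n i)) (cpow t is.length) l := by
        rw [dl_cup' (n i) _ (hn0 i) (eta_cpow_nil t _),
          cup_congr hS (f := sg (n i)) (g := sg (n i)) (F := dl (cpow t is.length))
            (G := fun _ => 0) (fun _ _ => rfl) (eta_cpow_closed hS ht0 ht _) hl,
          cup_zero_right, add_zero]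
      have e4 : cup (T i) (cpow t is.length) l =
          cup t (cpow t is.length) l - cup (dl (n i)) (cpow t is.length) l := by
        rw [← cup_sub_left, ← (funext (hT i) : T i = fun l => t l - dl (n i) l)]
      rw [e1, cup_add_right, e2, e4, dl_sub, e3]
      show _ = cup t (cpow t is.length) l + _
      ring

/-- invariance of a product of invariant cochains -/
theorem eta_cprod_comp {Y : Type*} (a : Y → Y) (fs : List (List Y → ℤ))
    (hf : ∀ f ∈ fs, ∀ l : List Y, f (l.map a) = f l) (l : List Y) :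
    cprod fs (l.map a) = cprod fs l := by
  induction fs generalizing l with
  | nil => rcases l with _ | ⟨y, _ | ⟨y', l⟩⟩ <;> rfl
  | cons f fs ih =>
    have e1 : (fun l : List Y => f (l.map a)) = f := funext (hf f (List.mem_cons_self ..))
    have e2 : (fun l : List Y => cprod fs (l.map a)) = cprod fs :=
      funext (ih fun g hg => hf g (List.mem_cons_of_mem _ hg))
    show cup f (cprod fs) (l.map a) = cup f (cprod fs) l
    rw [← cup_comp a f (cprod fs) l, e1, e2]

theorem eta_gridSmall {l l' : List (YY X p ℓ)} (h : GridSmall l) (hl : ∀ y ∈ l', y ∈ l) :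
    GridSmall l' := by
  obtain ⟨g, hg⟩ := h
  exact ⟨g, fun y hy => hg y (hl y hy)⟩

theorem eta_SY_full {SX : Set (List X)} (hSX : Full SX) :
    Full (SY (p := p) (ℓ := ℓ) SX) := by
  rintro l ⟨h1, h2⟩ l' hl
  refine ⟨hSX _ h1 _ fun x hx => ?_, eta_gridSmall h2 hl⟩
  obtain ⟨y, hy, rfl⟩ := List.mem_map.1 hx
  exact List.mem_map.2 ⟨y, hl y hy, rfl⟩

theorem exists_eta (hℓ : 3 ≤ ℓ) (hpℓ : (p : ℝ) / ℓ ≤ 1 / 16) {SX : Set (List X)} (hSX : Full SX)
    (A : Fin p → YY X p ℓ → ℂ) {d : ℝ} (hd : 0 < d)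
    (hA : ∀ m y₀ y₁, [y₀, y₁] ∈ SY (p := p) (ℓ := ℓ) SX →
      ‖A m y₁ * ph (thc y₀ y₁) - A m y₀‖ ≤ d / 100)
    (hs : ∀ m (σ : Equiv.Perm (Fin p)) y, A m (act σ y) = A m y) :
    ∃ η : List (YY X p ℓ) → ℤ, (∀ l, η l ≠ 0 → l.length = 2 * p + 1) ∧
      (∀ l ∈ SY SX, dl η l = 0) ∧
      (∃ ζ : List (YY X p ℓ) → ℤ, ζ [] = 0 ∧ ∀ l ∈ SY SX, l.length = 2 * p + 1 →
        η l = cpow tc p l + dl ζ l) ∧
      (∀ (σ : Equiv.Perm (Fin p)) l, η (l.map (act σ)) = η l) ∧
      ∀ l ∈ SY SX, η l ≠ 0 → ∀ m, ∃ y ∈ l, ‖A m y‖ < d := by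
  have hF : Full (SY (p := p) (ℓ := ℓ) SX) := eta_SY_full hSX
  have hS : Hered (SY (p := p) (ℓ := ℓ) SX) := hF.hered
  obtain ⟨E, hE⟩ : ∃ E : Fin p → Set (YY X p ℓ), E = fun m => {y | d ≤ ‖A m y‖} := ⟨_, rfl⟩
  obtain ⟨α, hα⟩ : ∃ α : Fin p → YY X p ℓ → ℝ, α = fun m y => (A m y).arg / (2 * Real.pi) :=
    ⟨_, rfl⟩
  have hEm : ∀ m y, y ∈ E m ↔ d ≤ ‖A m y‖ := fun m y => by rw [hE]; rfl
  obtain ⟨n, hn⟩ : ∃ n : Fin p → List (YY X p ℓ) → ℤ, n = fun m => rn (E m) (α m) thc :=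
    ⟨_, rfl⟩
  obtain ⟨T, hT⟩ : ∃ T : Fin p → List (YY X p ℓ) → ℤ, T = fun m l => tc l - dl (n m) l :=
    ⟨_, rfl⟩
  have hT' : ∀ m l, T m l = tc l - dl (n m) l := fun m l => by rw [hT]
  have ht0 : (tc : List (YY X p ℓ) → ℤ) [] = 0 := by
    by_contra h
    exact absurd (tc_length _ h) (by simp)
  have htc : ∀ l ∈ SY (p := p) (ℓ := ℓ) SX, dl tc l = 0 := fun l hl => dl_tc hℓ hl.2
  have hn0 : ∀ m, n m [] = 0 := fun m => by rw [hn]; rfl
  have hT3 : ∀ m l, T m l ≠ 0 → l.length = 3 := by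
    intro m l h
    by_contra h3
    apply h
    have e1 : tc l = 0 := by
      by_contra h4
      exact h3 (tc_length l h4)
    have e2 : dl (n m) l = 0 := by
      rw [hn]
      exact ra_dl_len _ 2 (ra_rn_len _ _ _) l h3
    rw [hT', e1, e2, sub_zero]
  have hTE : ∀ m, ∀ l ∈ SY (p := p) (ℓ := ℓ) SX, (∀ y ∈ l, y ∈ E m) → T m l = 0 := by
    intro m l hl hy
    rw [hT', hn, sub_eq_zero]
    refine (round_cochain hS (E m) (α m) thc tc (fun l => tc_length l) ?_ ?_ l hl hy).symm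
    · intro y₀ y₁ h01 h0 h1
      have h0' := (hEm m y₀).1 h0
      have hne : A m y₀ ≠ 0 := by
        intro h
        rw [h, norm_zero] at h0'
        linarith
      have h2 := arg_close (z₀ := A m y₀) (z₁ := A m y₁) (θ := thc y₀ y₁) hne
        ((hA m y₀ y₁ h01).trans (by linarith))
      have e : α m y₁ - α m y₀ = ((A m y₁).arg - (A m y₀).arg) / (2 * Real.pi) := by
        rw [hα, sub_div]
      rw [e]
      exact h2.trans (by norm_num)
    · intro y₀ y₁ y₂ h012 _ _ _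
      exact (thc_coboundary hℓ y₀ y₁ y₂ h012.2).trans hpℓ
  refine ⟨cprod ((List.finRange p).map T), ?_, ?_, ?_, ?_, ?_⟩
  · intro l h
    have := eta_cprod_len _ (fun f hf => by
      obtain ⟨m, -, rfl⟩ := List.mem_map.1 hf
      exact hT3 m) l h
    rwa [List.length_map, List.length_finRange] at this
  · refine eta_cprod_closed hS _ (fun f hf => ?_) (fun f hf l hl => ?_)
    · obtain ⟨m, -, rfl⟩ := List.mem_map.1 hf
      rw [hT', ht0, dl_nil, sub_zero]
    · obtain ⟨m, -, rfl⟩ := List.mem_map.1 hf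
      rw [hT, dl_sub, htc l hl, dl_dl, sub_zero]
  · obtain ⟨ζ, h0, h1⟩ := eta_cprod_cpow hS ht0 htc T n hn0 hT' hT3 (List.finRange p)
    rw [List.length_finRange] at h1
    exact ⟨ζ, h0, fun l hl _ => h1 l hl⟩
  · intro σ l
    refine eta_cprod_comp (act σ) _ (fun f hf l => ?_) l
    obtain ⟨m, -, rfl⟩ := List.mem_map.1 hf
    have e1 : (fun l : List (YY X p ℓ) => n m (l.map (act σ))) = n m := by
      funext l
      rw [hn]
      match l with
      | [] => rfl
      | [_] => rfl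
      | [y₀, y₁] =>
        show rn (E m) (α m) thc [act σ y₀, act σ y₁] = rn (E m) (α m) thc [y₀, y₁]
        have a0 : ∀ y, act σ y ∈ E m ↔ y ∈ E m := fun y =>
          (hEm m _).trans (by rw [hs, ← hEm m y])
        have a1 : ∀ y, α m (act σ y) = α m y := fun y => by
          rw [hα]
          show (A m (act σ y)).arg / _ = (A m y).arg / _
          rw [hs]
        classical
        by_cases h : y₀ ∈ E m ∧ y₁ ∈ E m
        · rw [show rn (E m) (α m) thc [y₀, y₁] = _ from if_pos h,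
            show rn (E m) (α m) thc [act σ y₀, act σ y₁] = _ from
              if_pos ⟨(a0 y₀).2 h.1, (a0 y₁).2 h.2⟩, a1, a1, thc_act]
        · rw [show rn (E m) (α m) thc [y₀, y₁] = _ from if_neg h,
            show rn (E m) (α m) thc [act σ y₀, act σ y₁] = _ from
              if_neg fun h' => h ⟨(a0 y₀).1 h'.1, (a0 y₁).1 h'.2⟩]
      | _ :: _ :: _ :: _ => rfl
    rw [hT', hT', tc_act, ← dl_comp (act σ) (n m) l, e1]
  · intro l hl h m
    obtain ⟨l', h1, h2⟩ := eta_cprod_mem _ l h (T m)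
      (List.mem_map.2 ⟨m, List.mem_finRange m, rfl⟩)
    have hl' : l' ∈ SY (p := p) (ℓ := ℓ) SX := hF l hl l' h1
    by_contra hcon
    push Not at hcon
    exact h2 (hTE m l' hl' fun y hy => (hEm m y).2 (hcon y (h1 y hy)))

end Vale.Agent.P093.Hom
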