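import Mathlib
import Vale.Agent.P093.Hom.GridClose

/-!
TASK HOM-F1: the Reed-Solomon trick and compactness.

Proof. `lamb i = ∑_γ (γ : ℂ)^i • v γ`. `vandermonde`: if `∑_γ γ^i • v γ = 0` for all `i < a` and
`v γ = 0` outside a set of at most `a` indices then `v = 0` (invertibility of a Vandermonde matrix with
distinct nodes, applied to each component; e.g. `Matrix.det_vandermonde_ne_zero_iff`, or
`vandermonde_zero` in `Vale/Agent/P093/NC.lean` transposed, or Lagrange interpolation: for a polynomial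
`P` of degree `< a` one has `∑_γ P(γ) v γ = 0`; choose `P` vanishing at all indices of the support except
one).
`mds_compact`: for a set `Δ` of indices whose complement has at most `a` elements, the continuous
function `(x, q) ↦ max (max_m ‖A m x q‖) (max_{γ ∈ Δ, k, e} ‖F γ k e x q‖)` is positive on the compact
set `X × K₀^p`, `K₀ = {ktf u w | u, w ∈ [0,1]}` (all entries of `q` nonzero by `ktf_ne_zero`), hence bounded
below by some `c_Δ > 0`. Let `c` be the minimum over the finitely many `Δ` (and `1`). If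
`‖A m x q‖ < c` for all `m` and at most `a` indices `γ` have some `‖F γ k e x q‖ ≥ c`, take for `Δ` the
complement of this set of indices: contradiction. (If `X` is empty everything is trivial.)
-/

namespace Vale.Agent.P093.Hom

theorem vandermonde {m a : ℕ} {V : Type*} [AddCommGroup V] [Module ℂ V] (v : Fin m → V)
    (h : ∀ i < a, ∑ γ : Fin m, ((γ : ℕ) : ℂ) ^ i • v γ = 0) (s : Finset (Fin m))
    (hs : s.card ≤ a) (hv : ∀ γ ∉ s, v γ = 0) : v = 0 := by
  classical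
  have hpoly : ∀ P : Polynomial ℂ, P.natDegree < a →
      ∑ γ : Fin m, P.eval ((γ : ℕ) : ℂ) • v γ = 0 := by
    intro P hP
    have e1 : ∀ γ : Fin m, P.eval ((γ : ℕ) : ℂ) • v γ =
        ∑ i ∈ Finset.range a, P.coeff i • (((γ : ℕ) : ℂ) ^ i • v γ) := by
      intro γ
      rw [Polynomial.eval_eq_sum_range' hP, Finset.sum_smul]
      exact Finset.sum_congr rfl fun i _ => by rw [mul_smul]
    rw [Finset.sum_congr rfl fun γ _ => e1 γ, Finset.sum_comm]
    refine Finset.sum_eq_zero fun i hi => ?_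
    rw [← Finset.smul_sum, h i (Finset.mem_range.1 hi), smul_zero]
  funext γ₀
  by_cases h0 : γ₀ ∈ s
  · set P : Polynomial ℂ := ∏ γ ∈ s.erase γ₀, (Polynomial.X - Polynomial.C ((γ : ℕ) : ℂ)) with hP
    have hdeg : P.natDegree < a := by
      have h1 : P.natDegree = (s.erase γ₀).card := by
        rw [hP, Polynomial.natDegree_prod_of_monic _ _ fun γ _ => Polynomial.monic_X_sub_C _,
          Finset.sum_congr rfl fun γ _ => Polynomial.natDegree_X_sub_C _, Finset.sum_const,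
          smul_eq_mul, mul_one]
      rw [h1, Finset.card_erase_of_mem h0]
      have h2 : 0 < s.card := Finset.card_pos.2 ⟨γ₀, h0⟩
      omega
    have h1 := hpoly P hdeg
    rw [Finset.sum_eq_single γ₀] at h1
    · have h2 : P.eval ((γ₀ : ℕ) : ℂ) ≠ 0 := by
        rw [hP, Polynomial.eval_prod, Finset.prod_ne_zero_iff]
        intro γ hγ h3
        simp only [Polynomial.eval_sub, Polynomial.eval_X, Polynomial.eval_C] at h3
        have h4 : ((γ₀ : ℕ) : ℂ) = ((γ : ℕ) : ℂ) := sub_eq_zero.1 h3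
        exact (Finset.mem_erase.1 hγ).1 (Fin.ext (by exact_mod_cast h4.symm))
      exact (smul_eq_zero.1 h1).resolve_left h2
    · intro γ _ hγ
      by_cases h2 : γ ∈ s
      · have h3 : P.eval ((γ : ℕ) : ℂ) = 0 := by
          rw [hP, Polynomial.eval_prod]
          refine Finset.prod_eq_zero (Finset.mem_erase.2 ⟨hγ, h2⟩) ?_
          simp
        rw [h3, zero_smul]
      · rw [hv γ h2, smul_zero]
    · intro h2
      exact absurd (Finset.mem_univ _) h2
  · exact hv γ₀ h0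

/-- one set `Δ` -/
theorem mds_one {X : Type*} [TopologicalSpace X] [CompactSpace X] {m a κ p : ℕ}
    (F : Fin m → Fin κ → Fin 2 → X → (Fin p → Fin 2 → ℂ) → ℂ)
    (hF : ∀ γ k e, Continuous fun z : X × (Fin p → Fin 2 → ℂ) => F γ k e z.1 z.2)
    (hne : ∀ x q, (∀ j, q j ≠ 0) → ∃ γ k e, F γ k e x q ≠ 0) (Δ : Finset (Fin m)) :
    ∃ c > 0, Δᶜ.card ≤ a → ∀ x (q : Fin p → Fin 2 → ℂ),
      (∀ j, ∃ u ∈ Set.Icc (0 : ℝ) 1, ∃ w ∈ Set.Icc (0 : ℝ) 1, q j = ktf u w) →
      (∀ (i : Fin a) k e, ‖∑ γ : Fin m, ((γ : ℕ) : ℂ) ^ (i : ℕ) * F γ k e x q‖ < c) →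
      ¬ ∀ γ ∈ Δ, ∀ k e, ‖F γ k e x q‖ < c := by
  by_cases hΔ : Δᶜ.card ≤ a
  swap
  · exact ⟨1, one_pos, fun h => absurd h hΔ⟩
  -- the parametrization
  let K : Set (Fin p → ℝ × ℝ) := Set.pi Set.univ fun _ => Set.Icc (0 : ℝ) 1 ×ˢ Set.Icc (0 : ℝ) 1
  have hK : IsCompact K := isCompact_univ_pi fun _ => isCompact_Icc.prod isCompact_Icc
  let Q : (Fin p → ℝ × ℝ) → Fin p → Fin 2 → ℂ := fun w j => ktf (w j).1 (w j).2
  have hQ : Continuous Q := continuous_pi fun j => ktf_continuous.comp (continuous_apply j)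
  have hFQ : ∀ γ k e, Continuous fun z : X × (Fin p → ℝ × ℝ) => F γ k e z.1 (Q z.2) := by
    intro γ k e
    exact (hF γ k e).comp (continuous_fst.prodMk (hQ.comp continuous_snd))
  let g : X × (Fin p → ℝ × ℝ) → ℝ := fun z =>
    (∑ i : Fin a, ∑ k : Fin κ, ∑ e : Fin 2,
      ‖∑ γ : Fin m, ((γ : ℕ) : ℂ) ^ (i : ℕ) * F γ k e z.1 (Q z.2)‖) +
    ∑ γ ∈ Δ, ∑ k : Fin κ, ∑ e : Fin 2, ‖F γ k e z.1 (Q z.2)‖
  have hg : Continuous g := by
    refine Continuous.add ?_ ?_
    · refine continuous_finsetSum _ fun i _ => continuous_finsetSum _ fun k _ =>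
        continuous_finsetSum _ fun e _ => ?_
      exact (continuous_finsetSum _ fun γ _ => continuous_const.mul (hFQ γ k e)).norm
    · exact continuous_finsetSum _ fun γ _ => continuous_finsetSum _ fun k _ =>
        continuous_finsetSum _ fun e _ => (hFQ γ k e).norm
  have hpos : ∀ z ∈ (Set.univ : Set X) ×ˢ K, 0 < g z := by
    rintro ⟨x, w⟩ ⟨-, hw⟩
    have hnn1 : 0 ≤ ∑ i : Fin a, ∑ k : Fin κ, ∑ e : Fin 2,
      ‖∑ γ : Fin m, ((γ : ℕ) : ℂ) ^ (i : ℕ) * F γ k e x (Q w)‖ := by positivity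
    have hnn2 : 0 ≤ ∑ γ ∈ Δ, ∑ k : Fin κ, ∑ e : Fin 2, ‖F γ k e x (Q w)‖ := by positivity
    refine lt_of_le_of_ne (add_nonneg hnn1 hnn2) fun h0 => ?_
    have h0' : (∑ i : Fin a, ∑ k : Fin κ, ∑ e : Fin 2,
        ‖∑ γ : Fin m, ((γ : ℕ) : ℂ) ^ (i : ℕ) * F γ k e x (Q w)‖) +
        ∑ γ ∈ Δ, ∑ k : Fin κ, ∑ e : Fin 2, ‖F γ k e x (Q w)‖ = 0 := h0.symm
    have h1 : (∑ i : Fin a, ∑ k : Fin κ, ∑ e : Fin 2,
        ‖∑ γ : Fin m, ((γ : ℕ) : ℂ) ^ (i : ℕ) * F γ k e x (Q w)‖) = 0 := by linarith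
    have h2 : ∑ γ ∈ Δ, ∑ k : Fin κ, ∑ e : Fin 2, ‖F γ k e x (Q w)‖ = 0 := by linarith
    have h1' : ∀ (i : Fin a) (k : Fin κ) (e : Fin 2),
        ∑ γ : Fin m, ((γ : ℕ) : ℂ) ^ (i : ℕ) * F γ k e x (Q w) = 0 := by
      intro i k e
      have g1 := (Finset.sum_eq_zero_iff_of_nonneg fun i _ => by positivity).1 h1 i
        (Finset.mem_univ _)
      have g2 := (Finset.sum_eq_zero_iff_of_nonneg fun i _ => by positivity).1 g1 k
        (Finset.mem_univ _)
      have g3 := (Finset.sum_eq_zero_iff_of_nonneg fun i _ => by positivity).1 g2 e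
        (Finset.mem_univ _)
      exact norm_eq_zero.1 g3
    have h2' : ∀ γ ∈ Δ, ∀ (k : Fin κ) (e : Fin 2), F γ k e x (Q w) = 0 := by
      intro γ hγ k e
      have g1 := (Finset.sum_eq_zero_iff_of_nonneg fun i _ => by positivity).1 h2 γ hγ
      have g2 := (Finset.sum_eq_zero_iff_of_nonneg fun i _ => by positivity).1 g1 k
        (Finset.mem_univ _)
      have g3 := (Finset.sum_eq_zero_iff_of_nonneg fun i _ => by positivity).1 g2 e
        (Finset.mem_univ _)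
      exact norm_eq_zero.1 g3
    have hq : ∀ j, Q w j ≠ 0 := by
      intro j
      have h3 := hw j (Set.mem_univ _)
      exact ktf_ne_zero h3.1 h3.2
    obtain ⟨γ, k, e, h3⟩ := hne x (Q w) hq
    have h4 := vandermonde (a := a) (fun γ => F γ k e x (Q w)) (fun i hi => h1' ⟨i, hi⟩ k e)
      Δᶜ hΔ (fun γ hγ => h2' γ (by simpa using hγ) k e)
    exact h3 (congrFun h4 γ)
  obtain ⟨c, hc, hc2⟩ := (isCompact_univ.prod hK).exists_forall_le' hg.continuousOn hpos
  set N : ℝ := (a * κ * 2 + m * κ * 2 : ℕ) + 1 with hN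
  have hN0 : 0 < N := by positivity
  refine ⟨c / N, div_pos hc hN0, fun _ x q hq hA hB => ?_⟩
  choose u hu w hw hquw using hq
  have hqQ : q = Q fun j => (u j, w j) := funext hquw
  have h1 := hc2 (x, fun j => (u j, w j)) ⟨Set.mem_univ _, fun j _ => ⟨hu j, hw j⟩⟩
  have h2 : g (x, fun j => (u j, w j)) ≤ (a * κ * 2 + m * κ * 2 : ℕ) * (c / N) := by
    have h3 : (∑ i : Fin a, ∑ k : Fin κ, ∑ e : Fin 2,
        ‖∑ γ : Fin m, ((γ : ℕ) : ℂ) ^ (i : ℕ) * F γ k e x (Q fun j => (u j, w j))‖) ≤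
        ∑ i : Fin a, ∑ k : Fin κ, ∑ e : Fin 2, c / N := by
      refine Finset.sum_le_sum fun i _ => Finset.sum_le_sum fun k _ => Finset.sum_le_sum
        fun e _ => ?_
      rw [← hqQ]
      exact (hA i k e).le
    have h4 : ∑ γ ∈ Δ, ∑ k : Fin κ, ∑ e : Fin 2, ‖F γ k e x (Q fun j => (u j, w j))‖ ≤
        ∑ γ : Fin m, ∑ k : Fin κ, ∑ e : Fin 2, c / N := by
      calc _ ≤ ∑ γ ∈ Δ, ∑ k : Fin κ, ∑ e : Fin 2, c / N := by
            refine Finset.sum_le_sum fun i hi => Finset.sum_le_sum fun k _ => Finset.sum_le_sum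
              fun e _ => ?_
            rw [← hqQ]
            exact (hB i hi k e).le
        _ ≤ _ := by
            refine Finset.sum_le_sum_of_subset_of_nonneg (Finset.subset_univ _) fun i _ _ => ?_
            have : 0 ≤ c / N := (div_pos hc hN0).le
            positivity
    simp only [Finset.sum_const, Finset.card_univ, Fintype.card_fin, nsmul_eq_mul] at h3 h4
    push_cast
    push_cast at h3 h4
    calc g (x, fun j => (u j, w j)) ≤ _ := add_le_add h3 h4
      _ = _ := by ring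
  have h3 : ((a * κ * 2 + m * κ * 2 : ℕ) : ℝ) * (c / N) < c := by
    have h4 : ((a * κ * 2 + m * κ * 2 : ℕ) : ℝ) = N - 1 := by rw [hN]; ring
    rw [h4]
    have h5 : (N - 1) * (c / N) = c - c / N := by
      field_simp
    rw [h5]
    have := div_pos hc hN0
    linarith
  linarith

open scoped Classical in
/-- `F γ k e x q`: component `(k,e)` of the section of the group `γ`; for all `(x,q)` with nonzero `q j` some
component is nonzero. -/
theorem mds_compact {X : Type*} [TopologicalSpace X] [CompactSpace X] {m a κ p : ℕ}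
    (F : Fin m → Fin κ → Fin 2 → X → (Fin p → Fin 2 → ℂ) → ℂ)
    (hF : ∀ γ k e, Continuous fun z : X × (Fin p → Fin 2 → ℂ) => F γ k e z.1 z.2)
    (hne : ∀ x q, (∀ j, q j ≠ 0) → ∃ γ k e, F γ k e x q ≠ 0) :
    ∃ c > 0, ∀ x (q : Fin p → Fin 2 → ℂ),
      (∀ j, ∃ u ∈ Set.Icc (0 : ℝ) 1, ∃ w ∈ Set.Icc (0 : ℝ) 1, q j = ktf u w) →
      (∀ (i : Fin a) k e, ‖∑ γ : Fin m, ((γ : ℕ) : ℂ) ^ (i : ℕ) * F γ k e x q‖ < c) →
      a + 1 ≤ (Finset.univ.filter fun γ => ∃ k e, c ≤ ‖F γ k e x q‖).card := by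
  choose cΔ hcΔ hcΔ2 using mds_one (a := a) F hF hne
  obtain ⟨Δ₀, -, hmin⟩ := Finset.exists_min_image (Finset.univ : Finset (Finset (Fin m))) cΔ
    ⟨∅, Finset.mem_univ _⟩
  refine ⟨cΔ Δ₀, hcΔ Δ₀, fun x q hq hA => ?_⟩
  by_contra hlt
  set s : Finset (Fin m) := Finset.univ.filter fun γ => ∃ k e, cΔ Δ₀ ≤ ‖F γ k e x q‖ with hs
  have h1 : sᶜᶜ.card ≤ a := by
    rw [compl_compl]
    omega
  have h2 := hmin sᶜ (Finset.mem_univ _)
  refine hcΔ2 sᶜ h1 x q hq (fun i k e => (hA i k e).trans_le h2) fun γ hγ k e => ?_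
  have h3 : γ ∉ s := by simpa using hγ
  have h4 : ¬ ∃ k e, cΔ Δ₀ ≤ ‖F γ k e x q‖ := by
    intro h5
    exact h3 (by rw [hs, Finset.mem_filter]; exact ⟨Finset.mem_univ _, h5⟩)
  push Not at h4
  exact (h4 k e).trans_le h2

end Vale.Agent.P093.Hom
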