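import Mathlib
import Vale.Agent.P093.Hom.GroupH
import Vale.Agent.P093.Hom.Phi
import Vale.Agent.P093.Hom.Eta
import Vale.Agent.P093.Hom.MDS
import Vale.Agent.P093.Hom.Allowed

/-!
TASK HOM-G3: the static theorem.

Proof. `p = 2 * κ * a`; `e : Fin p ≃ Fin a × Fin κ × Fin 2`. If `X` is empty the claim is trivial
(`𝒢 = ∅`, `Φ = 0`). Let `A m x q = ∑_γ γ^i F γ k e x q` for `m ↔ (i,k,e)`; let `c > 0` be from
`mds_compact`. Put `d = c/2`, `c' = c/2`. Choose `η > 0` with `η ≤ 1/16`, `η ≤ d/100`,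
`2000 (2κ+1) η ≤ rho l` for `l < κ`, `2000 (2κ+1) η ≤ c/2`.
`qp_close` for all (finitely many) `F γ k e` and `A m` with `ε = η` (`A m` is continuous and multihomogeneous,
symmetric), uniform continuity of all `χ c`, `c ∈ coords κ crd ss`, and `δ₁` give `δ > 0` and
`ℓ ≥ 3` with `p/ℓ ≤ 1/32`. Let `SX = {l | ∀ x ∈ l, ∀ x' ∈ l, dist x x' < δ}`, `Full`.
On `Y = YY X p ℓ` put `χ' c y = χ c y.1`, `F' γ k e y = F γ k e y.1 (qq y)`, `A' m y = A m y.1 (qq y)`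
(invariant under `act σ` by `qq_act` and `sym`).
* `exists_eta` with `A'`, `d`: gives `η_c`.
* `exists_h` for every `γ` with `f = fun k y => χ' (crd γ k) y - 1/2`, `c := c'`: gives `h γ`
  (`F k` for `k ≥ κ` := 0; `hopf` applied with `x = y.1`, note `nF (fun i y => f i y.1) ρ k y =
  nF f ρ k y.1`).
* `Bs = blks κ χ' crd ss h`, good blocks; `T x κs = TW (coords κ crd ss) (W x) κs`.
  `hloc`: for `l ∈ SY SX`, `y, y' ∈ l`, `AllowedL Bs l κs`: by `TW_congr` it suffices that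
  `W y.1 (onS cs S) = W y'.1 (onS cs S)` for the vertices `S` of `κs`: `allowed_vertex` and `hW`.
  `exists_Phi` gives `Φ`; `transfer` gives `Ψ`.
* `𝒢` = finitely many open balls of radius `δ/2` covering `X`; `𝒢`-small tuples are in `SX`.
  Boundary and augmentation conditions: `bd_eq_extend`, `extend_boundary`, `aug_eq_sum`.
* Let `x ∈ SX`, `x ≠ []`, `s ∈ (Ψ x).support`: there is `L ∈ SY SX` with vertices over `x`,
  `η_c (L.take (2p+1)) ≠ 0`, `s ∈ (Φ (L.drop (2p))).support`; let `L' = L.drop (2p)`,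
  `L'.length = x.length > 0`. So there are `y ∈ L'` and `κs` with `AllowedL Bs L' κs`,
  `ecount κs + 1 = x.length`, `s ∈ (TW … (W y.1) κs).support`. By `TW_support`
  `s.length = x.length` and the entries of `s` are `W y.1 (onS cs S)`, `S` vertex of `κs`: in `𝒲` and
  contain all points of `x` (`hW` with `x := y.1`, `x' ∈ x`; `allowed_vertex`).
  If `x.length > D + 1`, i.e. `ecount κs > D`: for all `m` some vertex of `L` has `‖A' m‖ < d`, so at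
  the vertex `y` `‖A' m y‖ < d + η < c` (`‖A' m y‖ ≤ ‖A' m y'‖ + η` by `qp_close` and `‖ph‖ = 1`), hence
  by `mds_compact` there is a set `good` of at least `a+1` groups `γ` with some
  `c ≤ ‖F' γ k e y‖`; then `‖F' γ k e y'‖ ≥ c - η ≥ c'` at all vertices `y'` of `L'`, so by `exists_h`
  `tau … l' = dl (h γ) l'` for all sublists `l'` of `L'`; and `y.1 ∈ actv γ` by `hact1`.
  `allowed_count` with `P γ = (y.1 ∈ actv γ)` and `hD` give `ecount κs + (a+1) ≤ D + a + 1`,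
  contradiction. So `Ψ x = 0`.
-/

open Set

namespace Vale.Agent.P093.Hom

/-! ### auxiliary facts -/

/-- nested radii commute with pull back -/
theorem st_nF {Y Z : Type*} (π : Y → Z) (g : ℕ → Z → ℝ) (ρ : ℕ → ℝ) (k : ℕ) (y : Y) :
    nF (fun i y => g i (π y)) ρ k y = nF g ρ k (π y) := by
  induction k with
  | zero => rfl
  | succ k ih =>
    change rad (nF (fun i y => g i (π y)) ρ k) (fun y => g (2 * k + 1) (π y))
        (fun y => g (2 * k + 2) (π y)) y - ρ k =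
      rad (nF g ρ k) (g (2 * k + 1)) (g (2 * k + 2)) (π y) - ρ k
    unfold rad
    rw [ih]

/-- a common threshold for finitely many conditions -/
theorem st_unif {ι : Type*} [Finite ι] (P : ι → ℝ → ℕ → Prop)
    (hP : ∀ i, ∃ δ > 0, ∃ n, P i δ n)
    (mono : ∀ i δ δ' n n', δ' ≤ δ → n ≤ n' → P i δ n → P i δ' n') :
    ∃ δ > 0, ∃ n, ∀ i, P i δ n := by
  have := Fintype.ofFinite ι
  choose δ hδ n hn using hP
  rcases isEmpty_or_nonempty ι with h | h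
  · exact ⟨1, one_pos, 0, fun i => h.elim i⟩
  · obtain ⟨i₀, -, h0⟩ := Finset.exists_min_image Finset.univ δ Finset.univ_nonempty
    refine ⟨δ i₀, hδ i₀, Finset.univ.sup n, fun i => ?_⟩
    exact mono i _ _ _ _ (h0 i (Finset.mem_univ i)) (Finset.le_sup (Finset.mem_univ i)) (hn i)

/-- uniform continuity of finitely many functions -/
theorem st_chi {X C : Type*} [MetricSpace X] [CompactSpace X] (χ : C → X → ℝ)
    (hχ : ∀ c, Continuous (χ c)) (cs : List C) {η : ℝ} (hη : 0 < η) :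
    ∃ δ > 0, ∀ c ∈ cs, ∀ x x', dist x x' < δ → |χ c x - χ c x'| ≤ η := by
  induction cs with
  | nil => exact ⟨1, one_pos, fun c hc => by simp at hc⟩
  | cons c cs ih =>
    obtain ⟨δ, hδ, h1⟩ := ih
    have hu := CompactSpace.uniformContinuous_of_continuous (hχ c)
    rw [Metric.uniformContinuous_iff] at hu
    obtain ⟨δ', hδ', h2⟩ := hu η hη
    refine ⟨min δ δ', lt_min hδ hδ', fun c' hc' x x' hx => ?_⟩
    rcases List.mem_cons.1 hc' with rfl | hc'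
    · have := h2 (hx.trans_le (min_le_right _ _))
      rw [Real.dist_eq] at this
      exact this.le
    · exact h1 c' hc' x x' (hx.trans_le (min_le_left _ _))

theorem st_rho_pos (l : ℕ) : 0 < rho l := by unfold rho; positivity

theorem st_rho_anti {l k : ℕ} (h : l ≤ k) : rho k ≤ rho l := by
  unfold rho
  exact div_le_div_of_nonneg_left (by norm_num) (by positivity)
    (pow_le_pow_right₀ (by norm_num) h)

/-- choice of the small constant -/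
theorem st_eta (κ : ℕ) {c : ℝ} (hc : 0 < c) : ∃ η : ℝ, 0 < η ∧ η ≤ 1 / 16 ∧ η ≤ c / 2 / 100 ∧
    (∀ l < κ, 2000 * (2 * κ + 1) * η ≤ rho l) ∧ 2000 * (2 * κ + 1) * η ≤ c / 2 := by
  have hK : (0 : ℝ) < 2000 * (2 * κ + 1) := by positivity
  have hr := st_rho_pos κ
  refine ⟨min (1 / 16) (min (c / 2 / 100) (min (rho κ) (c / 2) / (2000 * (2 * κ + 1)))),
    ?_, min_le_left _ _, ?_, ?_, ?_⟩
  · refine lt_min (by norm_num) (lt_min (by positivity) (div_pos (lt_min hr (by positivity)) hK))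
  · exact (min_le_right _ _).trans (min_le_left _ _)
  · intro l hl
    have h1 : min (1 / 16 : ℝ) (min (c / 2 / 100) (min (rho κ) (c / 2) / (2000 * (2 * κ + 1)))) ≤
        min (rho κ) (c / 2) / (2000 * (2 * κ + 1)) := (min_le_right _ _).trans (min_le_right _ _)
    rw [le_div_iff₀ hK] at h1
    have h2 := st_rho_anti hl.le
    have h3 := min_le_left (rho κ) (c / 2)
    linarith
  · have h1 : min (1 / 16 : ℝ) (min (c / 2 / 100) (min (rho κ) (c / 2) / (2000 * (2 * κ + 1)))) ≤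
        min (rho κ) (c / 2) / (2000 * (2 * κ + 1)) := (min_le_right _ _).trans (min_le_right _ _)
    rw [le_div_iff₀ hK] at h1
    have h3 := min_le_right (rho κ) (c / 2)
    linarith

/-- `δ`-small tuples -/
def stSX {X : Type*} [MetricSpace X] (δ : ℝ) : Set (List X) :=
  {l | ∀ x ∈ l, ∀ x' ∈ l, dist x x' < δ}

theorem st_full {X : Type*} [MetricSpace X] (δ : ℝ) : Full (stSX (X := X) δ) :=
  fun _ hl _ hl' x hx x' hx' => hl x (hl' x hx) x' (hl' x' hx')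

theorem st_SY_dist {X : Type*} [MetricSpace X] {p ℓ : ℕ} {δ : ℝ} {l : List (YY X p ℓ)}
    (hl : l ∈ SY (stSX δ)) {y y' : YY X p ℓ} (hy : y ∈ l) (hy' : y' ∈ l) :
    dist y.1 y'.1 < δ :=
  hl.1 _ (List.mem_map.2 ⟨y, hy, rfl⟩) _ (List.mem_map.2 ⟨y', hy', rfl⟩)

/-- pairs of vertices of a small tuple -/
theorem st_pair {X : Type*} [MetricSpace X] {p ℓ : ℕ} {δ : ℝ} {l : List (YY X p ℓ)}
    (hl : l ∈ SY (stSX δ)) {y y' : YY X p ℓ} (hy : y ∈ l) (hy' : y' ∈ l) :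
    [y, y'] ∈ SY (stSX δ) := by
  refine eta_SY_full (st_full δ) l hl _ fun z hz => ?_
  rcases List.mem_cons.1 hz with rfl | hz
  · exact hy
  · rw [List.mem_singleton] at hz
    rw [hz]
    exact hy'

/-- `‖v‖` varies little if `v` is quasi-periodic -/
theorem st_norm {v₀ v₁ : ℂ} {t η : ℝ} (h : ‖v₁ * ph t - v₀‖ ≤ η) :
    ‖v₁‖ ≤ ‖v₀‖ + η ∧ ‖v₀‖ ≤ ‖v₁‖ + η := by
  have h1 : ‖v₁ * ph t‖ = ‖v₁‖ := by rw [norm_mul, gc_norm_ph, mul_one]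
  have h2 := norm_sub_norm_le (v₁ * ph t) v₀
  have h3 := norm_sub_norm_le v₀ (v₁ * ph t)
  rw [norm_sub_rev] at h3
  rw [h1] at h2 h3
  constructor <;> linarith

theorem st_blks_good {Y C : Type*} {m κ : ℕ} (hκ : 1 ≤ κ) (χ : C → Y → ℝ) (crd : Fin m → ℕ → C)
    (ss : List C) (h : Fin m → List Y → ℤ) (hh : ∀ γ l, h γ l ≠ 0 → l.length = 2 * κ + 1) :
    ∀ B ∈ blks κ χ crd ss h, B.Good := by
  intro B hB
  rcases List.mem_append.1 hB with hB | hB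
  · obtain ⟨γ, -, rfl⟩ := List.mem_map.1 hB
    intro l hl
    have h1 := hh γ l hl
    refine ⟨?_, by omega⟩
    rw [h1]
    simp [gvs]
  · obtain ⟨c, -, rfl⟩ := List.mem_map.1 hB
    intro l hl
    exact absurd rfl hl

theorem st_Hv_congr {Y : Type*} {f : Y → ℝ} {y y' : Y} (h : f y = f y') : Hv f y = Hv f y' := by
  unfold Hv
  rw [h]

theorem st_blks_inv {Y C : Type*} {m κ : ℕ} (χ : C → Y → ℝ) (crd : Fin m → ℕ → C)
    (ss : List C) (h : Fin m → List Y → ℤ) (a : Y → Y) (ha : ∀ c y, χ c (a y) = χ c y)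
    (hh : ∀ γ l, h γ (l.map a) = h γ l) :
    ∀ B ∈ blks κ χ crd ss h, (∀ v ∈ B.vs, ∀ y, v (a y) = v y) ∧ ∀ l, B.h (l.map a) = B.h l := by
  intro B hB
  rcases List.mem_append.1 hB with hB | hB
  · obtain ⟨γ, -, rfl⟩ := List.mem_map.1 hB
    refine ⟨fun v hv y => ?_, hh γ⟩
    obtain ⟨k, -, rfl⟩ := List.mem_map.1 hv
    refine st_Hv_congr ?_
    change χ (crd γ k) (a y) - 1 / 2 = χ (crd γ k) y - 1 / 2
    rw [ha]
  · obtain ⟨c, -, rfl⟩ := List.mem_map.1 hB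
    refine ⟨fun v hv y => ?_, fun l => rfl⟩
    rw [List.mem_singleton] at hv
    subst hv
    refine st_Hv_congr ?_
    change χ c (a y) - 1 / 2 = χ c y - 1 / 2
    rw [ha]

theorem st_mem_coords {C : Type*} {m κ : ℕ} (crd : Fin m → ℕ → C) (ss : List C) (γ : Fin m) {k : ℕ}
    (hk : k ≤ 2 * κ) : crd γ k ∈ coords κ crd ss := by
  refine List.mem_append_left _ (List.mem_flatMap.2 ⟨γ, List.mem_finRange γ, ?_⟩)
  exact List.mem_map.2 ⟨k, List.mem_range.2 (by omega), rfl⟩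

/-- the components of a group on the product with the grid -/
noncomputable def stF {X : Type*} {κ p ℓ : ℕ} (F : Fin κ → Fin 2 → X → (Fin p → Fin 2 → ℂ) → ℂ)
    (k : ℕ) (e : Fin 2) (y : YY X p ℓ) : ℂ := if h : k < κ then F ⟨k, h⟩ e y.1 (qq y) else 0

theorem stF_lt {X : Type*} {κ p ℓ : ℕ} (F : Fin κ → Fin 2 → X → (Fin p → Fin 2 → ℂ) → ℂ)
    {k : ℕ} (hk : k < κ) (e : Fin 2) (y : YY X p ℓ) : stF F k e y = F ⟨k, hk⟩ e y.1 (qq y) :=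
  dif_pos hk

theorem st_qq_act {X : Type*} {p ℓ : ℕ} (G : X → (Fin p → Fin 2 → ℂ) → ℂ)
    (sym : ∀ x (σ : Equiv.Perm (Fin p)) q, G x (fun j => q (σ j)) = G x q)
    (σ : Equiv.Perm (Fin p)) (y : YY X p ℓ) : G (act σ y).1 (qq (act σ y)) = G y.1 (qq y) :=
  sym y.1 σ (qq y)

/-- the modifications `h` for all groups -/
theorem st_h {X : Type*} [MetricSpace X] {C : Type*} {κ m p ℓ : ℕ} (hκ : 1 ≤ κ) (hℓ : 3 ≤ ℓ)
    (hp : (p : ℝ) / ℓ ≤ 1 / 32) (χ : C → X → ℝ) (crd : Fin m → ℕ → C) (ss : List C)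
    (F : Fin m → Fin κ → Fin 2 → X → (Fin p → Fin 2 → ℂ) → ℂ)
    (sym : ∀ γ k e x (σ : Equiv.Perm (Fin p)) q, F γ k e x (fun j => q (σ j)) = F γ k e x q)
    (hopf : ∀ γ (k : Fin κ) x q,
      rho k / 2 ≤ rad (nF (fun i x => χ (crd γ i) x - 1 / 2) rho k)
        (fun x => χ (crd γ (2 * k + 1)) x - 1 / 2) (fun x => χ (crd γ (2 * k + 2)) x - 1 / 2) x →
      HopfRel (nF (fun i x => χ (crd γ i) x - 1 / 2) rho k x)
        (χ (crd γ (2 * k + 1)) x - 1 / 2) (χ (crd γ (2 * k + 2)) x - 1 / 2)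
        (F γ k 0 x q) (F γ k 1 x q))
    {δ η c : ℝ} (hη : 0 < η) (hηρ : ∀ l < κ, 2000 * (2 * κ + 1) * η ≤ rho l)
    (hηc : 2000 * (2 * κ + 1) * η ≤ c)
    (hχδ : ∀ c ∈ coords κ crd ss, ∀ x x', dist x x' < δ → |χ c x - χ c x'| ≤ η)
    (hFδ : ∀ γ k e (y₀ y₁ : YY X p ℓ), dist y₀.1 y₁.1 < δ → GridSmall [y₀, y₁] →
      ‖F γ k e y₁.1 (qq y₁) * ph (thc y₀ y₁) - F γ k e y₀.1 (qq y₀)‖ ≤ η) (γ : Fin m) :
    ∃ h : List (YY X p ℓ) → ℤ, (∀ l, h l ≠ 0 → l.length = 2 * κ + 1) ∧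
      (∀ l ∈ SY (stSX δ), h l ≠ 0 → ∀ y ∈ l, ∀ k ≤ 2 * κ, |χ (crd γ k) y.1 - 1 / 2| ≤ 1 / 8) ∧
      (∀ l ∈ SY (stSX δ), (∀ y ∈ l, ∃ k e, c ≤ ‖F γ k e y.1 (qq y)‖) →
        ∀ l', l'.Sublist l → tau (gvs (fun k y => χ (crd γ k) y.1 - 1 / 2) κ) l' = dl h l') ∧
      ∀ (σ : Equiv.Perm (Fin p)) l, h (l.map (act σ)) = h l := by
  have hv : ∀ k ≤ 2 * κ, Vary (SY (p := p) (ℓ := ℓ) (stSX δ))
      (fun y : YY X p ℓ => χ (crd γ k) y.1 - 1 / 2) η := by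
    intro k hk l hl y hy y' hy'
    change |χ (crd γ k) y.1 - 1 / 2 - (χ (crd γ k) y'.1 - 1 / 2)| ≤ η
    rw [sub_sub_sub_cancel_right]
    exact hχδ _ (st_mem_coords crd ss γ hk) _ _ (st_SY_dist hl hy hy')
  have hF1 : ∀ k < κ, ∀ e (y₀ y₁ : YY X p ℓ), [y₀, y₁] ∈ SY (p := p) (ℓ := ℓ) (stSX δ) →
      ‖stF (F γ) k e y₁ * ph (thc y₀ y₁) - stF (F γ) k e y₀‖ ≤ η := by
    intro k hk e y₀ y₁ h01
    rw [stF_lt (F γ) hk, stF_lt (F γ) hk]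
    exact hFδ γ ⟨k, hk⟩ e y₀ y₁ (st_SY_dist h01 (by simp) (by simp)) h01.2
  have hho : ∀ k < κ, ∀ y : YY X p ℓ,
      rho k / 2 ≤ rad (nF (fun k (y : YY X p ℓ) => χ (crd γ k) y.1 - 1 / 2) rho k)
        (fun y => χ (crd γ (2 * k + 1)) y.1 - 1 / 2) (fun y => χ (crd γ (2 * k + 2)) y.1 - 1 / 2) y →
      HopfRel (nF (fun k (y : YY X p ℓ) => χ (crd γ k) y.1 - 1 / 2) rho k y)
        (χ (crd γ (2 * k + 1)) y.1 - 1 / 2) (χ (crd γ (2 * k + 2)) y.1 - 1 / 2)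
        (stF (F γ) k 0 y) (stF (F γ) k 1 y) := by
    intro k hk y hy
    rw [stF_lt (F γ) hk, stF_lt (F γ) hk, st_nF Prod.fst (fun i x => χ (crd γ i) x - 1 / 2)]
    refine hopf γ ⟨k, hk⟩ y.1 (qq y) ?_
    refine hy.trans (le_of_eq ?_)
    unfold rad
    rw [st_nF Prod.fst (fun i x => χ (crd γ i) x - 1 / 2)]
  have hFs : ∀ k < κ, ∀ e (σ : Equiv.Perm (Fin p)) (y : YY X p ℓ),
      stF (F γ) k e (act σ y) = stF (F γ) k e y := by
    intro k hk e σ y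
    rw [stF_lt (F γ) hk, stF_lt (F γ) hk]
    exact st_qq_act (F γ ⟨k, hk⟩ e) (fun x σ q => sym γ ⟨k, hk⟩ e x σ q) σ y
  obtain ⟨h, h1, h2, h3, h4⟩ := exists_h (X := X) (p := p) (ℓ := ℓ) (κ := κ) hκ hℓ hp
    (st_full δ) (fun k y => χ (crd γ k) y.1 - 1 / 2) hη hηρ hηc hv (stF (F γ)) hF1 hho
    (fun _ _ _ _ => rfl) hFs
  refine ⟨h, h1, h2, fun l hl hy => h3 l hl fun y hyl => ?_, h4⟩
  obtain ⟨k, e, hk⟩ := hy y hyl
  refine ⟨k, k.2, e, ?_⟩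
  rw [stF_lt (F γ) k.2]
  exact hk

/-- the combination number `i` of the components `(k, e)` of the groups -/
noncomputable def stA {X : Type*} {κ m p : ℕ}
    (F : Fin m → Fin κ → Fin 2 → X → (Fin p → Fin 2 → ℂ) → ℂ) (i : ℕ) (k : Fin κ) (e : Fin 2)
    (x : X) (q : Fin p → Fin 2 → ℂ) : ℂ := ∑ γ : Fin m, ((γ : ℕ) : ℂ) ^ i * F γ k e x q

open scoped Classical in
/-- the static theorem once all constants have been chosen -/
theorem st_core {X : Type*} [MetricSpace X] {C : Type*} {κ a m p ℓ : ℕ} (hκ : 1 ≤ κ) (hℓ : 3 ≤ ℓ)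
    (hp : (p : ℝ) / ℓ ≤ 1 / 32) (χ : C → X → ℝ) (crd : Fin m → ℕ → C) (ss : List C)
    (F : Fin m → Fin κ → Fin 2 → X → (Fin p → Fin 2 → ℂ) → ℂ)
    (sym : ∀ γ k e x (σ : Equiv.Perm (Fin p)) q, F γ k e x (fun j => q (σ j)) = F γ k e x q)
    (hopf : ∀ γ (k : Fin κ) x q,
      rho k / 2 ≤ rad (nF (fun i x => χ (crd γ i) x - 1 / 2) rho k)
        (fun x => χ (crd γ (2 * k + 1)) x - 1 / 2) (fun x => χ (crd γ (2 * k + 2)) x - 1 / 2) x →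
      HopfRel (nF (fun i x => χ (crd γ i) x - 1 / 2) rho k x)
        (χ (crd γ (2 * k + 1)) x - 1 / 2) (χ (crd γ (2 * k + 2)) x - 1 / 2)
        (F γ k 0 x q) (F γ k 1 x q))
    (actv : Fin m → Set X) (hact1 : ∀ γ k e x q, F γ k e x q ≠ 0 → x ∈ actv γ)
    (hact2 : ∀ γ x, x ∉ actv γ → ∀ i ≤ 2 * κ, χ (crd γ i) x ≤ 1 / 8)
    (𝒲 : Set (Set X)) (W : X → Set C → Set X) {δ₁ : ℝ}
    (hW : ∀ x x', dist x x' < δ₁ → ∀ A : Set C,
      (∀ c ∈ A, c ∈ coords κ crd ss ∧ 1 / 8 < χ c x) →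
      (∀ c ∈ coords κ crd ss, 7 / 8 < χ c x → c ∈ A) → W x A ∈ 𝒲 ∧ x' ∈ W x A ∧ W x' A = W x A)
    {D : ℕ} (hD : ∀ x, (2 * κ + 1) * (Finset.univ.filter fun γ => x ∈ actv γ).card +
      (ss.filter fun c => 1 / 8 < χ c x ∧ χ c x < 7 / 8).length ≤ D + a + 1)
    (e₀ : Fin p ≃ Fin a × Fin κ × Fin 2) {δ η c : ℝ} (hδ : δ ≤ δ₁) (hc : 0 < c) (hη : 0 < η)
    (hη1 : η ≤ 1 / 16) (hη2 : η ≤ c / 2 / 100)
    (hηρ : ∀ l < κ, 2000 * (2 * κ + 1) * η ≤ rho l) (hηc : 2000 * (2 * κ + 1) * η ≤ c / 2)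
    (hmds : ∀ x (q : Fin p → Fin 2 → ℂ),
      (∀ j, ∃ u ∈ Set.Icc (0 : ℝ) 1, ∃ w ∈ Set.Icc (0 : ℝ) 1, q j = ktf u w) →
      (∀ (i : Fin a) k e, ‖stA F i k e x q‖ < c) →
      a + 1 ≤ (Finset.univ.filter fun γ => ∃ k e, c ≤ ‖F γ k e x q‖).card)
    (hχδ : ∀ c ∈ coords κ crd ss, ∀ x x', dist x x' < δ → |χ c x - χ c x'| ≤ η)
    (hFδ : ∀ γ k e (y₀ y₁ : YY X p ℓ), dist y₀.1 y₁.1 < δ → GridSmall [y₀, y₁] →
      ‖F γ k e y₁.1 (qq y₁) * ph (thc y₀ y₁) - F γ k e y₀.1 (qq y₀)‖ ≤ η)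
    (hAδ : ∀ (i : Fin a) k e (y₀ y₁ : YY X p ℓ), dist y₀.1 y₁.1 < δ → GridSmall [y₀, y₁] →
      ‖stA F i k e y₁.1 (qq y₁) * ph (thc y₀ y₁) - stA F i k e y₀.1 (qq y₀)‖ ≤ η) :
    ∃ Ψ : List X → OChain (Set X), Ψ [] = 0 ∧ (∀ l ∈ stSX δ, bd (Ψ l) = dl Ψ l) ∧
      (∀ x, [x] ∈ stSX δ → aug (Ψ [x]) = 1) ∧
      (∀ l ∈ stSX δ, ∀ s ∈ (Ψ l).support, s.length = l.length ∧
        ∀ V ∈ s, V ∈ 𝒲 ∧ ∀ x ∈ l, x ∈ V) ∧
      ∀ l ∈ stSX δ, D + 1 < l.length → Ψ l = 0 := by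
  have : NeZero ℓ := ⟨by omega⟩
  have hfull := st_full (X := X) δ
  have hfullY := eta_SY_full (p := p) (ℓ := ℓ) hfull
  -- the cocycle
  obtain ⟨ηc, e1, e2, e3, e4, e5⟩ := exists_eta (X := X) (p := p) (ℓ := ℓ) hℓ
    (hp.trans (by norm_num)) hfull
    (fun j y => stA F (e₀ j).1 (e₀ j).2.1 (e₀ j).2.2 y.1 (qq y)) (d := c / 2) (by positivity)
    (fun j y₀ y₁ h01 => (hAδ _ _ _ y₀ y₁ (st_SY_dist h01 (by simp) (by simp)) h01.2).trans hη2)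
    (fun j σ y => by
      refine st_qq_act (stA F (e₀ j).1 (e₀ j).2.1 (e₀ j).2.2) (fun x σ q => ?_) σ y
      unfold stA
      exact Finset.sum_congr rfl fun γ _ => by rw [sym])
  -- the modifications
  choose h h1 h2 h3 h4 using st_h (δ := δ) (η := η) (c := c / 2) hκ hℓ hp χ crd ss F sym hopf hη hηρ
    hηc hχδ hFδ
  have hvar : ∀ l ∈ SY (p := p) (ℓ := ℓ) (stSX δ), ∀ c ∈ coords κ crd ss, ∀ y ∈ l, ∀ y' ∈ l,
      |χ c y.1 - χ c y'.1| ≤ 1 / 8 := fun l hl c hc y hy y' hy' =>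
    (hχδ c hc _ _ (st_SY_dist hl hy hy')).trans (by linarith)
  have hh : ∀ l ∈ SY (p := p) (ℓ := ℓ) (stSX δ), ∀ γ l', l'.Sublist l → h γ l' ≠ 0 → l' ≠ [] ∧
      ∀ y ∈ l', ∀ k ≤ 2 * κ, |χ (crd γ k) y.1 - 1 / 2| ≤ 1 / 8 := by
    intro l hl γ l' hl' hne
    refine ⟨fun h0 => ?_, h2 γ l' (hfullY l hl l' fun y hy => hl'.subset hy) hne⟩
    have := h1 γ l' hne
    rw [h0] at this
    simp at this
  have hWl : ∀ l ∈ SY (p := p) (ℓ := ℓ) (stSX δ), ∀ κs, 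
      AllowedL (blks κ (fun c (y : YY X p ℓ) => χ c y.1) crd ss h) l κs → ∀ y ∈ l, ∀ S,
      VertexOf S κs → ∀ x', dist y.1 x' < δ₁ → W y.1 (onS (coords κ crd ss) S) ∈ 𝒲 ∧
        x' ∈ W y.1 (onS (coords κ crd ss) S) ∧
        W x' (onS (coords κ crd ss) S) = W y.1 (onS (coords κ crd ss) S) := by
    intro l hl κs hκs y hy S hS x' hx'
    obtain ⟨a1, a2⟩ := allowed_vertex (fun c (y : YY X p ℓ) => χ c y.1) crd ss h l (hvar l hl)
      (hh l hl) hκs hS hy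
    exact hW y.1 x' hx' _ a1 a2
  -- the chain map on the product
  obtain ⟨Φ, f1, f2, f3, f4, f5⟩ := exists_Phi (X := X) (V := Set X) (p := p) (ℓ := ℓ)
    (blks κ (fun c (y : YY X p ℓ) => χ c y.1) crd ss h)
    (st_blks_good hκ _ crd ss h h1)
    (fun x κs => TW (coords κ crd ss) (W x) κs) (fun x κs => TW_bd _ _ _)
    (fun x κs hκs => TW_aug _ _ _ hκs) hfull
    (fun l hl y hy y' hy' κs hκs => TW_congr _ _ _ _ fun S hS =>
      ((hWl l hl κs hκs y hy S hS y'.1 ((st_SY_dist hl hy hy').trans_le hδ)).2.2).symm)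
    (fun σ => st_blks_inv _ crd ss h (act σ) (fun _ _ => rfl) fun γ l => h4 γ σ l)
  obtain ⟨Ψ, g1, g2, g3, g4⟩ := transfer (X := X) (V := Set X) (p := p) (ℓ := ℓ) hℓ hfull ηc Φ
    e1 e2 e3 e4 f1 f2 f3 f4
  refine ⟨Ψ, g1, g2, g3, fun l hl s hs => ?_, fun l hl hlen => ?_⟩
  · obtain ⟨L, hL, hLl, hLlen, -, hLs⟩ := g4 l hl s hs
    have hL' : L.drop (2 * p) ∈ SY (p := p) (ℓ := ℓ) (stSX δ) :=
      hfullY L hL _ fun y hy => List.mem_of_mem_drop hy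
    obtain ⟨y, hy, κs, hκs, hec, hs'⟩ := f5 _ hL' s hLs
    obtain ⟨b1, b2⟩ := TW_support _ _ _ _ hs'
    have hyl : y.1 ∈ l := hLl y (List.mem_of_mem_drop hy)
    refine ⟨?_, fun V hV => ?_⟩
    · rw [b1, hec, List.length_drop, hLlen]
      omega
    · obtain ⟨S, hS, rfl⟩ := b2 V hV
      refine ⟨(hWl _ hL' κs hκs y hy S hS y.1 ?_).1, fun x hx =>
        (hWl _ hL' κs hκs y hy S hS x ?_).2.1⟩
      · exact (hl y.1 hyl y.1 hyl).trans_le hδ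
      · exact (hl y.1 hyl x hx).trans_le hδ
  · by_contra hne
    obtain ⟨s, hs⟩ := Finsupp.support_nonempty_iff.2 hne
    obtain ⟨L, hL, hLl, hLlen, hLη, hLs⟩ := g4 l hl s hs
    have hL' : L.drop (2 * p) ∈ SY (p := p) (ℓ := ℓ) (stSX δ) :=
      hfullY L hL _ fun y hy => List.mem_of_mem_drop hy
    have hL'' : L.take (2 * p + 1) ∈ SY (p := p) (ℓ := ℓ) (stSX δ) :=
      hfullY L hL _ fun y hy => List.mem_of_mem_take hy
    obtain ⟨y, hy, κs, hκs, hec, hs'⟩ := f5 _ hL' s hLs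
    have hyL : y ∈ L := List.mem_of_mem_drop hy
    have hgood := hmds y.1 (qq y) (qq_mem hℓ y) (fun i k e => by
      obtain ⟨y', hy', hy'd⟩ := e5 _ hL'' hLη (e₀.symm (i, k, e))
      rw [Equiv.apply_symm_apply] at hy'd
      have hy'L : y' ∈ L := List.mem_of_mem_take hy'
      have h01 := st_pair hL hy'L hyL
      have := (st_norm (hAδ i k e y' y (st_SY_dist h01 (by simp) (by simp)) h01.2)).1
      change ‖stA F i k e y'.1 (qq y')‖ < c / 2 at hy'd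
      linarith)
    have hcount := allowed_count (fun c (y : YY X p ℓ) => χ c y.1) crd ss h _ (hvar _ hL')
      (hh _ hL') hκs hy (fun γ => y.1 ∈ actv γ) (fun γ hγ => hact2 γ y.1 hγ)
      (Finset.univ.filter fun γ => ∃ k e, c ≤ ‖F γ k e y.1 (qq y)‖)
      (fun γ hγ => by
        obtain ⟨k, e, hke⟩ := (Finset.mem_filter.1 hγ).2
        refine hact1 γ k e y.1 (qq y) fun h0 => ?_
        rw [h0, norm_zero] at hke
        linarith)
      (fun γ hγ => by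
        obtain ⟨k, e, hke⟩ := (Finset.mem_filter.1 hγ).2
        refine h3 γ _ hL' fun y' hy' => ⟨k, e, ?_⟩
        have h01 := st_pair hL' hy' hy
        have := (st_norm (hFδ γ k e y' y (st_SY_dist h01 (by simp) (by simp)) h01.2)).1
        linarith)
    have hDy := hD y.1
    rw [List.length_drop, hLlen] at hec
    have hcount' := hcount.trans hDy
    omega

open scoped Classical in
/-- **The static theorem.** -/
theorem static {X : Type*} [MetricSpace X] [CompactSpace X] {C : Type*} {κ a m : ℕ} (hκ : 1 ≤ κ)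
    (χ : C → X → ℝ) (hχ : ∀ c, Continuous (χ c)) (crd : Fin m → ℕ → C) (ss : List C)
    (F : Fin m → Fin κ → Fin 2 → X → (Fin (2 * κ * a) → Fin 2 → ℂ) → ℂ)
    (hF : ∀ γ k e, Continuous fun z : X × (Fin (2 * κ * a) → Fin 2 → ℂ) => F γ k e z.1 z.2)
    (hom : ∀ γ k e x, MultiHom (F γ k e x))
    (sym : ∀ γ k e x (σ : Equiv.Perm (Fin (2 * κ * a))) q,
      F γ k e x (fun j => q (σ j)) = F γ k e x q)
    (hne : ∀ x q, (∀ j, q j ≠ 0) → ∃ γ k e, F γ k e x q ≠ 0)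
    (hopf : ∀ γ (k : Fin κ) x q,
      rho k / 2 ≤ rad (nF (fun i x => χ (crd γ i) x - 1 / 2) rho k)
        (fun x => χ (crd γ (2 * k + 1)) x - 1 / 2) (fun x => χ (crd γ (2 * k + 2)) x - 1 / 2) x →
      HopfRel (nF (fun i x => χ (crd γ i) x - 1 / 2) rho k x)
        (χ (crd γ (2 * k + 1)) x - 1 / 2) (χ (crd γ (2 * k + 2)) x - 1 / 2)
        (F γ k 0 x q) (F γ k 1 x q))
    (actv : Fin m → Set X) (hact1 : ∀ γ k e x q, F γ k e x q ≠ 0 → x ∈ actv γ)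
    (hact2 : ∀ γ x, x ∉ actv γ → ∀ i ≤ 2 * κ, χ (crd γ i) x ≤ 1 / 8)
    (𝒲 : Set (Set X)) (W : X → Set C → Set X) {δ₁ : ℝ} (hδ₁ : 0 < δ₁)
    (hW : ∀ x x', dist x x' < δ₁ → ∀ A : Set C,
      (∀ c ∈ A, c ∈ coords κ crd ss ∧ 1 / 8 < χ c x) →
      (∀ c ∈ coords κ crd ss, 7 / 8 < χ c x → c ∈ A) → W x A ∈ 𝒲 ∧ x' ∈ W x A ∧ W x' A = W x A)
    {D : ℕ} (hD : ∀ x, (2 * κ + 1) * (Finset.univ.filter fun γ => x ∈ actv γ).card +
      (ss.filter fun c => 1 / 8 < χ c x ∧ χ c x < 7 / 8).length ≤ D + a + 1) :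
    HomOrderLE 𝒲 D := by
  obtain ⟨e₀⟩ : Nonempty (Fin (2 * κ * a) ≃ Fin a × Fin κ × Fin 2) := by
    refine ⟨Fintype.equivOfCardEq ?_⟩
    simp only [Fintype.card_fin, Fintype.card_prod]
    ring
  obtain ⟨c, hc, hmds⟩ := mds_compact (a := a) F hF hne
  obtain ⟨η, hη, hη1, hη2, hηρ, hηc⟩ := st_eta κ hc
  obtain ⟨δ₂, hδ₂, hχδ⟩ := st_chi χ hχ (coords κ crd ss) hη
  obtain ⟨δ₃, hδ₃, n₃, hFδ⟩ := st_unif (ι := Fin m × Fin κ × Fin 2)
    (fun i δ n => ∀ ℓ ≥ n, ∀ y₀ y₁ : YY X (2 * κ * a) ℓ, dist y₀.1 y₁.1 < δ →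
      GridSmall [y₀, y₁] → ‖F i.1 i.2.1 i.2.2 y₁.1 (qq y₁) * ph (thc y₀ y₁) -
        F i.1 i.2.1 i.2.2 y₀.1 (qq y₀)‖ ≤ η)
    (fun i => qp_close _ (hF i.1 i.2.1 i.2.2) (hom i.1 i.2.1 i.2.2) hη)
    (fun i δ δ' n n' h1 h2 h3 ℓ hℓ y₀ y₁ hy => h3 ℓ (h2.trans hℓ) y₀ y₁ (hy.trans_le h1))
  obtain ⟨δ₄, hδ₄, n₄, hAδ⟩ := st_unif (ι := Fin a × Fin κ × Fin 2)
    (fun i δ n => ∀ ℓ ≥ n, ∀ y₀ y₁ : YY X (2 * κ * a) ℓ, dist y₀.1 y₁.1 < δ →
      GridSmall [y₀, y₁] → ‖stA F i.1 i.2.1 i.2.2 y₁.1 (qq y₁) * ph (thc y₀ y₁) -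
        stA F i.1 i.2.1 i.2.2 y₀.1 (qq y₀)‖ ≤ η)
    (fun i => qp_close _
      (by
        unfold stA
        exact continuous_finsetSum _ fun γ _ => continuous_const.mul (hF γ i.2.1 i.2.2))
      (fun x q cc => by
        unfold stA
        rw [Finset.mul_sum]
        refine Finset.sum_congr rfl fun γ _ => ?_
        rw [hom γ i.2.1 i.2.2 x q cc]
        ring) hη)
    (fun i δ δ' n n' h1 h2 h3 ℓ hℓ y₀ y₁ hy => h3 ℓ (h2.trans hℓ) y₀ y₁ (hy.trans_le h1))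
  obtain ⟨δ, hδ0, hδ1, hδ2, hδ3, hδ4⟩ : ∃ δ : ℝ, 0 < δ ∧ δ ≤ δ₁ ∧ δ ≤ δ₂ ∧ δ ≤ δ₃ ∧ δ ≤ δ₄ :=
    ⟨min (min δ₁ δ₂) (min δ₃ δ₄), lt_min (lt_min hδ₁ hδ₂) (lt_min hδ₃ hδ₄),
      (min_le_left _ _).trans (min_le_left _ _), (min_le_left _ _).trans (min_le_right _ _),
      (min_le_right _ _).trans (min_le_left _ _), (min_le_right _ _).trans (min_le_right _ _)⟩
  obtain ⟨ℓ, hℓ3, hℓn3, hℓn4, hℓp⟩ : ∃ ℓ : ℕ, 3 ≤ ℓ ∧ n₃ ≤ ℓ ∧ n₄ ≤ ℓ ∧ 32 * (2 * κ * a) ≤ ℓ :=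
    ⟨3 + n₃ + n₄ + 32 * (2 * κ * a), by omega, by omega, by omega, by omega⟩
  have hp : ((2 * κ * a : ℕ) : ℝ) / ℓ ≤ 1 / 32 := by
    have h0 : (0 : ℝ) < ℓ := by
      have : 0 < ℓ := by omega
      exact_mod_cast this
    rw [div_le_iff₀ h0]
    have : ((32 * (2 * κ * a) : ℕ) : ℝ) ≤ ℓ := by exact_mod_cast hℓp
    push_cast at this ⊢
    linarith
  obtain ⟨Ψ, g1, g2, g3, g4, g5⟩ := st_core (δ := δ) (η := η) (c := c) hκ hℓ3 hp χ crd ss F sym hopf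
    actv hact1 hact2 𝒲 W hW hD e₀ hδ1 hc hη hη1 hη2 hηρ hηc hmds
    (fun c hc x x' hx => hχδ c hc x x' (hx.trans_le hδ2))
    (fun γ k e y₀ y₁ hy => hFδ (γ, k, e) ℓ hℓn3 y₀ y₁ (hy.trans_le hδ3))
    (fun i k e y₀ y₁ hy => hAδ (i, k, e) ℓ hℓn4 y₀ y₁ (hy.trans_le hδ4))
  -- the cover
  obtain ⟨t, -, ht, htc⟩ := finite_cover_balls_of_compact (isCompact_univ (X := X))
    (half_pos hδ0)
  refine ⟨(fun x => Metric.ball x (δ / 2)) '' t, Ψ, ⟨ht.image _, ?_, ?_⟩, fun x hx hsmall => ?_⟩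
  · rintro V ⟨x, -, rfl⟩
    exact Metric.isOpen_ball
  · rw [Set.sUnion_image]
    exact Set.univ_subset_iff.1 htc
  · have hxS : x ∈ stSX δ := by
      obtain ⟨G, ⟨z, -, rfl⟩, hG⟩ := hsmall
      intro y hy y' hy'
      have h1 := hG y hy
      have h2 := hG y' hy'
      rw [Metric.mem_ball] at h1 h2
      have := dist_triangle_right y y' z
      linarith
    refine ⟨fun s hs => g4 x hxS s hs, ?_, fun hlen => ?_, fun hlen => g5 x hxS hlen⟩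
    · rw [← bd_eq_extend, g2 x hxS, extend_boundary Ψ g1]
    · obtain ⟨z, rfl⟩ := List.length_eq_one_iff.1 hlen
      rw [← aug_eq_sum]
      exact g3 z hxS

end Vale.Agent.P093.Hom
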