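import Mathlib
import Vale.Agent.P093.Hom.Static
import Vale.Agent.P093.Hom.Family
import Vale.Agent.P093.Hom.Colour
import Vale.Agent.P093.Hom.DynCount

/-!
TASK HOM-H5: the homological order of the iterated covers.

Proof. `𝒱 = iterCover h 𝒰 L` is a finite open cover, `n = coverDim 𝒱`, `n₁ = coverDim 𝒰`. `exists_colours` for
`𝒱` gives `ψ, P` (on colours `c ≤ n`), for `𝒰` it gives `ψ₁, P₁` (`c ≤ n₁`). Each member `V` of `𝒱` is
`⋂_{j<L} h^{-j} (f_V j)` with `f_V j ∈ 𝒰` (choose `f_V`). `exists_tower` for `L, ε` gives `ω`.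
`exists_family` with `ψ' G k = ψ (G (2κ+1) + k)` gives `R₀, C₀`; we may replace `R₀` by `R = R₀ + L`
(put `F = 0` for the new times) or treat `R₀ < L` as well, as follows.
Coordinates: `C = (ℤ × ℕ) ⊕ (ℕ × ℕ)`,
`χ (inl (i,c)) x = θ (ω (h^i x)) * ψ c (h^i x)`, `θ u = max 0 (min 1 (4u - 1))` (`0` for `u ≤ 1/4`, `1` for
`u ≥ 1/2`); `χ (inr (j,c)) x = θ' (max_{j-L < i ≤ j} ω (h^i x)) * ψ₁ c (h^j x)`,
`θ' u = max 0 (min 1 (3 - 4u))` (`1` for `u ≤ 1/2`, `0` for `u ≥ 3/4`).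
Window starts: `i ∈ [-R, N+R)`, with `R ≥ R₀, L`; groups `γ ↔ (i, G)`, `m = (N+2R) t`
(`finProdFinEquiv`), `crd γ k = inl (i, G (2κ+1) + k)`; singles: `inl (i, c)` with
`t (2κ+1) ≤ c ≤ n`, and `inr (j, c)`, `j < N`, `c ≤ n₁`.
`actv (i,G) = {x | 1/4 < ω (h^i x)}`. `hact1`, `hact2` are clear. `hopf`: if `F i G k 0 x q` and
`F i G k 1 x q` both vanish it is trivial, otherwise `ω (h^i x) > 3/4`, `θ = 1` and `χ (crd γ j) x =
ψ (…) (h^i x)`; use the Hopf relations of `exists_family` at `h^i x`.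
`W x A = ⋂_{j<N} h^{-j} (U j)` where: if there is `inl (i,c) ∈ A` with `i ≤ j < i + L` choose one such
(depending only on `A` and `j`) and put `U j = f_V (j - i)` with `V = P c (h^i x)`; else if there is
`inr (j,c) ∈ A` choose one and put `U j = P₁ c (h^j x)`; else `U j` = a fixed member of `𝒰`.
`hW`: `δ₁` from the local constancy of `P c`, `P₁ c` with `ε = 1/8` and uniform continuity of the finitely many
`h^i`; note `1/8 < χ (inl (i,c)) x` implies `1/8 < ψ c (h^i x)`. For admissible `A` every `j < N` is covered: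
if some `i ∈ (j-L, j]` has `ω (h^i x) ≥ 1/2` then with `c ≤ n`, `ψ c (h^i x) = 1` one has
`χ (inl (i,c)) x = 1`, so `inl (i,c) ∈ A` (here `-R ≤ -L < i`, so `i` is a window start); otherwise
`χ (inr (j,c)) x = 1` for some `c ≤ n₁`. The members `U j` so obtained are in `𝒰` and contain `h^j x'`.
Count: `(2κ+1) #{γ | x ∈ actv γ}` plus the number of singles `inl (i,c)` in `(1/8, 7/8)` is at most
`(n+1) #{i ∈ [-R,N+R) | ω (h^i x) ≠ 0} ≤ (n+1) ((N+2R)/L + 1)` by the separation property. The singles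
`inr (j,c)` with `χ > 0`: `j` is not covered by a window with `ω (h^i x) ≥ 3/4`; the windows `[i, i+L)`,
`0 ≤ i < N - L`, `ω (h^i x) = 1`, are disjoint subsets of `[0,N)` and there are at least
`(1-ε)(N-L)/L - C₁` of them; so at most `(n₁+1)(N - L((1-ε)(N-L)/L - C₁)) ≤ (n₁+1)(ε N + L + L C₁)`
such singles. Choose `C'` large enough (depending on `R, L, n, n₁, C₀, C₁`).
-/

open Set
open scoped ENNReal

namespace Vale.Agent.P093.Hom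

theorem isFinOpenCover_iterCover {X : Type*} [TopologicalSpace X] (h : X ≃ₜ X)
    {𝒰 : Set (Set X)} (h𝒰 : IsFinOpenCover 𝒰) (N : ℕ) : IsFinOpenCover (iterCover h 𝒰 N) := by
  refine ⟨?_, ?_, ?_⟩
  · have := h𝒰.1.to_subtype
    refine (Set.finite_range fun g : Fin N → 𝒰 =>
      ⋂ j : Fin N, (⇑(h ^ (j : ℕ))) ⁻¹' (g j : Set X)).subset ?_
    rintro W ⟨f, hf, rfl⟩
    refine ⟨fun j => ⟨f j, hf j⟩, ?_⟩
    ext x
    simp only [mem_iInter, mem_preimage, Finset.mem_range]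
    exact ⟨fun H j hj => H ⟨j, hj⟩, fun H j => H j j.2⟩
  · rintro W ⟨f, hf, rfl⟩
    exact isOpen_biInter_finset fun j _ => (h𝒰.2.1 _ (hf j)).preimage (h ^ j).continuous
  · rw [eq_univ_iff_forall]
    intro x
    have h1 : ∀ j : ℕ, ∃ U ∈ 𝒰, (h ^ j) x ∈ U := fun j => by
      have h2 : (h ^ j) x ∈ ⋃₀ 𝒰 := by rw [h𝒰.2.2]; trivial
      exact h2
    choose f hf hfx using h1
    refine ⟨_, ⟨f, hf, rfl⟩, ?_⟩
    simp only [mem_iInter, mem_preimage]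
    exact fun j _ => hfx j

/-- cut-off: `0` for `u ≤ 1/4`, `1` for `u ≥ 1/2` -/
noncomputable def dcT (u : ℝ) : ℝ := max 0 (min 1 (4 * u - 1))

/-- cut-off: `1` for `u ≤ 1/2`, `0` for `u ≥ 3/4` -/
noncomputable def dcS (u : ℝ) : ℝ := max 0 (min 1 (3 - 4 * u))

theorem dcT_nonneg (u : ℝ) : 0 ≤ dcT u := le_max_left _ _

theorem dcT_le_one (u : ℝ) : dcT u ≤ 1 := max_le zero_le_one (min_le_left _ _)

theorem dcT_zero {u : ℝ} (h : u ≤ 1 / 4) : dcT u = 0 := by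
  unfold dcT
  exact max_eq_left ((min_le_right _ _).trans (by linarith))

theorem dcT_one {u : ℝ} (h : 1 / 2 ≤ u) : dcT u = 1 := by
  unfold dcT
  rw [min_eq_left (by linarith), max_eq_right zero_le_one]

theorem dcT_cont : Continuous dcT := by
  unfold dcT
  fun_prop

theorem dcS_nonneg (u : ℝ) : 0 ≤ dcS u := le_max_left _ _

theorem dcS_le_one (u : ℝ) : dcS u ≤ 1 := max_le zero_le_one (min_le_left _ _)

theorem dcS_zero {u : ℝ} (h : 3 / 4 ≤ u) : dcS u = 0 := by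
  unfold dcS
  exact max_eq_left ((min_le_right _ _).trans (by linarith))

theorem dcS_one {u : ℝ} (h : u ≤ 1 / 2) : dcS u = 1 := by
  unfold dcS
  rw [min_eq_left (by linarith), max_eq_right zero_le_one]

theorem dcS_cont : Continuous dcS := by
  unfold dcS
  fun_prop

section

variable {X : Type*} [TopologicalSpace X]

/-- the coordinate functions -/
noncomputable def dcChi (h : X ≃ₜ X) (L : ℕ) (ω : C(X, ℝ)) (ψ ψ₁ : ℕ → C(X, ℝ)) :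
    (ℤ × ℕ) ⊕ (ℕ × ℕ) → X → ℝ
  | Sum.inl z => fun x => dcT (ω ((h ^ z.1) x)) * ψ z.2 ((h ^ z.1) x)
  | Sum.inr z => fun x => (∏ i ∈ Finset.Ioc ((z.1 : ℤ) - L) z.1, dcS (ω ((h ^ i) x))) *
      ψ₁ z.2 ((h ^ (z.1 : ℤ)) x)

theorem dcChi_cont (h : X ≃ₜ X) (L : ℕ) (ω : C(X, ℝ)) (ψ ψ₁ : ℕ → C(X, ℝ)) (c) :
    Continuous (dcChi h L ω ψ ψ₁ c) := by
  rcases c with z | z
  · exact (dcT_cont.comp (ω.continuous.comp (h ^ z.1).continuous)).mul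
      ((ψ z.2).continuous.comp (h ^ z.1).continuous)
  · exact (continuous_finsetProd _ fun i _ =>
      dcS_cont.comp (ω.continuous.comp (h ^ i).continuous)).mul
      ((ψ₁ z.2).continuous.comp (h ^ (z.1 : ℤ)).continuous)

theorem dcChi_inl_le {h : X ≃ₜ X} {L : ℕ} {ω : C(X, ℝ)} {ψ ψ₁ : ℕ → C(X, ℝ)}
    (hψ : ∀ c x, 0 ≤ ψ c x ∧ ψ c x ≤ 1) (z : ℤ × ℕ) (x : X) :
    dcChi h L ω ψ ψ₁ (Sum.inl z) x ≤ ψ z.2 ((h ^ z.1) x) :=
  mul_le_of_le_one_left (hψ _ _).1 (dcT_le_one _)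

theorem dcChi_inr_le {h : X ≃ₜ X} {L : ℕ} {ω : C(X, ℝ)} {ψ ψ₁ : ℕ → C(X, ℝ)}
    (hψ : ∀ c x, 0 ≤ ψ₁ c x ∧ ψ₁ c x ≤ 1) (z : ℕ × ℕ) (x : X) :
    dcChi h L ω ψ ψ₁ (Sum.inr z) x ≤ ψ₁ z.2 ((h ^ (z.1 : ℤ)) x) :=
  mul_le_of_le_one_left (hψ _ _).1
    (Finset.prod_le_one (fun _ _ => dcS_nonneg _) fun _ _ => dcS_le_one _)

theorem dcChi_inl_ne {h : X ≃ₜ X} {L : ℕ} {ω : C(X, ℝ)} {ψ ψ₁ : ℕ → C(X, ℝ)}
    {z : ℤ × ℕ} {x : X} (h1 : 1 / 8 < dcChi h L ω ψ ψ₁ (Sum.inl z) x) :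
    ω ((h ^ z.1) x) ≠ 0 := by
  intro h0
  have : dcChi h L ω ψ ψ₁ (Sum.inl z) x = 0 := by
    change dcT (ω ((h ^ z.1) x)) * ψ z.2 ((h ^ z.1) x) = 0
    rw [h0, dcT_zero (by norm_num), zero_mul]
  rw [this] at h1
  norm_num at h1

theorem dcChi_inr_lt {h : X ≃ₜ X} {L : ℕ} {ω : C(X, ℝ)} {ψ ψ₁ : ℕ → C(X, ℝ)}
    {z : ℕ × ℕ} {x : X} (h1 : 1 / 8 < dcChi h L ω ψ ψ₁ (Sum.inr z) x) :
    ∀ i : ℤ, (z.1 : ℤ) - L < i → i ≤ z.1 → ω ((h ^ i) x) < 3 / 4 := by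
  intro i hi1 hi2
  by_contra h0
  rw [not_lt] at h0
  have : dcChi h L ω ψ ψ₁ (Sum.inr z) x = 0 := by
    change (∏ i ∈ Finset.Ioc ((z.1 : ℤ) - L) z.1, dcS (ω ((h ^ i) x))) *
      ψ₁ z.2 ((h ^ (z.1 : ℤ)) x) = 0
    rw [Finset.prod_eq_zero (Finset.mem_Ioc.mpr ⟨hi1, hi2⟩) (dcS_zero h0), zero_mul]
  rw [this] at h1
  norm_num at h1

open scoped Classical in
/-- the set chosen at time `j` -/
noncomputable def dcU (h : X ≃ₜ X) (L : ℕ) (P P₁ : ℕ → X → Set X) (fV : Set X → ℕ → Set X)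
    (U₀ : Set X) (x : X) (A : Set ((ℤ × ℕ) ⊕ (ℕ × ℕ))) (j : ℕ) : Set X :=
  if H : ∃ z : ℤ × ℕ, Sum.inl z ∈ A ∧ z.1 ≤ j ∧ (j : ℤ) < z.1 + L then
    fV (P H.choose.2 ((h ^ H.choose.1) x)) ((j : ℤ) - H.choose.1).toNat
  else if H' : ∃ c : ℕ, Sum.inr (j, c) ∈ A then P₁ H'.choose ((h ^ (j : ℤ)) x)
  else U₀

theorem dcU_cases (h : X ≃ₜ X) (L : ℕ) (P P₁ : ℕ → X → Set X) (fV : Set X → ℕ → Set X)
    (U₀ : Set X) (A : Set ((ℤ × ℕ) ⊕ (ℕ × ℕ))) (j : ℕ) :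
    (∃ z : ℤ × ℕ, Sum.inl z ∈ A ∧ z.1 ≤ j ∧ (j : ℤ) < z.1 + L ∧
      ∀ x, dcU h L P P₁ fV U₀ x A j = fV (P z.2 ((h ^ z.1) x)) ((j : ℤ) - z.1).toNat) ∨
    (∃ c : ℕ, Sum.inr (j, c) ∈ A ∧
      ∀ x, dcU h L P P₁ fV U₀ x A j = P₁ c ((h ^ (j : ℤ)) x)) ∨
    ((¬ ∃ z : ℤ × ℕ, Sum.inl z ∈ A ∧ z.1 ≤ j ∧ (j : ℤ) < z.1 + L) ∧
      (¬ ∃ c : ℕ, Sum.inr (j, c) ∈ A) ∧ ∀ x, dcU h L P P₁ fV U₀ x A j = U₀) := by
  classical
  by_cases H : ∃ z : ℤ × ℕ, Sum.inl z ∈ A ∧ z.1 ≤ j ∧ (j : ℤ) < z.1 + L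
  · left
    refine ⟨H.choose, H.choose_spec.1, H.choose_spec.2.1, H.choose_spec.2.2, fun x => ?_⟩
    unfold dcU
    rw [dif_pos H]
  · right
    by_cases H' : ∃ c : ℕ, Sum.inr (j, c) ∈ A
    · left
      refine ⟨H'.choose, H'.choose_spec, fun x => ?_⟩
      unfold dcU
      rw [dif_neg H, dif_pos H']
    · right
      refine ⟨H, H', fun x => ?_⟩
      unfold dcU
      rw [dif_neg H, dif_neg H']

/-- a common `δ` for finitely many conditions -/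
theorem dc_finmin {ι : Type*} (s : Finset ι) (Q : ι → ℝ → Prop)
    (hQ : ∀ i δ δ', δ' ≤ δ → Q i δ → Q i δ') (h : ∀ i ∈ s, ∃ δ > 0, Q i δ) :
    ∃ δ > 0, ∀ i ∈ s, Q i δ := by
  classical
  induction s using Finset.induction_on with
  | empty => exact ⟨1, one_pos, by simp⟩
  | insert a s _ ih =>
    obtain ⟨δ, hδ, h1⟩ := ih fun i hi => h i (Finset.mem_insert_of_mem hi)
    obtain ⟨δ', hδ', h2⟩ := h a (Finset.mem_insert_self _ _)
    refine ⟨min δ δ', lt_min hδ hδ', fun i hi => ?_⟩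
    rcases Finset.mem_insert.mp hi with rfl | hi
    · exact hQ _ _ _ (min_le_right _ _) h2
    · exact hQ _ _ _ (min_le_left _ _) (h1 i hi)

end

theorem dc_nF_congr {Y Y' : Type*} (f : ℕ → Y → ℝ) (f' : ℕ → Y' → ℝ) (ρ : ℕ → ℝ) (y : Y)
    (y' : Y') (h : ∀ j, f j y = f' j y') : ∀ k, nF f ρ k y = nF f' ρ k y' := by
  intro k
  induction k with
  | zero => exact h 0
  | succ k ih => simp only [nF, rad]; rw [ih, h, h]

theorem dc_hopf_zero (A B C : ℝ) : HopfRel A B C 0 0 := ⟨by simp, by simp⟩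

/-- all conditions on the family of functions, for the window starts in `[-R, N + R)` -/
structure DcFam {X : Type*} [MetricSpace X] (h : X ≃ₜ X) {κ t : ℕ} (ω : C(X, ℝ))
    (ψ : Fin t → ℕ → C(X, ℝ)) (R N a : ℕ)
    (F : Fin (N + 2 * R) → Fin t → Fin κ → Fin 2 → X → (Fin (2 * κ * a) → Fin 2 → ℂ) → ℂ) :
    Prop where
  cont : ∀ i G k e, Continuous fun z : X × (Fin (2 * κ * a) → Fin 2 → ℂ) => F i G k e z.1 z.2
  hom : ∀ i G k e x, MultiHom (F i G k e x)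
  sym : ∀ i G k e x (σ : Equiv.Perm (Fin (2 * κ * a))) q,
    F i G k e x (fun j => q (σ j)) = F i G k e x q
  ne : ∀ x q, (∀ j, q j ≠ 0) → ∃ i G k e, F i G k e x q ≠ 0
  supp : ∀ (i : Fin (N + 2 * R)) G k e x q, F i G k e x q ≠ 0 →
    3 / 4 < ω ((h ^ ((i : ℕ) - (R : ℤ) : ℤ)) x)
  hopf : ∀ (i : Fin (N + 2 * R)) G (k : Fin κ) x q (x' : X),
    x' = (h ^ ((i : ℕ) - (R : ℤ) : ℤ)) x →
    rho k / 2 ≤ rad (nF (fun j x => ψ G j x - 1 / 2) rho k)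
      (fun x => ψ G (2 * k + 1) x - 1 / 2) (fun x => ψ G (2 * k + 2) x - 1 / 2) x' →
    HopfRel (nF (fun j x => ψ G j x - 1 / 2) rho k x')
      (ψ G (2 * k + 1) x' - 1 / 2) (ψ G (2 * k + 2) x' - 1 / 2)
      (F i G k 0 x q) (F i G k 1 x q)

open scoped Classical in
/-- more window starts -/
theorem DcFam.extend {X : Type*} [MetricSpace X] {h : X ≃ₜ X} {κ t : ℕ} {ω : C(X, ℝ)}
    {ψ : Fin t → ℕ → C(X, ℝ)} {R N a : ℕ}
    {F : Fin (N + 2 * R) → Fin t → Fin κ → Fin 2 → X → (Fin (2 * κ * a) → Fin 2 → ℂ) → ℂ}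
    (hF : DcFam h ω ψ R N a F) (L : ℕ) :
    ∃ F', DcFam (κ := κ) (t := t) h ω ψ (R + L) N a F' := by
  let F' : Fin (N + 2 * (R + L)) → Fin t → Fin κ → Fin 2 → X →
      (Fin (2 * κ * a) → Fin 2 → ℂ) → ℂ := fun i G k e x q =>
    if hi : L ≤ (i : ℕ) ∧ (i : ℕ) < L + (N + 2 * R) then
      F ⟨(i : ℕ) - L, by omega⟩ G k e x q else 0
  have hpos : ∀ (i : Fin (N + 2 * (R + L))) (hi : L ≤ (i : ℕ) ∧ (i : ℕ) < L + (N + 2 * R)),
      ∀ G k e, F' i G k e = F ⟨(i : ℕ) - L, by omega⟩ G k e := by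
    intro i hi G k e
    funext x q
    exact dif_pos hi
  have hneg : ∀ (i : Fin (N + 2 * (R + L))), ¬ (L ≤ (i : ℕ) ∧ (i : ℕ) < L + (N + 2 * R)) →
      ∀ G k e, F' i G k e = fun _ _ => 0 := by
    intro i hi G k e
    funext x q
    exact dif_neg hi
  have hexp : ∀ (i : Fin (N + 2 * (R + L))), L ≤ (i : ℕ) →
      (((i : ℕ) - L : ℕ) : ℤ) - (R : ℤ) = ((i : ℕ) : ℤ) - ((R + L : ℕ) : ℤ) := by
    intro i hi
    omega
  refine ⟨F', ⟨?_, ?_, ?_, ?_, ?_, ?_⟩⟩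
  · intro i G k e
    by_cases hi : L ≤ (i : ℕ) ∧ (i : ℕ) < L + (N + 2 * R)
    · rw [hpos i hi]
      exact hF.cont _ _ _ _
    · rw [hneg i hi]
      exact continuous_const
  · intro i G k e x
    by_cases hi : L ≤ (i : ℕ) ∧ (i : ℕ) < L + (N + 2 * R)
    · rw [hpos i hi]
      exact hF.hom _ _ _ _ _
    · rw [hneg i hi]
      intro q c
      rw [mul_zero]
  · intro i G k e x σ q
    by_cases hi : L ≤ (i : ℕ) ∧ (i : ℕ) < L + (N + 2 * R)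
    · rw [hpos i hi]
      exact hF.sym _ _ _ _ _ _ _
    · rw [hneg i hi]
  · intro x q hq
    obtain ⟨i, G, k, e, hne⟩ := hF.ne x q hq
    have hi : L ≤ (i : ℕ) + L ∧ (i : ℕ) + L < L + (N + 2 * R) := by
      have := i.2
      omega
    refine ⟨⟨(i : ℕ) + L, by omega⟩, G, k, e, ?_⟩
    rw [hpos _ hi]
    convert hne using 3
    simp
  · intro i G k e x q hne
    by_cases hi : L ≤ (i : ℕ) ∧ (i : ℕ) < L + (N + 2 * R)
    · rw [hpos i hi] at hne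
      have h1 := hF.supp _ G k e x q hne
      simp only [hexp i hi.1] at h1
      exact h1
    · rw [hneg i hi] at hne
      exact absurd rfl hne
  · intro i G k x q x' hx' hrad
    by_cases hi : L ≤ (i : ℕ) ∧ (i : ℕ) < L + (N + 2 * R)
    · rw [hpos i hi, hpos i hi]
      refine hF.hopf _ G k x q x' ?_ hrad
      rw [hx']
      simp only [hexp i hi.1]
    · rw [hneg i hi, hneg i hi]
      exact dc_hopf_zero _ _ _

theorem dc_filter_length {α : Type*} (s : Finset α) (p : α → Prop) [DecidablePred p] :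
    (s.toList.filter fun c => p c).length = (s.filter p).card := by
  have h1 : (s.filter p).card = Multiset.card (Multiset.filter p (s.toList : Multiset α)) := by
    rw [Finset.coe_toList]
    rfl
  rw [h1, Multiset.filter_coe, Multiset.coe_card]

section

variable {κ t R N n n₁ : ℕ}

/-- the coordinates of the groups -/
def dcCrd (κ t R N : ℕ) (γ : Fin ((N + 2 * R) * t)) (k : ℕ) : (ℤ × ℕ) ⊕ (ℕ × ℕ) :=
  Sum.inl ((((finProdFinEquiv.symm γ).1 : ℕ) : ℤ) - R,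
    ((finProdFinEquiv.symm γ).2 : ℕ) * (2 * κ + 1) + k)

/-- the single coordinates -/
noncomputable def dcSs (κ t R N n n₁ : ℕ) : Finset ((ℤ × ℕ) ⊕ (ℕ × ℕ)) :=
  (Finset.Ico (-(R : ℤ)) (N + R) ×ˢ Finset.Ico (t * (2 * κ + 1)) (n + 1)).disjSum
    (Finset.range N ×ˢ Finset.range (n₁ + 1))

theorem dc_mem_inl (ht : t * (2 * κ + 1) ≤ n + 1) (i : ℤ) (c : ℕ) :
    (Sum.inl (i, c) : (ℤ × ℕ) ⊕ (ℕ × ℕ)) ∈
      coords κ (dcCrd κ t R N) (dcSs κ t R N n n₁).toList ↔ -(R : ℤ) ≤ i ∧ i < N + R ∧ c ≤ n := by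
  unfold coords
  simp only [List.mem_append, List.mem_flatMap, List.mem_map, List.mem_range, List.mem_finRange,
    true_and, Finset.mem_toList, dcSs, Finset.inl_mem_disjSum, Finset.mem_product,
    Finset.mem_Ico, dcCrd, Sum.inl.injEq, Prod.mk.injEq]
  constructor
  · rintro (⟨γ, k, hk, h1, h2⟩ | h)
    · have h3 := (finProdFinEquiv.symm γ).1.2
      have h4 := (finProdFinEquiv.symm γ).2.2
      have h5 : (((finProdFinEquiv.symm γ).2 : ℕ) + 1) * (2 * κ + 1) ≤ t * (2 * κ + 1) :=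
        Nat.mul_le_mul_right _ h4
      refine ⟨by omega, by omega, ?_⟩
      rw [add_mul, one_mul] at h5
      omega
    · omega
  · rintro ⟨h1, h2, h3⟩
    by_cases hc : c < t * (2 * κ + 1)
    · left
      have hG : c / (2 * κ + 1) < t := Nat.div_lt_of_lt_mul (by rwa [mul_comm] at hc)
      refine ⟨finProdFinEquiv (⟨(i + R).toNat, by omega⟩, ⟨c / (2 * κ + 1), hG⟩),
        c % (2 * κ + 1), Nat.mod_lt _ (by omega), ?_, ?_⟩
      · rw [Equiv.symm_apply_apply]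
        simp only
        omega
      · rw [Equiv.symm_apply_apply]
        simp only
        rw [mul_comm]
        exact Nat.div_add_mod _ _
    · right
      omega

theorem dc_mem_inr (j c : ℕ) :
    (Sum.inr (j, c) : (ℤ × ℕ) ⊕ (ℕ × ℕ)) ∈
      coords κ (dcCrd κ t R N) (dcSs κ t R N n n₁).toList ↔ j < N ∧ c ≤ n₁ := by
  unfold coords
  simp only [List.mem_append, List.mem_flatMap, List.mem_map, List.mem_range, List.mem_finRange,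
    Finset.mem_toList, dcSs, Finset.inr_mem_disjSum, Finset.mem_product,
    Finset.mem_range, dcCrd, reduceCtorEq, and_false, exists_false, false_or]
  omega

end

/-- the labelling -/
theorem dc_label {X : Type*} [MetricSpace X] [CompactSpace X] (h : X ≃ₜ X)
    {𝒰 : Set (Set X)} {κ t L R N n n₁ : ℕ} (hL : 0 < L) (hLR : L ≤ R) (ω : C(X, ℝ))
    (ht : t * (2 * κ + 1) ≤ n + 1) (ψ ψ₁ : ℕ → C(X, ℝ)) (P P₁ : ℕ → X → Set X)
    (hψ01 : ∀ c x, 0 ≤ ψ c x ∧ ψ c x ≤ 1) (hψ₁01 : ∀ c x, 0 ≤ ψ₁ c x ∧ ψ₁ c x ≤ 1)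
    (hψ : ∀ x, ∃ c ≤ n, ψ c x = 1) (hψ₁ : ∀ x, ∃ c ≤ n₁, ψ₁ c x = 1)
    (hP : ∀ c x, 0 < ψ c x → P c x ∈ iterCover h 𝒰 L ∧ x ∈ P c x)
    (hP₁ : ∀ c x, 0 < ψ₁ c x → P₁ c x ∈ 𝒰 ∧ x ∈ P₁ c x)
    (hPl : ∀ c, ∀ ε > 0, ∃ δ > 0, ∀ x x', dist x x' < δ → ε ≤ ψ c x →
      P c x' = P c x ∧ x' ∈ P c x)
    (hPl₁ : ∀ c, ∀ ε > 0, ∃ δ > 0, ∀ x x', dist x x' < δ → ε ≤ ψ₁ c x →
      P₁ c x' = P₁ c x ∧ x' ∈ P₁ c x)
    (fV : Set X → ℕ → Set X) (hfV : ∀ V ∈ iterCover h 𝒰 L, (∀ j, fV V j ∈ 𝒰) ∧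
      V = ⋂ j ∈ Finset.range L, (⇑(h ^ j)) ⁻¹' (fV V j))
    (U₀ : Set X) (hU₀ : U₀ ∈ 𝒰) :
    ∃ δ₁ > 0, ∀ x x', dist x x' < δ₁ → ∀ A : Set ((ℤ × ℕ) ⊕ (ℕ × ℕ)),
      (∀ c ∈ A, c ∈ coords κ (dcCrd κ t R N) (dcSs κ t R N n n₁).toList ∧
        1 / 8 < dcChi h L ω ψ ψ₁ c x) →
      (∀ c ∈ coords κ (dcCrd κ t R N) (dcSs κ t R N n n₁).toList,
        7 / 8 < dcChi h L ω ψ ψ₁ c x → c ∈ A) →
      (⋂ j ∈ Finset.range N, (⇑(h ^ j)) ⁻¹' (dcU h L P P₁ fV U₀ x A j)) ∈ iterCover h 𝒰 N ∧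
      x' ∈ (⋂ j ∈ Finset.range N, (⇑(h ^ j)) ⁻¹' (dcU h L P P₁ fV U₀ x A j)) ∧
      (⋂ j ∈ Finset.range N, (⇑(h ^ j)) ⁻¹' (dcU h L P P₁ fV U₀ x' A j)) =
        ⋂ j ∈ Finset.range N, (⇑(h ^ j)) ⁻¹' (dcU h L P P₁ fV U₀ x A j) := by
  classical
  obtain ⟨δa, hδa, ha⟩ := dc_finmin (Finset.range (n + 1))
    (fun c δ => ∀ x x', dist x x' < δ → 1 / 8 ≤ ψ c x → P c x' = P c x ∧ x' ∈ P c x)
    (fun c δ δ' hle H x x' hd => H x x' (hd.trans_le hle))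
    (fun c _ => hPl c (1 / 8) (by norm_num))
  obtain ⟨δb, hδb, hb⟩ := dc_finmin (Finset.range (n₁ + 1))
    (fun c δ => ∀ x x', dist x x' < δ → 1 / 8 ≤ ψ₁ c x → P₁ c x' = P₁ c x ∧ x' ∈ P₁ c x)
    (fun c δ δ' hle H x x' hd => H x x' (hd.trans_le hle))
    (fun c _ => hPl₁ c (1 / 8) (by norm_num))
  obtain ⟨δ₁, hδ₁, hδ⟩ := dc_finmin (Finset.Ico (-(R : ℤ)) (N + R))
    (fun i δ => ∀ x x', dist x x' < δ → dist ((h ^ i) x) ((h ^ i) x') < min δa δb)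
    (fun c δ δ' hle H x x' hd => H x x' (hd.trans_le hle))
    (fun i _ => by
      have h1 := CompactSpace.uniformContinuous_of_continuous (h ^ i).continuous
      obtain ⟨δ, h2, h3⟩ := Metric.uniformContinuous_iff.mp h1 (min δa δb) (lt_min hδa hδb)
      exact ⟨δ, h2, fun x x' hd => h3 hd⟩)
  refine ⟨δ₁, hδ₁, fun x x' hd A hA1 hA2 => ?_⟩
  have key : ∀ j < N, dcU h L P P₁ fV U₀ x A j ∈ 𝒰 ∧ (h ^ j) x' ∈ dcU h L P P₁ fV U₀ x A j ∧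
      dcU h L P P₁ fV U₀ x' A j = dcU h L P P₁ fV U₀ x A j := by
    intro j hj
    rcases dcU_cases h L P P₁ fV U₀ A j with ⟨z, hz, h1, h2, h3⟩ | ⟨c, hc, h3⟩ | ⟨h1, h2, -⟩
    · obtain ⟨i, c⟩ := z
      simp only at h1 h2 h3
      obtain ⟨hzc, hz8⟩ := hA1 _ hz
      rw [dc_mem_inl ht] at hzc
      have h8 : 1 / 8 < ψ c ((h ^ i) x) := hz8.trans_le (dcChi_inl_le hψ01 _ _)
      have hdi := hδ i (Finset.mem_Ico.mpr ⟨hzc.1, hzc.2.1⟩) x x' hd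
      obtain ⟨h4, h5⟩ := ha c (Finset.mem_range.mpr (by omega)) _ _
        (hdi.trans_le (min_le_left _ _)) h8.le
      obtain ⟨h6, -⟩ := hP c _ (lt_trans (by norm_num) h8)
      obtain ⟨h7, h9⟩ := hfV _ h6
      rw [h3 x, h3 x', h4]
      refine ⟨h7 _, ?_, rfl⟩
      rw [h9] at h5
      have h10 := mem_iInter₂.mp h5 ((j : ℤ) - i).toNat (Finset.mem_range.mpr (by omega))
      rw [mem_preimage] at h10
      have h11 : (h ^ ((j : ℤ) - i).toNat) ((h ^ i) x') = (h ^ j) x' := by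
        rw [← Homeomorph.mul_apply, ← zpow_natCast, ← zpow_add, ← zpow_natCast h j]
        congr 2
        omega
      rw [← h11]
      exact h10
    · obtain ⟨hzc, hz8⟩ := hA1 _ hc
      rw [dc_mem_inr] at hzc
      have h8 : 1 / 8 < ψ₁ c ((h ^ (j : ℤ)) x) := hz8.trans_le (dcChi_inr_le hψ₁01 _ _)
      have hdi := hδ j (Finset.mem_Ico.mpr ⟨by omega, by omega⟩) x x' hd
      obtain ⟨h4, h5⟩ := hb c (Finset.mem_range.mpr (by omega)) _ _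
        (hdi.trans_le (min_le_right _ _)) h8.le
      obtain ⟨h6, -⟩ := hP₁ c _ (lt_trans (by norm_num) h8)
      rw [h3 x, h3 x', h4]
      refine ⟨h6, ?_, rfl⟩
      rw [zpow_natCast] at h5 ⊢
      exact h5
    · exfalso
      by_cases H : ∃ i : ℤ, (j : ℤ) - L < i ∧ i ≤ j ∧ 1 / 2 ≤ ω ((h ^ i) x)
      · obtain ⟨i, hi1, hi2, hi3⟩ := H
        obtain ⟨c, hc, hc1⟩ := hψ ((h ^ i) x)
        refine h1 ⟨(i, c), hA2 _ ((dc_mem_inl ht i c).mpr ⟨by omega, by omega, hc⟩) ?_, hi2,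
          by simp only; omega⟩
        change 7 / 8 < dcT (ω ((h ^ i) x)) * ψ c ((h ^ i) x)
        rw [dcT_one hi3, hc1]
        norm_num
      · push Not at H
        obtain ⟨c, hc, hc1⟩ := hψ₁ ((h ^ (j : ℤ)) x)
        refine h2 ⟨c, hA2 _ ((dc_mem_inr j c).mpr ⟨hj, hc⟩) ?_⟩
        change 7 / 8 < (∏ i ∈ Finset.Ioc ((j : ℤ) - L) j, dcS (ω ((h ^ i) x))) *
          ψ₁ c ((h ^ (j : ℤ)) x)
        rw [hc1, Finset.prod_eq_one]
        · norm_num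
        · intro i hi
          rw [Finset.mem_Ioc] at hi
          exact dcS_one (H i hi.1 hi.2).le
  refine ⟨⟨fun j => if j < N then dcU h L P P₁ fV U₀ x A j else U₀, ?_, ?_⟩, ?_, ?_⟩
  · intro j
    by_cases hj : j < N
    · simp only [if_pos hj]
      exact (key j hj).1
    · simp only [if_neg hj]
      exact hU₀
  · refine iInter₂_congr fun j hj => ?_
    rw [Finset.mem_range] at hj
    simp only [if_pos hj]
  · rw [mem_iInter₂]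
    intro j hj
    exact (key j (Finset.mem_range.mp hj)).2.1
  · refine iInter₂_congr fun j hj => ?_
    rw [(key j (Finset.mem_range.mp hj)).2.2]

open scoped Classical in
/-- the count -/
theorem dc_count {X : Type*} [MetricSpace X] (h : X ≃ₜ X)
    {κ t L R N n n₁ E : ℕ} (ω : C(X, ℝ)) (ht : t * (2 * κ + 1) ≤ n + 1) (ψ ψ₁ : ℕ → C(X, ℝ))
    (x : X)
    (hD : (n + 1) * ((Finset.Ico (-(R : ℤ)) (N + R)).filter fun i => ω ((h ^ i) x) ≠ 0).card +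
      (n₁ + 1) * ((Finset.range N).filter fun j : ℕ => ∀ i : ℤ, (j : ℤ) - L < i → i ≤ j →
        ω ((h ^ i) x) < 3 / 4).card ≤ E) :
    (2 * κ + 1) * (Finset.univ.filter fun γ : Fin ((N + 2 * R) * t) =>
        x ∈ {x | 1 / 4 < ω ((h ^ ((((finProdFinEquiv.symm γ).1 : ℕ) : ℤ) - R)) x)}).card +
      ((dcSs κ t R N n n₁).toList.filter fun c => 1 / 8 < dcChi h L ω ψ ψ₁ c x ∧
        dcChi h L ω ψ ψ₁ c x < 7 / 8).length ≤ E := by
  set K := (Finset.Ico (-(R : ℤ)) (N + R)).filter fun i => ω ((h ^ i) x) ≠ 0 with hK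
  set M := (Finset.range N).filter fun j : ℕ => ∀ i : ℤ, (j : ℤ) - L < i → i ≤ j →
        ω ((h ^ i) x) < 3 / 4 with hM
  have h1 : (Finset.univ.filter fun γ : Fin ((N + 2 * R) * t) =>
        x ∈ {x | 1 / 4 < ω ((h ^ ((((finProdFinEquiv.symm γ).1 : ℕ) : ℤ) - R)) x)}).card ≤
      (K ×ˢ (Finset.univ : Finset (Fin t))).card := by
    refine Finset.card_le_card_of_injOn (fun γ => ((((finProdFinEquiv.symm γ).1 : ℕ) : ℤ) - R,
      (finProdFinEquiv.symm γ).2)) ?_ ?_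
    · intro γ hγ
      simp only [Finset.coe_filter, Finset.mem_univ, true_and, mem_ofPred_eq] at hγ
      simp only [Finset.coe_product, mem_prod, Finset.mem_coe, Finset.mem_univ, and_true]
      rw [hK, Finset.mem_filter, Finset.mem_Ico]
      have := (finProdFinEquiv.symm γ).1.2
      refine ⟨by omega, fun h0 => ?_⟩
      rw [h0] at hγ
      norm_num at hγ
    · intro γ _ γ' _ heq
      simp only [Prod.mk.injEq] at heq
      apply finProdFinEquiv.symm.injective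
      refine Prod.ext (Fin.ext ?_) heq.2
      omega
  have h2 : ((dcSs κ t R N n n₁).toList.filter fun c => 1 / 8 < dcChi h L ω ψ ψ₁ c x ∧
        dcChi h L ω ψ ψ₁ c x < 7 / 8).length ≤
      ((K ×ˢ Finset.Ico (t * (2 * κ + 1)) (n + 1)).disjSum
        (M ×ˢ Finset.range (n₁ + 1))).card := by
    rw [dc_filter_length]
    refine Finset.card_le_card fun c hc => ?_
    rw [Finset.mem_filter] at hc
    obtain ⟨hc1, hc2, -⟩ := hc
    rcases c with ⟨i, c⟩ | ⟨j, c⟩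
    · rw [dcSs, Finset.inl_mem_disjSum, Finset.mem_product] at hc1
      rw [Finset.inl_mem_disjSum, Finset.mem_product]
      refine ⟨?_, hc1.2⟩
      rw [hK, Finset.mem_filter]
      exact ⟨hc1.1, dcChi_inl_ne hc2⟩
    · rw [dcSs, Finset.inr_mem_disjSum, Finset.mem_product] at hc1
      rw [Finset.inr_mem_disjSum, Finset.mem_product]
      refine ⟨?_, hc1.2⟩
      rw [hM, Finset.mem_filter]
      exact ⟨hc1.1, dcChi_inr_lt hc2⟩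
  rw [Finset.card_product, Finset.card_univ, Fintype.card_fin] at h1
  rw [Finset.card_disjSum, Finset.card_product, Finset.card_product, Nat.card_Ico,
    Finset.card_range] at h2
  refine le_trans (add_le_add (Nat.mul_le_mul_left _ h1) h2) (le_trans (le_of_eq ?_) hD)
  obtain ⟨u, hu⟩ := Nat.exists_eq_add_of_le ht
  rw [hu, Nat.add_sub_cancel_left]
  ring

open scoped Classical in
/-- the homological order of an iterated cover, from a family -/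
theorem dc_main {X : Type*} [MetricSpace X] [CompactSpace X] {h : X ≃ₜ X}
    {𝒰 : Set (Set X)} {κ t L R N n n₁ a D : ℕ} (hκ : 1 ≤ κ) (hL : 0 < L) (hLR : L ≤ R)
    (ω : C(X, ℝ)) (ht : t * (2 * κ + 1) ≤ n + 1) (ψ ψ₁ : ℕ → C(X, ℝ)) (P P₁ : ℕ → X → Set X)
    (hψ01 : ∀ c x, 0 ≤ ψ c x ∧ ψ c x ≤ 1) (hψ₁01 : ∀ c x, 0 ≤ ψ₁ c x ∧ ψ₁ c x ≤ 1)
    (hψ : ∀ x, ∃ c ≤ n, ψ c x = 1) (hψ₁ : ∀ x, ∃ c ≤ n₁, ψ₁ c x = 1)
    (hP : ∀ c x, 0 < ψ c x → P c x ∈ iterCover h 𝒰 L ∧ x ∈ P c x)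
    (hP₁ : ∀ c x, 0 < ψ₁ c x → P₁ c x ∈ 𝒰 ∧ x ∈ P₁ c x)
    (hPl : ∀ c, ∀ ε > 0, ∃ δ > 0, ∀ x x', dist x x' < δ → ε ≤ ψ c x →
      P c x' = P c x ∧ x' ∈ P c x)
    (hPl₁ : ∀ c, ∀ ε > 0, ∃ δ > 0, ∀ x x', dist x x' < δ → ε ≤ ψ₁ c x →
      P₁ c x' = P₁ c x ∧ x' ∈ P₁ c x)
    (U₀ : Set X) (hU₀ : U₀ ∈ 𝒰)
    (F : Fin (N + 2 * R) → Fin t → Fin κ → Fin 2 → X → (Fin (2 * κ * a) → Fin 2 → ℂ) → ℂ)
    (hF : DcFam h ω (fun G k => ψ ((G : ℕ) * (2 * κ + 1) + k)) R N a F)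
    (hD : ∀ x, (n + 1) *
        ((Finset.Ico (-(R : ℤ)) (N + R)).filter fun i => ω ((h ^ i) x) ≠ 0).card +
      (n₁ + 1) * ((Finset.range N).filter fun j : ℕ => ∀ i : ℤ, (j : ℤ) - L < i → i ≤ j →
        ω ((h ^ i) x) < 3 / 4).card ≤ D + a + 1) :
    HomOrderLE (iterCover h 𝒰 N) D := by
  have hfV : ∀ V, ∃ f : ℕ → Set X, V ∈ iterCover h 𝒰 L → (∀ j, f j ∈ 𝒰) ∧
      V = ⋂ j ∈ Finset.range L, (⇑(h ^ j)) ⁻¹' (f j) := by
    intro V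
    by_cases hV : V ∈ iterCover h 𝒰 L
    · obtain ⟨f, hf, hVf⟩ := hV
      exact ⟨f, fun _ => ⟨hf, hVf⟩⟩
    · exact ⟨fun _ => U₀, fun h => absurd h hV⟩
  choose fV hfV using hfV
  obtain ⟨δ₁, hδ₁, hW⟩ := dc_label (κ := κ) (t := t) (R := R) (N := N) h hL hLR ω ht ψ ψ₁ P P₁
    hψ01 hψ₁01 hψ hψ₁ hP hP₁ hPl hPl₁ fV hfV U₀ hU₀
  refine static (a := a) hκ (dcChi h L ω ψ ψ₁) (dcChi_cont h L ω ψ ψ₁) (dcCrd κ t R N)
    (dcSs κ t R N n n₁).toList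
    (fun γ => F (finProdFinEquiv.symm γ).1 (finProdFinEquiv.symm γ).2)
    (fun γ k e => hF.cont _ _ k e) (fun γ k e x => hF.hom _ _ k e x)
    (fun γ k e x σ q => hF.sym _ _ k e x σ q) ?_ ?_
    (fun γ => {x | 1 / 4 < ω ((h ^ ((((finProdFinEquiv.symm γ).1 : ℕ) : ℤ) - R)) x)})
    ?_ ?_ (iterCover h 𝒰 N)
    (fun x A => ⋂ j ∈ Finset.range N, (⇑(h ^ j)) ⁻¹' (dcU h L P P₁ fV U₀ x A j)) hδ₁ hW
    (fun x => dc_count h ω ht ψ ψ₁ x (hD x))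
  · intro x q hq
    obtain ⟨i, G, k, e, hne⟩ := hF.ne x q hq
    refine ⟨finProdFinEquiv (i, G), k, e, ?_⟩
    simp only [Equiv.symm_apply_apply]
    exact hne
  · intro γ k x q hrad
    by_cases h0 : F (finProdFinEquiv.symm γ).1 (finProdFinEquiv.symm γ).2 k 0 x q = 0 ∧
        F (finProdFinEquiv.symm γ).1 (finProdFinEquiv.symm γ).2 k 1 x q = 0
    · rw [h0.1, h0.2]
      exact dc_hopf_zero _ _ _
    · have h34 : 3 / 4 < ω ((h ^ ((((finProdFinEquiv.symm γ).1 : ℕ) : ℤ) - R)) x) := by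
        by_contra hcon
        refine h0 ⟨?_, ?_⟩
        · by_contra hne
          exact hcon (hF.supp _ _ _ _ _ _ hne)
        · by_contra hne
          exact hcon (hF.supp _ _ _ _ _ _ hne)
      have hχ : ∀ j, dcChi h L ω ψ ψ₁ (dcCrd κ t R N γ j) x =
          ψ (((finProdFinEquiv.symm γ).2 : ℕ) * (2 * κ + 1) + j)
            ((h ^ ((((finProdFinEquiv.symm γ).1 : ℕ) : ℤ) - R)) x) := by
        intro j
        change dcT (ω ((h ^ ((((finProdFinEquiv.symm γ).1 : ℕ) : ℤ) - R)) x)) *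
          ψ (((finProdFinEquiv.symm γ).2 : ℕ) * (2 * κ + 1) + j)
            ((h ^ ((((finProdFinEquiv.symm γ).1 : ℕ) : ℤ) - R)) x) = _
        rw [dcT_one (by linarith), one_mul]
      have hnF := dc_nF_congr (fun i x => dcChi h L ω ψ ψ₁ (dcCrd κ t R N γ i) x - 1 / 2)
        (fun j x => ψ (((finProdFinEquiv.symm γ).2 : ℕ) * (2 * κ + 1) + j) x - 1 / 2) rho x
        ((h ^ ((((finProdFinEquiv.symm γ).1 : ℕ) : ℤ) - R)) x)
        (fun j => by simp only [hχ]) k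
      have h4 := hF.hopf (finProdFinEquiv.symm γ).1 (finProdFinEquiv.symm γ).2 k x q _ rfl
      simp only [rad] at hrad h4
      rw [hnF, hχ, hχ] at hrad
      rw [hnF, hχ, hχ]
      exact h4 hrad
  · intro γ k e x q hne
    have := hF.supp _ _ _ _ _ _ hne
    rw [mem_ofPred_eq]
    linarith
  · intro γ x hx i _
    rw [mem_ofPred_eq, not_lt] at hx
    change dcT (ω ((h ^ ((((finProdFinEquiv.symm γ).1 : ℕ) : ℤ) - R)) x)) *
      ψ (((finProdFinEquiv.symm γ).2 : ℕ) * (2 * κ + 1) + i)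
        ((h ^ ((((finProdFinEquiv.symm γ).1 : ℕ) : ℤ) - R)) x) ≤ 1 / 8
    rw [dcT_zero hx, zero_mul]
    norm_num

theorem dyn_cover {X : Type*} [MetricSpace X] [CompactSpace X] [Infinite X]
    {A : Type*} [CStarAlgebra A] [PartialOrder A] [StarOrderedRing A] {h : X ≃ₜ X}
    (hmin : IsMinimalHomeo h) (hA : IsCrossedProduct h A) {r : ℝ} (hr : IsComparisonBound A r)
    {𝒰 : Set (Set X)} (h𝒰 : IsFinOpenCover 𝒰) {κ L : ℕ} (hκ : 1 ≤ κ) (hL : 0 < L) {ε : ℝ}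
    (hε : 0 < ε) {s : ℝ} (hs0 : 0 ≤ s)
    (hs : s + r < κ * ((coverDim (iterCover h 𝒰 L) + 1) / (2 * κ + 1) : ℕ) * (1 - ε) / L) :
    ∃ C' : ℝ, ∀ N a D : ℕ, (2 * κ * a + 1 : ℝ) ≤ s * N - C' →
      (coverDim (iterCover h 𝒰 L) + 1) * (N / L : ℝ) + (coverDim 𝒰 + 1) * (ε * N) + C' ≤
        D + a + 1 → HomOrderLE (iterCover h 𝒰 N) D := by
  classical
  obtain ⟨ψ, P, hψ01, hψ, hP, hPl⟩ := exists_colours _ (isFinOpenCover_iterCover h h𝒰 L)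
  obtain ⟨ψ₁, P₁, hψ₁01, hψ₁, hP₁, hPl₁⟩ := exists_colours _ h𝒰
  obtain ⟨ω, hω0, hω1, hsep, hcount⟩ := exists_tower h hmin L hL hε
  obtain ⟨R₀, C₀, hfam⟩ := exists_family (κ := κ)
    (t := (coverDim (iterCover h 𝒰 L) + 1) / (2 * κ + 1)) hmin hA hr hL ω hω0 hω1 hcount
    (fun G k => ψ ((G : ℕ) * (2 * κ + 1) + k)) hs0 hs
  obtain ⟨C₁, hC₁⟩ := count_uncovered h hL ω hsep hε hcount
  have hU₀ : ∃ U₀, U₀ ∈ 𝒰 := by
    have h1 : (Classical.arbitrary X) ∈ ⋃₀ 𝒰 := by rw [h𝒰.2.2]; trivial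
    obtain ⟨U, hU, -⟩ := h1
    exact ⟨U, hU⟩
  obtain ⟨U₀, hU₀⟩ := hU₀
  have hL' : (0 : ℝ) < L := Nat.cast_pos.mpr hL
  have e1 : (0 : ℝ) ≤ (coverDim (iterCover h 𝒰 L) + 1) * (2 * ((R₀ + L : ℕ) : ℝ) / L + 1) := by
    positivity
  have e2 : (0 : ℝ) ≤ (coverDim 𝒰 + 1) * |C₁| := by positivity
  refine ⟨|C₀| + (coverDim (iterCover h 𝒰 L) + 1) * (2 * ((R₀ + L : ℕ) : ℝ) / L + 1) +
    (coverDim 𝒰 + 1) * |C₁|, fun N a D h1 h2 => ?_⟩
  obtain ⟨F, f1, f2, f3, f4, f5, f6⟩ := hfam N a (by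
    have := le_abs_self C₀
    linarith)
  have hF : DcFam h ω (fun (G : Fin ((coverDim (iterCover h 𝒰 L) + 1) / (2 * κ + 1))) k =>
      ψ ((G : ℕ) * (2 * κ + 1) + k)) R₀ N a F :=
    ⟨f1, f2, f3, f4, f5, fun i G k x q x' hx' hrad => by
      subst hx'
      exact f6 i G k x q hrad⟩
  obtain ⟨F', hF'⟩ := hF.extend L
  refine dc_main hκ hL (Nat.le_add_left L R₀) ω (Nat.div_mul_le_self _ _) ψ ψ₁ P P₁ hψ01 hψ₁01 hψ
    hψ₁ hP hP₁ hPl hPl₁ U₀ hU₀ F' hF' fun x => ?_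
  have g1 := count_windows h hL ω hsep x (-((R₀ + L : ℕ) : ℤ)) (N + ((R₀ + L : ℕ) : ℤ)) (by omega)
  have g2 := hC₁ x N
  have g3 := mul_le_mul_of_nonneg_left g1
    (by positivity : (0 : ℝ) ≤ (coverDim (iterCover h 𝒰 L) + 1))
  have g4 := mul_le_mul_of_nonneg_left (g2.trans (add_le_add_right (le_abs_self C₁) _))
    (by positivity : (0 : ℝ) ≤ (coverDim 𝒰 + 1))
  have g5 : (((N + ((R₀ + L : ℕ) : ℤ) - -((R₀ + L : ℕ) : ℤ) : ℤ)) : ℝ) / L + 1 =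
      (N : ℝ) / L + (2 * ((R₀ + L : ℕ) : ℝ) / L + 1) := by
    push_cast
    ring
  rw [g5] at g3
  have g6 := abs_nonneg C₀
  have g7 : ((coverDim (iterCover h 𝒰 L) + 1 : ℝ) * (((Finset.Ico (-((R₀ + L : ℕ) : ℤ))
      (N + ((R₀ + L : ℕ) : ℤ))).filter fun i => ω ((h ^ i) x) ≠ 0).card : ℝ) +
      (coverDim 𝒰 + 1) * (((Finset.range N).filter fun j : ℕ => ∀ i : ℤ, (j : ℤ) - L < i → i ≤ j →
        ω ((h ^ i) x) < 3 / 4).card : ℝ)) ≤ D + a + 1 := by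
    nlinarith [g3, g4, h2, g6]
  exact_mod_cast g7


end Vale.Agent.P093.Hom
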