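import Mathlib
import Vale.Agent.P093.MdimBridge

/-!
The growth rate of the order of a cover is finite: `D(𝒰^{[0,N)}) ≤ N D(𝒰)`.
-/

open Set Filter
open scoped ENNReal

namespace Vale.Agent.P093.Hom

theorem coverDim_iterCover_le_mul {X : Type*} [TopologicalSpace X] [NormalSpace X] (h : X ≃ₜ X)
    {𝒰 : Set (Set X)} (h𝒰 : IsFinOpenCover 𝒰) (N : ℕ) :
    coverDim (iterCover h 𝒰 N) ≤ N * coverDim 𝒰 := by
  classical
  set d := coverDim 𝒰 with hd
  have hne : {d : ℕ | ∃ 𝒱 : Set (Set X), IsFinOpenCover 𝒱 ∧ (∀ V ∈ 𝒱, ∃ U ∈ 𝒰, V ⊆ U) ∧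
      ∀ S ⊆ 𝒱, (⋂₀ S).Nonempty → S.encard ≤ d + 1}.Nonempty := by
    refine ⟨𝒰.ncard, 𝒰, h𝒰, fun U hU => ⟨U, hU, le_rfl⟩, fun S hS _ => ?_⟩
    calc S.encard ≤ 𝒰.encard := encard_le_encard hS
      _ = (𝒰.ncard : ℕ∞) := by rw [h𝒰.1.cast_ncard_eq]
      _ ≤ _ := le_self_add
  obtain ⟨𝒱, h𝒱, hr, ho⟩ := Nat.sInf_mem hne
  change ∀ S ⊆ 𝒱, (⋂₀ S).Nonempty → S.encard ≤ (d : ℕ∞) + 1 at ho
  obtain ⟨C, hC⟩ := exists_colored (W := 𝒰) (q := d) h𝒱 hr (fun x S hS hx => by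
    have h1 := ho (S : Set (Set X)) hS ⟨x, mem_sInter.2 fun t ht => hx t ht⟩
    rw [encard_coe_eq_coe_finsetCard] at h1
    exact_mod_cast h1) (N * d + 1)
  let V' : Set (Set X) :=
    {v | v.Nonempty ∧ ∃ (k : Fin (N * d + 1)) (s : Fin N → Set X), (∀ i, s i ∈ C k) ∧
      v = {x | ∀ i : Fin N, (h ^ (i : ℕ)) x ∈ s i}}
  apply Nat.sInf_le
  refine ⟨V', ⟨?_, ?_, ?_⟩, ?_, ?_⟩
  · have hfin : (⋃ k : Fin (N * d + 1), (fun s : Fin N → Set X =>
        {x | ∀ i : Fin N, (h ^ (i : ℕ)) x ∈ s i}) '' (Set.pi Set.univ fun _ => C k)).Finite := by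
      apply Set.finite_iUnion
      intro k
      exact (Set.Finite.pi fun _ => hC.fin k).image _
    apply hfin.subset
    rintro v ⟨_, k, s, hs, rfl⟩
    exact Set.mem_iUnion.mpr ⟨k, s, fun i _ => hs i, rfl⟩
  · rintro v ⟨_, k, s, hs, rfl⟩
    have : {x | ∀ i : Fin N, (h ^ (i : ℕ)) x ∈ s i} = ⋂ i : Fin N, (h ^ (i : ℕ)) ⁻¹' (s i) := by
      ext x
      simp
    rw [this]
    exact isOpen_iInter_of_finite fun i => (hC.op k _ (hs i)).preimage (h ^ (i : ℕ)).continuous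
  · rw [Set.eq_univ_iff_forall]
    intro x
    obtain ⟨k, hk⟩ : ∃ k : Fin (N * d + 1), ∀ i : Fin N, (h ^ (i : ℕ)) x ∈ ⋃₀ C k := by
      by_contra hcon
      push Not at hcon
      have h1 : ∀ k : Fin (N * d + 1),
          1 ≤ ∑ i : Fin N, (if (h ^ (i : ℕ)) x ∈ ⋃₀ C k then 0 else 1) := by
        intro k
        obtain ⟨i, hi⟩ := hcon k
        calc 1 = (if (h ^ (i : ℕ)) x ∈ ⋃₀ C k then 0 else 1) := by rw [if_neg hi]
          _ ≤ _ := Finset.single_le_sum (f := fun i : Fin N =>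
            if (h ^ (i : ℕ)) x ∈ ⋃₀ C k then 0 else 1) (fun _ _ => Nat.zero_le _)
            (Finset.mem_univ i)
      have h2 : N * d + 1 ≤ ∑ k : Fin (N * d + 1), ∑ i : Fin N,
          (if (h ^ (i : ℕ)) x ∈ ⋃₀ C k then 0 else 1) := by
        calc N * d + 1 = ∑ _k : Fin (N * d + 1), 1 := by simp
          _ ≤ _ := Finset.sum_le_sum fun k _ => h1 k
      rw [Finset.sum_comm] at h2
      have h3 : ∑ i : Fin N, ∑ k : Fin (N * d + 1),
          (if (h ^ (i : ℕ)) x ∈ ⋃₀ C k then 0 else 1) ≤ N * d := by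
        calc _ ≤ ∑ _i : Fin N, d := Finset.sum_le_sum fun i _ => hC.miss ((h ^ (i : ℕ)) x)
          _ = N * d := by simp
      omega
    choose s hs hxs using hk
    exact ⟨{x | ∀ i : Fin N, (h ^ (i : ℕ)) x ∈ s i}, ⟨⟨x, fun i => hxs i⟩, k, s, hs, rfl⟩,
      fun i => hxs i⟩
  · rintro v ⟨⟨x, hx⟩, k, s, hs, rfl⟩
    obtain ⟨u₀, hu₀, -⟩ : x ∈ ⋃₀ 𝒰 := by rw [h𝒰.2.2]; exact mem_univ x
    have href := fun i : Fin N => hC.ref k _ (hs i)
    choose u hu hsu using href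
    refine ⟨_, ⟨fun j => if hj : j < N then u ⟨j, hj⟩ else u₀, fun j => ?_, rfl⟩, fun y hy => ?_⟩
    · by_cases hj : j < N
      · simp only [hj, dif_pos]; exact hu _
      · simp only [hj, dif_neg, not_false_eq_true]; exact hu₀
    · simp only [mem_iInter, Finset.mem_range]
      intro j hj
      simp only [hj, dif_pos]
      exact hsu ⟨j, hj⟩ (hy ⟨j, hj⟩)
  · intro S hS hSne
    obtain ⟨x, hx⟩ := hSne
    let col : Set X → Fin (N * d + 1) := fun v =>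
      if h : v ∈ V' then h.2.choose else ⟨0, Nat.succ_pos _⟩
    have hinj : Set.InjOn col S := by
      intro v hv w hw hvw
      have hv' := hS hv
      have hw' := hS hw
      have h1 : col v = hv'.2.choose := dif_pos hv'
      have h2 : col w = hw'.2.choose := dif_pos hw'
      obtain ⟨s, hs, hvs⟩ := hv'.2.choose_spec
      obtain ⟨t, ht, hwt⟩ := hw'.2.choose_spec
      have hxv := Set.mem_sInter.mp hx v hv
      have hxw := Set.mem_sInter.mp hx w hw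
      rw [hvs] at hxv
      rw [hwt] at hxw
      rw [hvs, hwt]
      have h3 : hv'.2.choose = hw'.2.choose := by rw [← h1, ← h2, hvw]
      have h4 : s = t := by
        funext i
        apply hC.disj hw'.2.choose (s i) (by rw [← h3]; exact hs i) (t i) (ht i)
        exact ⟨(h ^ (i : ℕ)) x, hxv i, hxw i⟩
      rw [h4]
    rw [← hinj.encard_image]
    calc (col '' S).encard ≤ (Set.univ : Set (Fin (N * d + 1))).encard :=
          Set.encard_le_encard (Set.subset_univ _)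
      _ = ((N * d : ℕ) : ℕ∞) + 1 := by
          rw [Set.encard_univ, ENat.card_eq_coe_fintype_card, Fintype.card_fin]
          push_cast
          rfl

theorem limsup_coverDim_ne_top {X : Type*} [TopologicalSpace X] [NormalSpace X] (h : X ≃ₜ X)
    {𝒰 : Set (Set X)} (h𝒰 : IsFinOpenCover 𝒰) :
    limsup (fun N : ℕ => (coverDim (iterCover h 𝒰 N) : ℝ≥0∞) / N) atTop ≠ ∞ := by
  refine ne_top_of_le_ne_top (ENNReal.natCast_ne_top (coverDim 𝒰)) ?_
  refine limsup_le_of_le (by isBoundedDefault) ?_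
  filter_upwards [eventually_gt_atTop 0] with N hN
  have h1 : (N : ℝ≥0∞) ≠ 0 := Nat.cast_ne_zero.2 hN.ne'
  rw [ENNReal.div_le_iff h1 (ENNReal.natCast_ne_top _), mul_comm]
  exact_mod_cast coverDim_iterCover_le_mul h h𝒰 N

end Vale.Agent.P093.Hom
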