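import Mathlib
import Vale.Agent.P093.Hom.DynCover
import Vale.Agent.P093.Hom.StaticZero
import Vale.Agent.P093.Hom.Finite
import Vale.Agent.P093.Criterion

/-!
TASK HOM-H6: the final inequality.

Proof of `key_ineq` (`r` a comparison bound, `κ ≥ 1`, `m = (meanDim h).toReal`, `meanDim h ≠ ∞`): for every
finite open cover `𝒰`, with `z = limsup homOrder(𝒰^N)/N` (finite, `≤ δ = limsup coverDim(𝒰^N)/N ≤ m`, by
`homOrderLE_coverDim` and `Nat.sInf_le`), `2κ z - (2κ - κ/(2κ+1)) m ≤ r`.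
Fix `η > 0`. Choose `L` large with `δ - η ≤ coverDim (𝒰^L) / L ≤ δ + η`
(frequently `≥`, eventually `≤`). Let `n = coverDim (𝒰^L)`, `t = (n+1)/(2κ+1)` (floor), so
`t ≥ (n+1)/(2κ+1) - 1`; let `ε > 0` small.
Case A: `r < κ t (1-ε)/L`. For `0 ≤ s < κ t (1-ε)/L - r` `dyn_cover` gives `C'`. For `N` large let
`a = ⌊(s N - C' - 1)/(2κ)⌋` and `D = ⌈(n+1) N/L + (n₁+1) ε N + C' - a - 1⌉` (as a natural number; the real number
inside is positive for large `N` as `s/(2κ) < t/(2 L) ≤ n+1/(2L)`); so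
`homOrder (𝒰^N) ≤ D` and `z ≤ (n+1)/L + (n₁+1) ε - s/(2κ)`. Let `s → κ t/L (1-ε) - r`, `ε → 0`:
`z ≤ (n+1)/L - t/(2L) + r/(2κ) ≤ ((n+1)/L) (1 - 1/(2(2κ+1))) + 1/(2L) + r/(2κ)`, and
`(n+1)/L ≤ m + η + 1/L`. So `r ≥ 2κ z - (2κ - κ/(2κ+1)) (m + η + 1/L) - κ/L`.
Case B: `κ t (1-ε)/L ≤ r` for all small `ε`, so `κ t/L ≤ r`: `r ≥ κ/(2κ+1) (n+1)/L - κ/L ≥
κ/(2κ+1) (δ - η) - κ/L`, and `κ/(2κ+1) δ ≥ κ/(2κ+1) δ - 2κ (δ - z) = 2κ z - (2κ - κ/(2κ+1)) δ
≥ 2κ z - (2κ - κ/(2κ+1)) m`.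
Let `L → ∞`, `η → 0`.
`hom_ineq`: take the supremum over `𝒰` and the infimum over `r` (`radiusOfComparison` is an infimum of
`ENNReal.ofReal r`; if there is no comparison bound it is `∞`).
`hom_main`: with `homMeanDim h = meanDim h = m` finite, `hom_ineq` gives `κ/(2κ+1) m ≤ rc` for all `κ ≥ 1`;
let `κ → ∞`.
Topological version: `metrizableSpaceMetric X`.
-/

open Filter Topology Set
open scoped ENNReal

namespace Vale.Agent.P093.Hom

/-- the limit superior of a sequence with a linear upper bound -/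
theorem fi_limsup_le {f : ℕ → ℕ} {β C : ℝ} (hβ : 0 ≤ β) {N₀ : ℕ}
    (hf : ∀ N, N₀ ≤ N → (f N : ℝ) ≤ β * N + C) :
    limsup (fun N : ℕ => (f N : ℝ≥0∞) / N) atTop ≤ ENNReal.ofReal β := by
  refine ENNReal.le_of_forall_pos_le_add fun η hη _ => ?_
  refine limsup_le_of_le (by isBoundedDefault) ?_
  have hη' : (0 : ℝ) < η := hη
  obtain ⟨M, hM⟩ := exists_nat_gt (C / η)
  filter_upwards [eventually_ge_atTop N₀, eventually_ge_atTop M, eventually_gt_atTop 0]
    with N h1 h2 h0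
  have h3 : (0 : ℝ) < N := Nat.cast_pos.2 h0
  have h2' : (M : ℝ) ≤ N := Nat.cast_le.2 h2
  have h4 : (f N : ℝ) / N ≤ β + η := by
    rw [div_le_iff₀ h3]
    have h5 := hf N h1
    have h6 := (div_lt_iff₀ hη').1 (hM.trans_le h2')
    linarith
  rw [← ENNReal.ofReal_coe_nnreal (p := η), ← ENNReal.ofReal_add hβ η.coe_nonneg]
  have e : (f N : ℝ≥0∞) / N = ENNReal.ofReal ((f N : ℝ) / N) := by
    rw [ENNReal.ofReal_div_of_pos h3, ENNReal.ofReal_natCast, ENNReal.ofReal_natCast]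
  rw [e]
  exact ENNReal.ofReal_le_ofReal h4

theorem fi_homOrder_le {X : Type*} [MetricSpace X] [CompactSpace X] (h : X ≃ₜ X)
    {𝒰 : Set (Set X)} (h𝒰 : IsFinOpenCover 𝒰) (N : ℕ) :
    homOrder (iterCover h 𝒰 N) ≤ coverDim (iterCover h 𝒰 N) :=
  Nat.sInf_le (homOrderLE_coverDim _ (isFinOpenCover_iterCover h h𝒰 N))

theorem fi_limsup_le_limsup {X : Type*} [MetricSpace X] [CompactSpace X] (h : X ≃ₜ X)
    {𝒰 : Set (Set X)} (h𝒰 : IsFinOpenCover 𝒰) :
    limsup (fun N : ℕ => (homOrder (iterCover h 𝒰 N) : ℝ≥0∞) / N) atTop ≤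
      limsup (fun N : ℕ => (coverDim (iterCover h 𝒰 N) : ℝ≥0∞) / N) atTop :=
  limsup_le_limsup (Eventually.of_forall fun N =>
    ENNReal.div_le_div_right (Nat.cast_le.2 (fi_homOrder_le h h𝒰 N)) _)

theorem homMeanDim_le_meanDim {X : Type*} [MetricSpace X] [CompactSpace X] (h : X ≃ₜ X) :
    homMeanDim h ≤ meanDim h :=
  iSup_mono fun 𝒰 => fi_limsup_le_limsup h 𝒰.2

/-- The estimate for one length `L`. -/
theorem fi_step {X : Type*} [MetricSpace X] [CompactSpace X] [Infinite X]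
    {A : Type*} [CStarAlgebra A] [PartialOrder A] [StarOrderedRing A] {h : X ≃ₜ X}
    (hmin : IsMinimalHomeo h) (hA : IsCrossedProduct h A) {r : ℝ} (hr : IsComparisonBound A r)
    {𝒰 : Set (Set X)} (h𝒰 : IsFinOpenCover 𝒰) {κ L : ℕ} (hκ : 1 ≤ κ) (hL : 0 < L) {θ : ℝ}
    (hθ : 0 < θ) :
    κ * (((coverDim (iterCover h 𝒰 L) + 1) / (2 * κ + 1) : ℕ) : ℝ) / L ≤ r + θ ∨
      2 * κ * (limsup (fun N : ℕ => (homOrder (iterCover h 𝒰 N) : ℝ≥0∞) / N) atTop).toReal ≤
        2 * κ * ((coverDim (iterCover h 𝒰 L) + 1 : ℝ) / L) -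
          κ * (((coverDim (iterCover h 𝒰 L) + 1) / (2 * κ + 1) : ℕ) : ℝ) / L + r + θ := by
  set n := coverDim (iterCover h 𝒰 L) with hn
  set n₁ := coverDim 𝒰 with hn₁
  set t := (n + 1) / (2 * κ + 1) with ht
  have htn : (t : ℝ) ≤ n + 1 := by exact_mod_cast Nat.div_le_self (n + 1) (2 * κ + 1)
  have hκ' : (1 : ℝ) ≤ κ := Nat.one_le_cast.2 hκ
  have hL' : (0 : ℝ) < L := Nat.cast_pos.2 hL
  have hr0 : 0 ≤ r := hr.1
  have ht0 : (0 : ℝ) ≤ t := Nat.cast_nonneg t
  have hn10 : (0 : ℝ) ≤ n₁ := Nat.cast_nonneg n₁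
  set b : ℝ := κ * (t : ℝ) / L with hb
  have hb0 : 0 ≤ b := by positivity
  by_cases hbr : b ≤ r + θ
  · exact Or.inl hbr
  right
  push Not at hbr
  set Kc : ℝ := b + 2 * κ * (n₁ + 1) with hKc
  have hKc0 : 0 < Kc := by positivity
  set ε : ℝ := min (1 / 2) (θ / (2 * Kc)) with hε
  have hε0 : 0 < ε := lt_min (by norm_num) (by positivity)
  have hε1 : ε ≤ 1 / 2 := min_le_left _ _
  have hεK : ε * Kc ≤ θ / 2 := by
    have h1 : ε ≤ θ / (2 * Kc) := min_le_right _ _
    rw [le_div_iff₀ (by positivity)] at h1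
    linarith
  have hεb : ε * b + 2 * κ * (n₁ + 1) * ε ≤ θ / 2 := by
    rw [hKc] at hεK
    linarith
  have hεb' : 0 ≤ 2 * κ * (n₁ + 1) * ε := by positivity
  set s : ℝ := b * (1 - ε) - r - θ / 2 with hs
  have hs0 : 0 < s := by
    rw [hs]
    linarith
  have hsb : s ≤ b := by
    have : 0 ≤ ε * b := by positivity
    rw [hs]
    linarith
  have hs1 : s + r < κ * ((n + 1) / (2 * κ + 1) : ℕ) * (1 - ε) / L := by
    have e : (κ * ((n + 1) / (2 * κ + 1) : ℕ) * (1 - ε) / L : ℝ) = b * (1 - ε) := by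
      rw [hb, ht]
      ring
    rw [e, hs]
    linarith
  obtain ⟨C', hC'⟩ := dyn_cover hmin hA hr h𝒰 hκ hL hε0 hs0.le hs1
  rw [← hn, ← hn₁] at hC'
  set β : ℝ := (n + 1) / L + (n₁ + 1) * ε - s / (2 * κ) with hβ
  have hbn : b ≤ κ * ((n + 1) / L) := by
    rw [hb, mul_div_assoc]
    exact mul_le_mul_of_nonneg_left (div_le_div_of_nonneg_right htn hL'.le) (by positivity)
  have hy0 : (0 : ℝ) ≤ (n + 1) / L := by positivity
  have hβ0 : 0 ≤ β := by
    have h1 : s / (2 * κ) ≤ (n + 1) / L := by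
      rw [div_le_iff₀ (by positivity)]
      have h3 : 0 ≤ κ * ((n + 1) / L : ℝ) := by positivity
      linarith
    have h2 : 0 ≤ (n₁ + 1) * ε := by positivity
    rw [hβ]
    linarith
  have hz := fi_limsup_le (f := fun N => homOrder (iterCover h 𝒰 N)) (β := β)
    (C := 2 * |C'| + 2) hβ0 (N₀ := ⌈(|C'| + 1) / s⌉₊) fun N hN => by
      have hN1 : |C'| + 1 ≤ s * N := by
        have h1 := Nat.ceil_le.1 hN
        rw [div_le_iff₀ hs0] at h1
        linarith
      have hC1 := le_abs_self C'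
      have hC2 := neg_abs_le C'
      have hx0 : 0 ≤ (s * N - C' - 1) / (2 * κ) := div_nonneg (by linarith) (by positivity)
      have ha := Nat.floor_le hx0
      have ha' := Nat.lt_floor_add_one ((s * N - C' - 1) / (2 * κ))
      set a := ⌊(s * N - C' - 1) / (2 * κ)⌋₊
      have h2a : (2 * κ * a + 1 : ℝ) ≤ s * N - C' := by
        rw [le_div_iff₀ (by positivity)] at ha
        linarith
      set x : ℝ := (n + 1) * (N / L : ℝ) + (n₁ + 1) * (ε * N) + C' - a - 1 with hx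
      have hD := Nat.le_ceil x
      have hle : homOrder (iterCover h 𝒰 N) ≤ ⌈x⌉₊ :=
        Nat.sInf_le (hC' N a ⌈x⌉₊ h2a (by linarith))
      have hDx : (⌈x⌉₊ : ℝ) ≤ β * N + (2 * |C'| + 2) := by
        have hxb : x ≤ β * N + (2 * |C'| + 1) := by
          have e1 : (s * N - C' - 1) / (2 * κ) = s / (2 * κ) * N - (C' + 1) / (2 * κ) := by
            ring
          have e2 : (C' + 1) / (2 * κ) ≤ |C'| + 1 := by
            rw [div_le_iff₀ (by positivity)]
            have h3 : (|C'| + 1) * 1 ≤ (|C'| + 1) * (2 * κ) :=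
              mul_le_mul_of_nonneg_left (by linarith) (by positivity)
            linarith
          have e3 : (n + 1) * (N / L : ℝ) = (n + 1) / L * N := by ring
          rw [e1] at ha'
          rw [hx, e3, hβ]
          linarith
        rcases le_or_gt 0 x with h0 | h0
        · have := Nat.ceil_lt_add_one h0
          linarith
        · rw [Nat.ceil_eq_zero.2 h0.le]
          have : 0 ≤ β * N := by positivity
          have := abs_nonneg C'
          push_cast
          linarith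
      exact (Nat.cast_le.2 hle).trans hDx
  have hz' := ENNReal.toReal_le_of_le_ofReal hβ0 hz
  set z := (limsup (fun N : ℕ => (homOrder (iterCover h 𝒰 N) : ℝ≥0∞) / N) atTop).toReal
  have h1 : 2 * κ * z ≤ 2 * κ * β := mul_le_mul_of_nonneg_left hz' (by positivity)
  have h2 : 2 * κ * β = 2 * κ * ((n + 1) / L) + 2 * κ * (n₁ + 1) * ε - s := by
    rw [hβ]
    field_simp
  rw [h2, hs] at h1
  linarith

/-- The key estimate for one cover. -/
theorem cover_key {X : Type*} [MetricSpace X] [CompactSpace X] [Infinite X]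
    {A : Type*} [CStarAlgebra A] [PartialOrder A] [StarOrderedRing A] {h : X ≃ₜ X}
    (hmin : IsMinimalHomeo h) (hA : IsCrossedProduct h A) {r : ℝ} (hr : IsComparisonBound A r)
    {κ : ℕ} (hκ : 1 ≤ κ) {𝒰 : Set (Set X)} (h𝒰 : IsFinOpenCover 𝒰) :
    2 * κ * (limsup (fun N : ℕ => (homOrder (iterCover h 𝒰 N) : ℝ≥0∞) / N) atTop).toReal -
      (2 * κ - κ / (2 * κ + 1)) *
        (limsup (fun N : ℕ => (coverDim (iterCover h 𝒰 N) : ℝ≥0∞) / N) atTop).toReal ≤ r := by
  have hzδ := fi_limsup_le_limsup h h𝒰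
  set δ' := limsup (fun N : ℕ => (coverDim (iterCover h 𝒰 N) : ℝ≥0∞) / N) atTop with hδ'
  have hδfin : δ' ≠ ∞ := limsup_coverDim_ne_top h h𝒰
  have hzδ' := ENNReal.toReal_mono hδfin hzδ
  have hδe : δ' = ENNReal.ofReal δ'.toReal := (ENNReal.ofReal_toReal hδfin).symm
  have hκ' : (1 : ℝ) ≤ κ := Nat.one_le_cast.2 hκ
  have hstep := fun (L : ℕ) (hL : 0 < L) (θ : ℝ) (hθ : 0 < θ) =>
    fi_step hmin hA hr h𝒰 hκ hL hθ
  set z := (limsup (fun N : ℕ => (homOrder (iterCover h 𝒰 N) : ℝ≥0∞) / N) atTop).toReal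
  set δ := δ'.toReal
  have hδ0 : 0 ≤ δ := ENNReal.toReal_nonneg
  set c : ℝ := κ / (2 * κ + 1) with hc
  have hc0 : 0 ≤ c := by positivity
  have hc1 : c ≤ 1 := by
    rw [hc, div_le_one (by positivity)]
    linarith
  have hmain : 2 * κ * z - (2 * κ - c) * δ ≤ r := by
    refine le_of_forall_pos_le_add fun θ hθ => ?_
    have hη : 0 < θ / (8 * κ) := by positivity
    set η : ℝ := θ / (8 * κ) with hηd
    have hη2 : 2 * κ * η = θ / 4 := by
      rw [hηd]
      field_simp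
      norm_num
    have h1 : ∃ᶠ N : ℕ in atTop, δ - η ≤ (coverDim (iterCover h 𝒰 N) : ℝ) / N := by
      rcases lt_or_ge (δ - η) 0 with h0 | h0
      · exact Frequently.of_forall fun N => h0.le.trans (by positivity)
      · have hlt : ENNReal.ofReal (δ - η) < δ' := by
          rw [hδe]
          exact (ENNReal.ofReal_lt_ofReal_iff (by linarith)).2 (by linarith)
        refine ((frequently_lt_of_lt_limsup (by isBoundedDefault) hlt).and_eventually
          (eventually_gt_atTop 0)).mono fun N hN => ?_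
        have h2 := ENNReal.toReal_mono (ENNReal.div_ne_top (ENNReal.natCast_ne_top _)
          (Nat.cast_ne_zero.2 hN.2.ne')) hN.1.le
        rw [ENNReal.toReal_ofReal h0, ENNReal.toReal_div, ENNReal.toReal_natCast,
          ENNReal.toReal_natCast] at h2
        exact h2
    have h2 : ∀ᶠ N : ℕ in atTop, (coverDim (iterCover h 𝒰 N) : ℝ) / N ≤ δ + η := by
      have hlt : δ' < ENNReal.ofReal (δ + η) := by
        rw [hδe]
        exact (ENNReal.ofReal_lt_ofReal_iff (by linarith)).2 (by linarith)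
      refine (eventually_lt_of_limsup_lt hlt (by isBoundedDefault)).mono fun N hN => ?_
      have h3 := ENNReal.toReal_mono ENNReal.ofReal_ne_top hN.le
      rw [ENNReal.toReal_ofReal (by linarith), ENNReal.toReal_div, ENNReal.toReal_natCast,
        ENNReal.toReal_natCast] at h3
      exact h3
    obtain ⟨L, hL1, hL2, hL3, hL0⟩ := (h1.and_eventually (h2.and
      ((eventually_ge_atTop ⌈12 * κ / θ⌉₊).and (eventually_gt_atTop 0)))).exists
    have hL' : (0 : ℝ) < L := Nat.cast_pos.2 hL0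
    have hL4 : 12 * (κ / L : ℝ) ≤ θ := by
      have h3 := Nat.ceil_le.1 hL3
      rw [div_le_iff₀ hθ] at h3
      rw [← mul_div_assoc, div_le_iff₀ hL']
      linarith
    have hL5 : (1 / L : ℝ) * κ = κ / L := by ring
    set n := coverDim (iterCover h 𝒰 L) with hn
    set t := (n + 1) / (2 * κ + 1) with ht
    have htn : ((n + 1 : ℕ) : ℝ) < ((2 * κ + 1) * (t + 1) : ℕ) :=
      Nat.cast_lt.2 (Nat.lt_mul_div_succ (n + 1) (by omega))
    push_cast at htn
    -- `κ t / L ≥ c (n+1)/L - κ/L`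
    have hb : c * ((n + 1) / L) - κ / L ≤ κ * (t : ℝ) / L := by
      have e1 : c * ((n + 1) / L) - κ / L = κ * ((n + 1) / (2 * κ + 1) - 1) / L := by
        rw [hc]
        ring
      rw [e1]
      refine div_le_div_of_nonneg_right (mul_le_mul_of_nonneg_left ?_ (by positivity)) hL'.le
      rw [sub_le_iff_le_add, div_le_iff₀ (by positivity)]
      linarith
    have hy : ((n : ℝ) + 1) / L = n / L + 1 / L := by ring
    have h1L : (0 : ℝ) ≤ 1 / L := by positivity
    rcases hstep L hL0 (θ / 4) (by positivity) with h3 | h3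
    · have h4 : c * (δ - η) ≤ c * ((n + 1) / L) := by
        refine mul_le_mul_of_nonneg_left ?_ hc0
        rw [hy]
        linarith
      have h5 : c * η ≤ 2 * κ * η := mul_le_mul_of_nonneg_right (by linarith) hη.le
      have h6 : 2 * κ * z ≤ 2 * κ * δ := mul_le_mul_of_nonneg_left hzδ' (by positivity)
      have h7 : 0 ≤ (κ / L : ℝ) := by positivity
      linarith
    · have h4 : (2 * κ - c) * ((n + 1) / L) ≤ (2 * κ - c) * (δ + η + 1 / L) := by
        refine mul_le_mul_of_nonneg_left ?_ (by linarith)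
        rw [hy]
        linarith
      have h5 : 0 ≤ c * η := by positivity
      have h6 : 0 ≤ c * (1 / L) := by positivity
      have h7 : 0 ≤ (κ / L : ℝ) := by positivity
      linarith
  exact hmain

theorem key_ineq {X : Type*} [MetricSpace X] [CompactSpace X] [Infinite X]
    {A : Type*} [CStarAlgebra A] [PartialOrder A] [StarOrderedRing A] {h : X ≃ₜ X}
    (hmin : IsMinimalHomeo h) (hA : IsCrossedProduct h A) {r : ℝ} (hr : IsComparisonBound A r)
    (hfin : meanDim h ≠ ∞) {κ : ℕ} (hκ : 1 ≤ κ) {𝒰 : Set (Set X)} (h𝒰 : IsFinOpenCover 𝒰) :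
    2 * κ * (limsup (fun N : ℕ => (homOrder (iterCover h 𝒰 N) : ℝ≥0∞) / N) atTop).toReal -
      (2 * κ - κ / (2 * κ + 1)) * (meanDim h).toReal ≤ r := by
  have h1 := cover_key hmin hA hr hκ h𝒰
  have hδm : limsup (fun N : ℕ => (coverDim (iterCover h 𝒰 N) : ℝ≥0∞) / N) atTop ≤ meanDim h :=
    le_iSup (fun 𝒱 : {𝒱 : Set (Set X) // IsFinOpenCover 𝒱} =>
      limsup (fun N : ℕ => (coverDim (iterCover h 𝒱.1 N) : ℝ≥0∞) / N) atTop) ⟨𝒰, h𝒰⟩
  have hδm' := ENNReal.toReal_mono hfin hδm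
  have hκ' : (1 : ℝ) ≤ κ := Nat.one_le_cast.2 hκ
  have hc1 : (κ / (2 * κ + 1) : ℝ) ≤ 1 := by
    rw [div_le_one (by positivity)]
    linarith
  have h3 := mul_le_mul_of_nonneg_left hδm' (a := (2 * κ - κ / (2 * κ + 1) : ℝ)) (by linarith)
  linarith

theorem hom_ineq {X : Type*} [TopologicalSpace X] [CompactSpace X]
    [TopologicalSpace.MetrizableSpace X] [Infinite X]
    {A : Type*} [CStarAlgebra A] [PartialOrder A] [StarOrderedRing A] {h : X ≃ₜ X}
    (hmin : IsMinimalHomeo h) (hA : IsCrossedProduct h A) (hfin : meanDim h ≠ ∞) {κ : ℕ}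
    (hκ : 1 ≤ κ) :
    ENNReal.ofReal (2 * κ * (homMeanDim h).toReal -
      (2 * κ - κ / (2 * κ + 1)) * (meanDim h).toReal) ≤ radiusOfComparison A := by
  let _ := TopologicalSpace.metrizableSpaceMetric X
  have hκ' : (1 : ℝ) ≤ κ := Nat.one_le_cast.2 hκ
  refine le_iInf fun r => ENNReal.ofReal_le_ofReal ?_
  have hkey := fun (𝒰 : {𝒰 : Set (Set X) // IsFinOpenCover 𝒰}) =>
    key_ineq hmin hA r.2 hfin hκ 𝒰.2
  set m := (meanDim h).toReal
  have hm0 : 0 ≤ m := ENNReal.toReal_nonneg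
  have hc1 : (κ / (2 * κ + 1) : ℝ) ≤ 1 := by
    rw [div_le_one (by positivity)]
    linarith
  set c : ℝ := κ / (2 * κ + 1) with hc
  have hr0 : 0 ≤ r.1 := r.2.1
  have hB : 0 ≤ (r.1 + (2 * κ - c) * m) / (2 * κ) := by
    have : 0 ≤ (2 * κ - c) * m := mul_nonneg (by linarith) hm0
    positivity
  have h1 : homMeanDim h ≤ ENNReal.ofReal ((r.1 + (2 * κ - c) * m) / (2 * κ)) := by
    refine iSup_le fun 𝒰 => ?_
    have hfin' : limsup (fun N : ℕ => (homOrder (iterCover h 𝒰.1 N) : ℝ≥0∞) / N) atTop ≠ ∞ :=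
      ne_top_of_le_ne_top hfin ((le_iSup (fun 𝒱 : {𝒱 : Set (Set X) // IsFinOpenCover 𝒱} =>
        limsup (fun N : ℕ => (homOrder (iterCover h 𝒱.1 N) : ℝ≥0∞) / N) atTop) 𝒰).trans
        (homMeanDim_le_meanDim h))
    rw [← ENNReal.ofReal_toReal hfin']
    refine ENNReal.ofReal_le_ofReal ?_
    rw [le_div_iff₀ (by positivity)]
    linarith [hkey 𝒰]
  have h2 := ENNReal.toReal_le_of_le_ofReal hB h1
  rw [le_div_iff₀ (by positivity)] at h2
  linarith

theorem hom_main {X : Type*} [TopologicalSpace X] [CompactSpace X]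
    [TopologicalSpace.MetrizableSpace X] [Infinite X]
    {A : Type*} [CStarAlgebra A] [PartialOrder A] [StarOrderedRing A] {h : X ≃ₜ X}
    (hmin : IsMinimalHomeo h) (hA : IsCrossedProduct h A) (hfin : meanDim h ≠ ∞)
    (heq : homMeanDim h = meanDim h) : meanDim h / 2 ≤ radiusOfComparison A := by
  set m := (meanDim h).toReal with hm
  have e : meanDim h / 2 = ENNReal.ofReal (1 / 2 * m) := by
    rw [one_div, ENNReal.ofReal_mul (by norm_num), hm, ENNReal.ofReal_toReal hfin,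
      ENNReal.ofReal_inv_of_pos (by norm_num), mul_comm, ENNReal.ofReal_ofNat]
    rfl
  rw [e]
  have ht : Tendsto (fun κ : ℕ => ENNReal.ofReal ((κ / (2 * κ + 1) : ℝ) * m)) atTop
      (𝓝 (ENNReal.ofReal (1 / 2 * m))) := by
    refine ENNReal.tendsto_ofReal (Tendsto.mul_const m ?_)
    have h1 : Tendsto (fun κ : ℕ => 1 / 2 - 1 / 2 * (1 / ((κ : ℝ) + 1 / 2)) * (1 / 2)) atTop
        (𝓝 (1 / 2 - 1 / 2 * 0 * (1 / 2))) := by
      refine tendsto_const_nhds.sub ((Tendsto.const_mul _ ?_).mul_const _)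
      simp only [one_div]
      exact tendsto_inv_atTop_zero.comp
        (tendsto_atTop_add_const_right _ _ tendsto_natCast_atTop_atTop)
    rw [mul_zero, zero_mul, sub_zero] at h1
    refine h1.congr fun κ => ?_
    field_simp
    ring
  refine le_of_tendsto ht ((eventually_ge_atTop 1).mono fun κ hκ => ?_)
  refine le_trans (ENNReal.ofReal_le_ofReal (le_of_eq ?_)) (hom_ineq hmin hA hfin hκ)
  rw [heq, ← hm]
  ring

end Vale.Agent.P093.Hom
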