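import Mathlib
import Vale.Agent.P093.Hom.Final
import Vale.Agent.P093.Hom.CubeLower
import Vale.Agent.P093.Hom.ResultDefs

/-!
The final statements.
-/

open Filter Topology Set
open scoped ENNReal

namespace Vale.Agent.P093.Hom

section Rates

variable {X : Type*} [TopologicalSpace X]

theorem coverRate_le_meanDim (h : X ≃ₜ X) {𝒰 : Set (Set X)} (h𝒰 : IsFinOpenCover 𝒰) :
    coverRate h 𝒰 ≤ meanDim h :=
  le_iSup (fun 𝒱 : {𝒱 : Set (Set X) // IsFinOpenCover 𝒱} => coverRate h 𝒱.1) ⟨𝒰, h𝒰⟩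

theorem coverRate_ne_top [NormalSpace X] (h : X ≃ₜ X) {𝒰 : Set (Set X)}
    (h𝒰 : IsFinOpenCover 𝒰) : coverRate h 𝒰 ≠ ∞ := limsup_coverDim_ne_top h h𝒰

variable [CompactSpace X] [TopologicalSpace.MetrizableSpace X]

theorem homRate_le (h : X ≃ₜ X) {𝒰 : Set (Set X)} (h𝒰 : IsFinOpenCover 𝒰) :
    homRate h 𝒰 ≤ coverRate h 𝒰 := by
  let _ := TopologicalSpace.metrizableSpaceMetric X
  exact fi_limsup_le_limsup h h𝒰

theorem homOrder_le_coverDim {𝒲 : Set (Set X)} (h𝒲 : IsFinOpenCover 𝒲) :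
    homOrder 𝒲 ≤ coverDim 𝒲 := by
  let _ := TopologicalSpace.metrizableSpaceMetric X
  exact Nat.sInf_le (homOrderLE_coverDim 𝒲 h𝒲)

theorem homMeanDim_le (h : X ≃ₜ X) : homMeanDim h ≤ meanDim h := by
  let _ := TopologicalSpace.metrizableSpaceMetric X
  exact homMeanDim_le_meanDim h

theorem homDetected_of_eq (h : X ≃ₜ X) (hfin : meanDim h ≠ ∞) (he : homMeanDim h = meanDim h) :
    HomDetected h := by
  intro c hc η hη
  have h1 : max c (η * meanDim h) < homMeanDim h := by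
    rw [he]
    refine max_lt hc ?_
    have h0 : meanDim h ≠ 0 := hc.ne_bot
    calc η * meanDim h = meanDim h * η := mul_comm _ _
      _ < meanDim h * 1 := ENNReal.mul_lt_mul_right h0 hfin hη
      _ = meanDim h := mul_one _
  obtain ⟨𝒰, h𝒰⟩ := lt_iSup_iff.1 h1
  change _ < homRate h 𝒰.1 at h𝒰
  exact ⟨𝒰.1, 𝒰.2, ((le_max_left _ _).trans_lt h𝒰).trans_le (homRate_le h 𝒰.2),
    (mul_le_mul_right (coverRate_le_meanDim h 𝒰.2) η).trans ((le_max_right _ _).trans h𝒰.le)⟩

end Rates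

section Main

variable {X : Type*} [TopologicalSpace X] [CompactSpace X] [TopologicalSpace.MetrizableSpace X]
  [Infinite X] {A : Type*} [CStarAlgebra A] [PartialOrder A] [StarOrderedRing A] {h : X ≃ₜ X}

theorem cover_bound (hmin : IsMinimalHomeo h) (hA : IsCrossedProduct h A) {𝒰 : Set (Set X)}
    (h𝒰 : IsFinOpenCover 𝒰) (κ : ℕ) :
    2 * κ * homRate h 𝒰 ≤
      radiusOfComparison A + κ * (4 * κ + 1) / (2 * κ + 1) * coverRate h 𝒰 := by
  rcases Nat.eq_zero_or_pos κ with rfl | hκ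
  · simp
  let _ := TopologicalSpace.metrizableSpaceMetric X
  have hδ := coverRate_ne_top h h𝒰
  have hz := ne_top_of_le_ne_top hδ (homRate_le h h𝒰)
  rw [← tsub_le_iff_right]
  refine le_iInf fun r => ?_
  rw [tsub_le_iff_right]
  have h1 : 2 * κ * (homRate h 𝒰).toReal - (2 * κ - κ / (2 * κ + 1)) * (coverRate h 𝒰).toReal ≤
      r.1 := cover_key hmin hA r.2 hκ h𝒰
  have hr0 : 0 ≤ r.1 := r.2.1
  have e : (2 * κ - κ / (2 * κ + 1) : ℝ) = κ * (4 * κ + 1) / (2 * κ + 1) := by
    field_simp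
    ring
  rw [e] at h1
  have h2 : 2 * κ * (homRate h 𝒰).toReal ≤
      r.1 + κ * (4 * κ + 1) / (2 * κ + 1) * (coverRate h 𝒰).toReal := by linarith
  have h3 := ENNReal.ofReal_le_ofReal h2
  rw [ENNReal.ofReal_add hr0 (by positivity), ENNReal.ofReal_mul (by positivity),
    ENNReal.ofReal_mul (by positivity), ENNReal.ofReal_mul (by positivity),
    ENNReal.ofReal_toReal hz, ENNReal.ofReal_toReal hδ, ENNReal.ofReal_div_of_pos (by positivity),
    ENNReal.ofReal_mul (by positivity), ENNReal.ofReal_add (by positivity) zero_le_one,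
    ENNReal.ofReal_add (by positivity) zero_le_one, ENNReal.ofReal_mul (by positivity),
    ENNReal.ofReal_mul (by positivity), ENNReal.ofReal_natCast, ENNReal.ofReal_one,
    ENNReal.ofReal_ofNat, ENNReal.ofReal_ofNat] at h3
  exact h3

theorem mean_bound (hmin : IsMinimalHomeo h) (hA : IsCrossedProduct h A) (κ : ℕ) :
    2 * κ * homMeanDim h ≤
      radiusOfComparison A + κ * (4 * κ + 1) / (2 * κ + 1) * meanDim h := by
  rw [homMeanDim, ENNReal.mul_iSup]
  refine iSup_le fun 𝒰 => (cover_bound hmin hA 𝒰.2 κ).trans ?_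
  gcongr
  exact coverRate_le_meanDim h 𝒰.2

theorem detected_bound (hmin : IsMinimalHomeo h) (hA : IsCrossedProduct h A)
    (hd : HomDetected h) : meanDim h / 2 ≤ radiusOfComparison A := by
  rcases eq_or_ne (radiusOfComparison A) ∞ with hR | hR
  · rw [hR]
    exact le_top
  rw [ENNReal.div_le_iff two_ne_zero ENNReal.ofNat_ne_top]
  refine le_of_forall_lt_imp_le_of_dense fun c hc => ?_
  have hc' : c ≠ ∞ := hc.ne_top
  by_contra hcon
  push Not at hcon
  have h0 : (radiusOfComparison A).toReal * 2 < c.toReal := by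
    have h1 := ENNReal.toReal_strict_mono hc' hcon
    rwa [ENNReal.toReal_mul, ENNReal.toReal_ofNat] at h1
  set R := (radiusOfComparison A).toReal with hRd
  set c' := c.toReal
  have hR0 : 0 ≤ R := ENNReal.toReal_nonneg
  obtain ⟨κ, hκ⟩ := exists_nat_gt ((R + c') / (c' - R * 2))
  rw [div_lt_iff₀ (by linarith)] at hκ
  have hκ1 : 1 ≤ κ := by
    rcases Nat.eq_zero_or_pos κ with rfl | h1
    · simp only [Nat.cast_zero, zero_mul] at hκ
      linarith
    · exact h1
  have hκ' : (1 : ℝ) ≤ κ := Nat.one_le_cast.2 hκ1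
  set θ : ℝ := 1 / (2 * κ * (2 * κ + 1)) with hθ
  have hθ0 : 0 < θ := by positivity
  have hθ1 : θ ≤ 1 := by
    rw [hθ, div_le_one (by positivity)]
    nlinarith
  have hη : ENNReal.ofReal (1 - θ) < 1 := by
    rw [← ENNReal.ofReal_one]
    exact (ENNReal.ofReal_lt_ofReal_iff one_pos).2 (by linarith)
  obtain ⟨𝒰, h𝒰, h1, h2⟩ := hd c hc _ hη
  have hδ := coverRate_ne_top h h𝒰
  have hz := ne_top_of_le_ne_top hδ (homRate_le h h𝒰)
  have h3 := ENNReal.toReal_mono (by
    exact ENNReal.add_ne_top.2 ⟨hR, ENNReal.mul_ne_top (ENNReal.div_ne_top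
      (ENNReal.mul_ne_top (ENNReal.natCast_ne_top _) (by finiteness)) (by positivity)) hδ⟩)
    (cover_bound hmin hA h𝒰 κ)
  rw [ENNReal.toReal_add hR (ENNReal.mul_ne_top (ENNReal.div_ne_top
      (ENNReal.mul_ne_top (ENNReal.natCast_ne_top _) (by finiteness)) (by positivity)) hδ)] at h3
  have h1' := ENNReal.toReal_strict_mono hδ h1
  have h2' := ENNReal.toReal_mono hz h2
  rw [ENNReal.toReal_mul, ENNReal.toReal_ofReal (by linarith)] at h2'
  have e1 : (2 * (κ : ℝ≥0∞) * homRate h 𝒰).toReal = 2 * κ * (homRate h 𝒰).toReal := by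
    rw [ENNReal.toReal_mul, ENNReal.toReal_mul, ENNReal.toReal_ofNat, ENNReal.toReal_natCast]
  have e2 : ((κ : ℝ≥0∞) * (4 * κ + 1) / (2 * κ + 1) * coverRate h 𝒰).toReal =
      κ * (4 * κ + 1) / (2 * κ + 1) * (coverRate h 𝒰).toReal := by
    rw [ENNReal.toReal_mul, ENNReal.toReal_div, ENNReal.toReal_mul,
      ENNReal.toReal_add (by finiteness) ENNReal.one_ne_top,
      ENNReal.toReal_add (by finiteness) ENNReal.one_ne_top, ENNReal.toReal_mul,
      ENNReal.toReal_mul, ENNReal.toReal_ofNat, ENNReal.toReal_ofNat, ENNReal.toReal_natCast,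
      ENNReal.toReal_one]
  rw [e1, e2, ← hRd] at h3
  set δ := (coverRate h 𝒰).toReal
  set z := (homRate h 𝒰).toReal
  have h4 : 2 * κ * ((1 - θ) * δ) ≤ 2 * κ * z := mul_le_mul_of_nonneg_left h2' (by positivity)
  have e3 : 2 * κ * ((1 - θ) * δ) = κ * (4 * κ + 1) / (2 * κ + 1) * δ +
      (κ - 1) * δ / (2 * κ + 1) := by
    rw [hθ]
    field_simp
    ring
  have h5 : (κ - 1) * δ / (2 * κ + 1) ≤ R := by linarith
  rw [div_le_iff₀ (by positivity)] at h5
  have h6 : (κ - 1) * c' ≤ (κ - 1) * δ := mul_le_mul_of_nonneg_left h1'.le (by linarith)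
  linarith

end Main

section CubesLower

theorem cubes_bound {X : Type*} [TopologicalSpace X] [CompactSpace X]
    [TopologicalSpace.MetrizableSpace X] {h : X ≃ₜ X} {q : ℕ} {f : X → Fin q → unitInterval}
    (hf : Continuous f) {N : ℕ → ℕ} {J : ℕ → Finset (ℕ × Fin q)}
    {Ψ : ℕ → (ℕ → Fin q → unitInterval) → X} (hN : Tendsto N atTop atTop)
    (hΨ : ∀ k, Continuous (Ψ k))
    (hJ : ∀ k, ∀ p ∈ J k, p.1 < N k ∧ ∀ y, f ((h ^ p.1) (Ψ k y)) p.2 = y p.1 p.2) :
    limsup (fun k => ((J k).card : ℝ≥0∞) / N k) atTop ≤ homMeanDim h := by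
  classical
  have hcard : ∀ k, ((J k).card : ℝ≥0∞) / N k ≤ q := by
    intro k
    rcases Nat.eq_zero_or_pos (N k) with h0 | h0
    · have : J k = ∅ := by
        rw [Finset.eq_empty_iff_forall_notMem]
        intro p hp
        have := (hJ k p hp).1
        omega
      simp [this]
    · rw [ENNReal.div_le_iff (Nat.cast_ne_zero.2 h0.ne') (ENNReal.natCast_ne_top _)]
      have h1 : J k ⊆ Finset.range (N k) ×ˢ (Finset.univ : Finset (Fin q)) := by
        intro p hp
        exact Finset.mem_product.2 ⟨Finset.mem_range.2 (hJ k p hp).1, Finset.mem_univ _⟩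
      have h2 := Finset.card_le_card h1
      rw [Finset.card_product, Finset.card_range, Finset.card_univ, Fintype.card_fin,
        mul_comm] at h2
      exact_mod_cast h2
  set L := limsup (fun k => ((J k).card : ℝ≥0∞) / N k) atTop with hL
  have hLtop : L ≠ ∞ := ne_top_of_le_ne_top (ENNReal.natCast_ne_top q)
    (limsup_le_of_le (by isBoundedDefault) (Eventually.of_forall hcard))
  rw [← ENNReal.ofReal_toReal hLtop]
  refine homMeanDim_ge (μ := L.toReal) hf (fun k p hp => (hJ k p hp).1) hΨ ?_ ?_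
  · intro ε hε N₀
    rcases lt_or_ge (L.toReal - ε) 0 with h0 | h0
    · obtain ⟨k, hk⟩ := (hN.eventually_ge_atTop N₀).exists
      exact ⟨k, hk, (mul_nonpos_of_nonpos_of_nonneg h0.le (Nat.cast_nonneg _)).trans
        (Nat.cast_nonneg _)⟩
    · have hlt : ENNReal.ofReal (L.toReal - ε) < L := by
        conv_rhs => rw [← ENNReal.ofReal_toReal hLtop]
        exact (ENNReal.ofReal_lt_ofReal_iff (by linarith)).2 (by linarith)
      obtain ⟨k, hk, hk1, hk2⟩ := ((frequently_lt_of_lt_limsup (by isBoundedDefault)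
        hlt).and_eventually ((hN.eventually_ge_atTop N₀).and
          (hN.eventually_gt_atTop 0))).exists
      refine ⟨k, hk1, ?_⟩
      have h3 := ENNReal.toReal_mono (ENNReal.div_ne_top (ENNReal.natCast_ne_top _)
        (Nat.cast_ne_zero.2 hk2.ne')) hk.le
      rw [ENNReal.toReal_ofReal h0, ENNReal.toReal_div, ENNReal.toReal_natCast,
        ENNReal.toReal_natCast, le_div_iff₀ (Nat.cast_pos.2 hk2)] at h3
      exact h3
  · intro k p hp y
    have h1 := (hJ k p hp).2 y
    rwa [pow_eq_iterate] at h1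

end CubesLower

end Vale.Agent.P093.Hom
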